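import Vale.Agent.P073.H716.PB1

/-!
# P073 / H716: **[POST-BEAM]** `SpecPostBeam p`, `2 ≤ p`, from the line and the plane sums
-/

open Set MeasureTheory Filter Finset
open scoped ENNReal NNReal

namespace Vale.Agent.P073.H716

open Vale.Agent.P073
open Vale.Agent.P073.St (V euc)
open Vale.Agent.P073.SQ (ev Cells)
open Vale.Agent.P073.AB
open Vale.Agent.P073.AB.P86 (sc)
open Vale.Agent.P073.H73 (onSeg segP MinEdge K2AS faceL)
open Vale.Agent.P073.H239 (Deep)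
open Vale.Agent.P073.H235
open Vale.Agent.P073.H253
open Vale.Agent.P073.LOC (Q1)
open _root_.P073 (ConHomeo)
open _root_.P073.Net (dyc dyo IsTile SizeFn)

theorem not_meetY {v : V} {s : Set V} : ¬ meetY v ∅ s := by
  rintro ⟨s', hs', -⟩; exact hs'

theorem eSum_empty (p : ℝ) (v : V) (I : Set Idx) (ℓ : Idx × Fin 3 → ℝ≥0∞) :
    eSum p v I ℓ ∅ = 0 := by
  unfold eSum
  have : IsEmpty {i : Idx // i ∈ I ∧ (dyc v i.1 i.2 ∩ ∅).Nonempty} :=
    ⟨fun i => by simpa using i.2.2⟩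
  exact tsum_empty

section

variable {p C θ₁ θ₂ ν₁ ν τ ε δ : ℝ} {Λ : Set V} {f : V → V}

/-- the width of the plane rectangle -/
theorem unit2 (P : PreBeam p C θ₁ θ₂ ν₁ ν τ ε δ Λ f) (hθ₂ : θ₂ ≤ 1 / 4) :
    ∀ j, j ≠ (1 : Fin 3) → ((P.b j - P.a j : ℤ) : ℝ) / 2 ^ P.nS ≤ 1 := by
  intro j hj
  rcases fin3_cases hj with rfl | rfl
  · have := P.unit
    push_cast
    exact this
  · have h0 := P.alt 0 (by decide)
    have h2 := P.alt 2 (by decide)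
    have hk1 : (![P.a 0, P.a 1, P.a 2] : Fin 3 → ℤ) ∈ rectN 1 P.a P.b :=
      mem_rect1.2 ⟨rfl, ⟨le_rfl, h0⟩, ⟨le_rfl, h2⟩⟩
    have hk2 : (![P.a 0, P.a 1, P.b 2 - 1] : Fin 3 → ℤ) ∈ rectN 1 P.a P.b := by
      refine mem_rect1.2 ⟨rfl, ⟨le_rfl, h0⟩, ?_⟩
      show P.a 2 ≤ P.b 2 - 1 ∧ P.b 2 - 1 < P.b 2
      omega
    have s1 := H687.squ_sub_Ω P.part (P.minS _ hk1)
    have s2 := H687.squ_sub_Ω P.part (P.minS _ hk2)
    -- the corners
    have hpt : ∀ k : Fin 3 → ℤ, ∀ t : ℝ, 0 ≤ t → t ≤ 1 → ∀ hk : k 1 = P.a 1,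
        (fun j => P.v j + (k j + if j = 2 then t else 0) / 2 ^ P.nS : V) ∈
          squ P.v ((P.nS, k), 1) := by
      intro k t ht0 ht1 _
      constructor
      · simp
      · intro l hl
        simp only
        constructor
        · gcongr
          split_ifs <;> linarith
        · gcongr
          split_ifs <;> linarith
    have c1 := (s1 (hpt _ 0 le_rfl zero_le_one rfl) 2).1
    have c2 := (s2 (hpt _ 1 zero_le_one le_rfl rfl) 2).2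
    have e1 : bm θ₁ θ₂ 2 = 2 * θ₂ := rfl
    rw [e1] at c2
    simp only [if_true, Matrix.cons_val] at c1 c2
    push_cast at c1 c2 ⊢
    have e2 : ((P.b 2 : ℝ) - 1 + 1) / 2 ^ P.nS = P.b 2 / 2 ^ P.nS := by ring
    have e3 : ((P.a 2 : ℝ) + 0) / 2 ^ P.nS = P.a 2 / 2 ^ P.nS := by ring
    rw [e2] at c2
    rw [e3] at c1
    rw [sub_div]
    linarith

/-- the core rectangle covers -/
theorem cov_pt (P : PreBeam p C θ₁ θ₂ ν₁ ν τ ε δ Λ f) (hθ₂ : 0 < θ₂) (hν₁ : 0 < ν₁)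
    (hν₁4 : ν₁ ≤ ν / 4) (hν4 : ν ≤ 1 / 4) {t : ℝ} (h1 : ν / 8 ≤ t) (h2 : t ≤ 1 - ν / 8) :
    P.v 0 + P.a 0 / 2 ^ P.nS ≤ t ∧ t ≤ P.v 0 + P.b 0 / 2 ^ P.nS := by
  have hν : 0 < ν := by linarith
  have hx : (![t, 1 / 2, θ₂] : V) ∈ Bx (fl θ₂) ∩ Co (fl θ₂) (ν₁ / 2) {0, 2} := by
    constructor
    · intro i
      fin_cases i
      · show 0 < t ∧ t < (1:ℝ)
        constructor <;> linarith
      · show (0:ℝ) < 1 / 2 ∧ (1 / 2 : ℝ) < 1
        norm_num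
      · show 0 < θ₂ ∧ θ₂ < 2 * θ₂
        constructor <;> linarith
    · intro i hi
      rw [Finset.mem_insert, Finset.mem_singleton] at hi
      rcases hi with rfl | rfl
      · show ν₁ / 2 / 4 * 1 ≤ t ∧ t ≤ (1 - ν₁ / 2 / 4) * 1
        constructor <;> linarith
      · show ν₁ / 2 / 4 * (2 * θ₂) ≤ θ₂ ∧ θ₂ ≤ (1 - ν₁ / 2 / 4) * (2 * θ₂)
        constructor <;> nlinarith
  obtain ⟨k, hk, hkx⟩ := P.cov _ hx
  obtain ⟨-, ⟨h3, h4⟩, -⟩ := mem_rect1.1 hk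
  obtain ⟨h5, h6⟩ := hkx.2 0 (by decide : (0 : Fin 3) ≠ 1)
  have e1 : Function.update (![t, 1 / 2, θ₂] : V) 1 (P.v 1 + P.a 1 / 2 ^ P.nS) 0 = t := by
    rw [Function.update_of_ne (by decide)]; rfl
  rw [e1] at h5 h6
  have h3' : (P.a 0 : ℝ) ≤ k 0 := by exact_mod_cast h3
  have h4' : (k 0 : ℝ) + 1 ≤ P.b 0 := by exact_mod_cast h4
  constructor
  · refine le_trans ?_ h5
    show P.v 0 + P.a 0 / 2 ^ P.nS ≤ P.v 0 + (k 0 : ℝ) / 2 ^ P.nS
    gcongr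
  · refine h6.trans ?_
    show P.v 0 + ((k 0 : ℝ) + 1) / 2 ^ P.nS ≤ P.v 0 + P.b 0 / 2 ^ P.nS
    gcongr

end

/-- **[POST-BEAM]** -/
theorem specPostBeam_of {p : ℝ} (hp : 2 ≤ p) (hPl : SpecPlaneSum) (hL : SpecLineOK) :
    SpecPostBeam p := by
  classical
  intro hK
  have hp1 : 1 ≤ p := by linarith
  obtain ⟨D₀, hD₀, HB⟩ := H73.specBoxPost (by linarith : 0 ≤ p) hK
  obtain ⟨D₁, hD₁, r, hr, hr1, HB⟩ := HB 1 one_pos
  obtain ⟨K, hK0, HS⟩ := H73.specBoxSum p hp1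
  obtain ⟨K₂, hK₂, HP⟩ := hPl p hp1
  refine ⟨2 * (K * D₀ + K₂ * D₀), by positivity, fun C hC ε hε => ?_⟩
  obtain ⟨M, hM, c₁, hc₁, HL⟩ := hL p C D₀ ε hp hC (by linarith) hε
  set c := min c₁ (1 / 8) with hc
  have hc0 : 0 < c := by positivity
  have hc4 : c < 1 / 4 := lt_of_le_of_lt (min_le_right _ _) (by norm_num)
  obtain ⟨δ, hδ, hδc, HB⟩ := HB c hc0 hc4
  refine ⟨M, hM, fun θ₁ θ₂ ν₁ ν hθ₁ hθ₁4 hθ₂ hθ₂4 hν₁ hν₁4 hν4 τ hτ => ?_⟩
  have hν : 0 < ν := by linarith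
  obtain ⟨εL, hεL, HL⟩ := HL c hc0 (min_le_left _ _) τ hτ
  refine ⟨δ, hδ, min εL ν, by positivity, fun τ' Λ f hΛ hf hτ' h1' h2' P => ?_⟩
  have ha : ∀ i, 0 < bm θ₁ θ₂ i := bm_pos hθ₁ hθ₂
  have hfine : 1 / 2 ^ P.nS ≤ ν := P.fine.trans (min_le_right _ _)
  obtain ⟨W, hW, HS⟩ := HS (bm θ₁ θ₂) Λ (cmp (bm θ₁ θ₂) f) δ ha hΛ P.toBoxData
  have hD0 : 0 < D₀ := by linarith
  have hD1 : 0 < D₁ := by linarith
  obtain ⟨β₀, hβ₀, HS⟩ := HS (K * D₀ * (C * ν₁ * θ₁ * θ₂)) (by positivity)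
  set s₀ := min 1 (C * ν * θ₂) with hs₀
  have hs₀0 : 0 < s₀ := by positivity
  have hs₀p : s₀ ^ p ≤ C * ν * θ₂ := by
    calc s₀ ^ p ≤ s₀ ^ (1:ℝ) := Real.rpow_le_rpow_of_exponent_ge hs₀0 (min_le_left _ _) hp1
      _ = s₀ := Real.rpow_one _
      _ ≤ _ := min_le_right _ _
  set β : Idx × Fin 3 → ℝ := fun s =>
    min (β₀ s / D₁) (min (εL / 2 ^ s.1.1) (s₀ / 2 ^ s.1.1)) with hβd
  have hβ : ∀ s, 0 < β s := fun s => by
    have := hβ₀ s
    simp only [hβd]; positivity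
  obtain ⟨g, hg⟩ := HB (Bx (bm θ₁ θ₂)) Λ (cmp (bm θ₁ θ₂) f) (H761.isBoundedDomain_Bx ha) hΛ
    (cmp_cont ha hf) P.toBoxData ∅ β hβ
  -- energies
  have hen : ∀ S : Set V, ∀ x : ℝ, 0 ≤ x → eSum p P.v P.I P.ℓ S ≤ ENNReal.ofReal x →
      C * ν₁ * θ₁ * θ₂ ≤ x → enS W p g.toFun S ≤
        ENNReal.ofReal (2 * (K * D₀ + K₂ * D₀) * x) := by
    intro S x hx hS hxt
    have h1 := HS D₀ 1 D₁ r c ∅ g β hD₀ hD₁ (fun s => min_le_left _ _) hg S
    have e1 : (⋃ s ∈ (∅ : Set (Idx × Fin 3)), squ P.v s) = ∅ := by simp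
    rw [e1, eSum_empty, mul_zero, add_zero] at h1
    refine h1.trans ?_
    calc _ ≤ ENNReal.ofReal (K * D₀) * ENNReal.ofReal x +
          ENNReal.ofReal (K * D₀ * (C * ν₁ * θ₁ * θ₂)) := by gcongr
      _ = ENNReal.ofReal (K * D₀ * x + K * D₀ * (C * ν₁ * θ₁ * θ₂)) := by
          rw [← ENNReal.ofReal_mul (by positivity), ← ENNReal.ofReal_add (by positivity)
            (by positivity)]
      _ ≤ _ := by
          refine ENNReal.ofReal_le_ofReal ?_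
          have h2 : K * D₀ * (C * ν₁ * θ₁ * θ₂) ≤ K * D₀ * x := by gcongr
          have h3 : 0 ≤ K₂ * D₀ * x := by positivity
          linarith
  -- the plane
  have hpl := HP 1 (Bx (bm θ₁ θ₂)) Λ P.v P.I P.nS P.a P.b g P.ℓ D₀ s₀ hD0 hs₀0.le
    (H761.isOpen_box _) P.part (by
      intro j hj
      have := unit2 P hθ₂4 j hj
      push_cast at this
      exact this) P.minS P.minE (by
      intro k hk
      have h1 := hg.energy _ (P.minS k hk)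
      rw [if_neg not_meetY] at h1
      refine h1.trans ?_
      gcongr with e
      exact (min_le_right _ _).trans (min_le_right _ _))
  have hAx : ∀ A : Set V, A ⊆ Bx (fl θ₂) →
      ∃ t₀ t₁ : ℝ, t₁ ≤ t₀ + 1 ∧ ∀ x ∈ A, x 1 ∈ Set.Icc t₀ t₁ :=
    fun A hA => ⟨0, 1, by norm_num, fun x hx => ⟨((hA hx) 1).1.le, ((hA hx) 1).2.le⟩⟩
  have hadd : ∀ x : ℝ, 0 ≤ x → C * ν * θ₂ ≤ x →
      ENNReal.ofReal (K₂ * D₀) * ENNReal.ofReal x + ENNReal.ofReal (K₂ * D₀ * s₀ ^ p) ≤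
        ENNReal.ofReal (2 * (K * D₀ + K₂ * D₀) * x) := by
    intro x hx hxt
    rw [← ENNReal.ofReal_mul (by positivity), ← ENNReal.ofReal_add (by positivity)
      (by positivity)]
    refine ENNReal.ofReal_le_ofReal ?_
    have h2 : K₂ * D₀ * s₀ ^ p ≤ K₂ * D₀ * x := by
      have := hs₀p.trans hxt
      gcongr
    have h3 : 0 ≤ K * D₀ * x := by positivity
    linarith
  refine ⟨P.v 1 + P.a 1 / 2 ^ P.nS, P.v 2 + P.m₂ / 2 ^ P.nS, W, g, P.mid₁.trans hτ',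
    P.mid₂.trans hτ', hW 1 _ P.plane, hg.bd, ?_, ?_, ?_, ?_, ?_⟩
  · refine (hen univ (C * θ₁ * θ₂) (by positivity) P.bulk ?_).trans (le_of_eq ?_)
    · have : ν₁ ≤ 1 := by linarith
      calc C * ν₁ * θ₁ * θ₂ ≤ C * 1 * θ₁ * θ₂ := by gcongr
        _ = _ := by ring
    · congr 1; ring
  · refine (hen _ (C * ν₁ * θ₁ * θ₂) (by positivity) P.frame le_rfl).trans (le_of_eq ?_)
    congr 1; ring
  · have h1 := hpl (rectN 1 P.a P.b) (Bx (fl θ₂) ∩ Co (fl θ₂) (ν₁ / 2) {0, 2}) subset_rfl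
      (fun x hx => P.cov x hx) (hAx _ inter_subset_left)
    refine h1.trans ?_
    have h2 : ∑ i ∈ Finset.univ.erase (1 : Fin 3), ∑ k ∈ redgeN 1 P.a P.b i with
        ∃ k' ∈ rectN 1 P.a P.b, EdgeOfSq ((P.nS, k), i) ((P.nS, k'), 1),
          ENNReal.ofReal (1 / 2 ^ P.nS) * (ENNReal.ofReal ((1 / 2 ^ P.nS) ^ (1 - p)) *
            P.ℓ ((P.nS, k), i) ^ p) ≤ ENNReal.ofReal (C * θ₂) := by
      refine le_trans ?_ P.plBulk
      exact sum_le_sum fun i _ => sum_le_sum_of_subset (Finset.filter_subset _ _)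
    refine (add_le_add (mul_le_mul_right h2 _) le_rfl).trans ?_
    refine (hadd (C * θ₂) (by positivity) ?_).trans (le_of_eq ?_)
    · have : ν ≤ 1 := by linarith
      calc C * ν * θ₂ ≤ C * 1 * θ₂ := by gcongr
        _ = _ := by ring
    · congr 1; ring
  · set S₂ := (rectN 1 P.a P.b).filter fun k => P.v 0 + k 0 / 2 ^ P.nS ≤ 3 * ν ∨
      1 - 3 * ν ≤ P.v 0 + (k 0 + 1) / 2 ^ P.nS with hS₂
    have h1 := hpl S₂ (Bx (fl θ₂) ∩ Co (fl θ₂) (ν₁ / 2) {0, 2} ∩ Fr (fl θ₂) (3 * ν) {0})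
      (Finset.filter_subset _ _) (by
        rintro x ⟨hx, hxF⟩
        obtain ⟨k, hk, hkx⟩ := P.cov x hx
        refine ⟨k, Finset.mem_filter.2 ⟨hk, ?_⟩, hkx⟩
        obtain ⟨i, hi, hxi⟩ := hxF
        rw [Finset.mem_singleton] at hi
        subst hi
        obtain ⟨h5, h6⟩ := hkx.2 0 (by decide : (0 : Fin 3) ≠ 1)
        have e1 : Function.update x 1 (P.v 1 + P.a 1 / 2 ^ P.nS) 0 = x 0 := by
          rw [Function.update_of_ne (by decide)]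
        rw [e1] at h5 h6
        have e2 : fl θ₂ 0 = 1 := rfl
        rw [e2] at hxi
        rcases hxi with h7 | h7
        · left; exact h5.trans (by linarith)
        · right; exact le_trans (by linarith) h6) (hAx _ fun x hx => hx.1.1)
    refine h1.trans ?_
    have h2 : ∑ i ∈ Finset.univ.erase (1 : Fin 3), ∑ k ∈ redgeN 1 P.a P.b i with
        ∃ k' ∈ S₂, EdgeOfSq ((P.nS, k), i) ((P.nS, k'), 1),
          ENNReal.ofReal (1 / 2 ^ P.nS) * (ENNReal.ofReal ((1 / 2 ^ P.nS) ^ (1 - p)) *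
            P.ℓ ((P.nS, k), i) ^ p) ≤ ENNReal.ofReal (C * ν * θ₂) := by
      refine le_trans ?_ P.plFrame
      refine sum_le_sum fun i hi => sum_le_sum_of_subset fun k hk => ?_
      obtain ⟨hk1, k', hk', he⟩ := Finset.mem_filter.1 hk
      refine Finset.mem_filter.2 ⟨hk1, ?_⟩
      obtain ⟨-, hk'2⟩ := Finset.mem_filter.1 hk'
      have hi1 : i ≠ 1 := (Finset.mem_erase.1 hi).1
      have hk0 : k 0 = k' 0 ∨ k 0 = k' 0 + 1 := by
        rcases fin3_cases hi1 with rfl | rfl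
        · exact Or.inl he.2.2.1
        · exact he.2.2.2.2 0 (by decide : (0 : Fin 3) ≠ 2) (by decide : (0 : Fin 3) ≠ 1)
      have hpow : (0:ℝ) < 1 / 2 ^ P.nS := by positivity
      have e1 : ((k' 0 : ℝ) + 1) / 2 ^ P.nS = k' 0 / 2 ^ P.nS + 1 / 2 ^ P.nS := by ring
      have h0 : (k' 0 : ℝ) / 2 ^ P.nS ≤ k 0 / 2 ^ P.nS ∧
          (k 0 : ℝ) / 2 ^ P.nS ≤ k' 0 / 2 ^ P.nS + 1 / 2 ^ P.nS := by
        rcases hk0 with h0 | h0
        · rw [h0]; constructor <;> linarith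
        · rw [h0]; push_cast; rw [e1]; constructor <;> linarith
      rw [e1] at hk'2
      rcases hk'2 with h3 | h3
      · left; linarith [h0.1, h0.2]
      · right; linarith [h0.1, h0.2]
    refine (add_le_add (mul_le_mul_right h2 _) le_rfl).trans ?_
    refine (hadd (C * ν * θ₂) (by positivity) le_rfl).trans (le_of_eq ?_)
    congr 1; ring
  · have hld := lineData P (D := D₀) (D' := D₁) (μ := 1) (r := r) (c := c) (ε₁ := εL) hδ.le hδc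
      hc4 (min_le_left _ _) (β := β)
      (fun s => (min_le_right _ _).trans (min_le_left _ _)) hD0.le hg
    have h1 := HL (Bx (bm θ₁ θ₂)) Λ P.v P.nS P.mt (P.a 1) P.m₂ (P.a 0) (P.b 0) P.G P.h g _ _ hld
      (ν / 8) (1 - ν / 8) (by linarith)
      (cov_pt P hθ₂ hν₁ hν₁4 hν4 le_rfl (by linarith)).1
      (cov_pt P hθ₂ hν₁ hν₁4 hν4 (by linarith) le_rfl).2
    have e1 : P1 (ev 0) = ev 0 := by
      simp [P1, ev]
    rw [e1]
    exact h1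

end Vale.Agent.P073.H716
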