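import Vale.Agent.P073.H253.R1Parts
import Vale.Agent.P073.H73.FlatD
import Vale.Agent.P073.H761.C1
import Vale.Agent.P073.AB.Sum308b

/-!
# P073 / H716: [POST-BEAM], the data on the line
-/

open Set MeasureTheory Filter Finset
open scoped ENNReal NNReal

namespace Vale.Agent.P073.H716

open Vale.Agent.P073
open Vale.Agent.P073.St (V euc)
open Vale.Agent.P073.SQ (ev Cells)
open Vale.Agent.P073.AB
open Vale.Agent.P073.H73 (onSeg segP MinEdge K2AS)
open Vale.Agent.P073.H239 (Deep)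
open Vale.Agent.P073.H235
open Vale.Agent.P073.H253
open Vale.Agent.P073.LOC (Q1)
open _root_.P073 (ConHomeo)
open _root_.P073.Net (dyc dyo IsTile SizeFn)

theorem fin3_cases {i : Fin 3} (hi : i ≠ 1) : i = 0 ∨ i = 2 := by
  revert i; decide

theorem bm_pos {θ₁ θ₂ : ℝ} (h₁ : 0 < θ₁) (h₂ : 0 < θ₂) (i : Fin 3) : 0 < bm θ₁ θ₂ i := by
  fin_cases i <;> simp [bm, h₁, h₂]

theorem cmp_cont {a : V} (ha : ∀ i, 0 < a i) {f : V → V} (hf : ContinuousOn f (closure Q1)) :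
    ContinuousOn (cmp a f) (closure (Bx a)) := by
  have h1 : ContinuousOn (cmp a f) (Icc 0 a) := by
    refine hf.comp (by fun_prop) fun x hx => H761.Icc_sub_closure ⟨fun i => ?_, fun i => ?_⟩
    · exact div_nonneg (hx.1 i) (ha i).le
    · exact (div_le_one (ha i)).2 (hx.2 i)
  refine h1.mono fun x hx => ?_
  have h2 := H761.closure_Bx_sub a hx
  exact ⟨fun i => (h2 i).1, fun i => (h2 i).2⟩

section pos

variable {a b : Fin 3 → ℤ}

theorem mem_rect1 {k : Fin 3 → ℤ} : k ∈ rectN 1 a b ↔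
    k 1 = a 1 ∧ (a 0 ≤ k 0 ∧ k 0 < b 0) ∧ (a 2 ≤ k 2 ∧ k 2 < b 2) := by
  rw [rectN, Fintype.mem_piFinset]
  constructor
  · intro h
    have h0 := h 0
    have h1 := h 1
    have h2 := h 2
    rw [if_pos rfl, Finset.mem_singleton] at h1
    rw [if_neg (by decide), Finset.mem_Ico] at h0 h2
    exact ⟨h1, h0, h2⟩
  · rintro ⟨h1, h0, h2⟩ l
    fin_cases l
    · show k 0 ∈ if (0 : Fin 3) = 1 then _ else _
      rw [if_neg (by decide), Finset.mem_Ico]; exact h0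
    · show k 1 ∈ if (1 : Fin 3) = 1 then _ else _
      rw [if_pos rfl, Finset.mem_singleton]; exact h1
    · show k 2 ∈ if (2 : Fin 3) = 1 then _ else _
      rw [if_neg (by decide), Finset.mem_Ico]; exact h2

theorem line_mem {m₂ : ℤ} (hm : m₂ ∈ Set.Icc (a 2) (b 2)) {k : ℤ} (hk : k ∈ Finset.Ico (a 0) (b 0)) :
    ![k, a 1, m₂] ∈ redgeN 1 a b 0 := by
  rw [redgeN, Fintype.mem_piFinset]
  intro l
  fin_cases l
  · show k ∈ if (0 : Fin 3) = 1 then _ else if (0 : Fin 3) = 0 then _ else _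
    rw [if_neg (by decide), if_pos rfl]; exact hk
  · show a 1 ∈ if (1 : Fin 3) = 1 then _ else if (1 : Fin 3) = 0 then _ else _
    rw [if_pos rfl, Finset.mem_singleton]
  · show m₂ ∈ if (2 : Fin 3) = 1 then _ else if (2 : Fin 3) = 0 then _ else _
    rw [if_neg (by decide), if_neg (by decide), Finset.mem_Icc]; exact hm

/-- the square of the plane which contains the edge of the line -/
def lsq (nS : ℕ) (a b : Fin 3 → ℤ) (m₂ k : ℤ) : Idx × Fin 3 :=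
  ((nS, ![k, a 1, min m₂ (b 2 - 1)]), 1)

theorem lsq_mem {m₂ : ℤ} (h2 : a 2 < b 2) (hm : m₂ ∈ Set.Icc (a 2) (b 2)) {k : ℤ}
    (hk : k ∈ Finset.Ico (a 0) (b 0)) : ![k, a 1, min m₂ (b 2 - 1)] ∈ rectN 1 a b := by
  rw [mem_rect1]
  rw [Finset.mem_Ico] at hk
  obtain ⟨h3, h4⟩ := hm
  refine ⟨rfl, hk, ?_⟩
  show a 2 ≤ min m₂ (b 2 - 1) ∧ min m₂ (b 2 - 1) < b 2
  omega

theorem lsq_side {nS : ℕ} {m₂ k : ℤ} (hm : m₂ ≤ b 2) :
    EdgeOfSq (ledge nS (a 1) m₂ k) (lsq nS a b m₂ k) := by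
  refine ⟨rfl, zero_ne_one, rfl, rfl, fun j h0 h1 => ?_⟩
  have hj : j = 2 := by
    rcases fin3_cases h1 with rfl | rfl
    · exact absurd rfl h0
    · rfl
  subst hj
  show m₂ = min m₂ (b 2 - 1) ∨ m₂ = min m₂ (b 2 - 1) + 1
  omega

end pos

theorem left_mem_edge' (v : V) (e : Idx × Fin 3) : (segP v e).1 ∈ edge v e :=
  left_mem_segment ℝ _ _

section

variable {p C θ₁ θ₂ ν₁ ν τ ε δ : ℝ} {Λ : Set V} {f : V → V}

theorem lsq_minSq (P : PreBeam p C θ₁ θ₂ ν₁ ν τ ε δ Λ f) {k : ℤ}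
    (hk : k ∈ Finset.Ico (P.a 0) (P.b 0)) :
    MinSq P.v P.I (lsq P.nS P.a P.b P.m₂ k) :=
  P.minS _ (lsq_mem (P.alt 2 (by decide)) P.m₂mem hk)

theorem ledge_minE (P : PreBeam p C θ₁ θ₂ ν₁ ν τ ε δ Λ f) {k : ℤ}
    (hk : k ∈ Finset.Ico (P.a 0) (P.b 0)) :
    MinEdge P.v P.I (ledge P.nS (P.a 1) P.m₂ k) :=
  P.minE 0 (by decide) _ (line_mem P.m₂mem hk)

theorem ledge_sub (P : PreBeam p C θ₁ θ₂ ν₁ ν τ ε δ Λ f) (k : ℤ) :
    edge P.v (ledge P.nS (P.a 1) P.m₂ k) ⊆ squ P.v (lsq P.nS P.a P.b P.m₂ k) :=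
  S308.edge_sub_squ (lsq_side P.m₂mem.2)

/-- a dyadic cube of generation `m` containing a point -/
theorem exists_cube (m : ℕ) (x : V) : ∃ z : Fin 3 → ℤ, x ∈ dyc 0 m z := by
  have h2 : (0:ℝ) < 2 ^ m := by positivity
  refine ⟨fun i => ⌊x i * 2 ^ m⌋, fun i => ?_⟩
  rw [Pi.zero_apply, zero_add, zero_add]
  constructor
  · rw [div_le_iff₀ h2]; exact Int.floor_le _
  · rw [le_div_iff₀ h2]; exact (Int.lt_floor_add_one _).le

theorem tile_at (P : PreBeam p C θ₁ θ₂ ν₁ ν τ ε δ Λ f) {k : ℤ}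
    (hk : k ∈ Finset.Ico (P.a 0) (P.b 0)) {x : V}
    (hx : x ∈ edge P.v (ledge P.nS (P.a 1) P.m₂ k)) :
    ∃ z, IsTile P.ρ 0 P.mt z ∧ P.h.toFun x ∈ dyc 0 P.mt z := by
  obtain ⟨z, hz⟩ := exists_cube P.mt (P.h.toFun x)
  exact ⟨z, P.tile k hk x hx z ⟨_, hz, by rw [sub_self, norm_zero]; positivity⟩, hz⟩

theorem line_osc (P : PreBeam p C θ₁ θ₂ ν₁ ν τ ε δ Λ f) (hδ : 0 ≤ δ) {k : ℤ}
    (hk : k ∈ Finset.Ico (P.a 0) (P.b 0)) {x y : V}
    (hx : x ∈ edge P.v (ledge P.nS (P.a 1) P.m₂ k))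
    (hy : y ∈ edge P.v (ledge P.nS (P.a 1) P.m₂ k)) :
    ‖P.h.toFun x - P.h.toFun y‖ ≤ δ / 2 ^ P.mt := by
  obtain ⟨z, hz, hxz⟩ := tile_at P hk hx
  have h1 := (P.cond _ (lsq_minSq P hk) x (ledge_sub P k hx) P.mt z hz hxz).2 y
    (ledge_sub P k hy)
  have h2 : ‖P.h.toFun x - P.c P.mt z‖ ≤ 1 / 2 ^ P.mt := by
    have h3 : ‖P.h.toFun x - H73.ctr 0 P.mt z‖ ≤ 1 / 2 / 2 ^ P.mt := by
      rw [pi_norm_le_iff_of_nonneg (by positivity)]
      intro i
      have h4 := hxz i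
      rw [Real.norm_eq_abs, abs_le]
      simp only [H73.ctr, Pi.sub_apply, Pi.zero_apply, zero_add] at h4 ⊢
      have e1 : ((z i : ℝ) + 1) / 2 ^ P.mt = z i / 2 ^ P.mt + 1 / 2 ^ P.mt := by ring
      have e2 : ((z i : ℝ) + 1 / 2) / 2 ^ P.mt = z i / 2 ^ P.mt + 1 / 2 / 2 ^ P.mt := by ring
      have e3 : (1 : ℝ) / 2 ^ P.mt = 1 / 2 / 2 ^ P.mt + 1 / 2 / 2 ^ P.mt := by ring
      rw [e1, e3] at h4
      rw [e2]
      constructor <;> linarith [h4.1, h4.2]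
    have h4 := P.cmem P.mt z hz
    have h5 : ‖P.h.toFun x - P.c P.mt z‖ ≤ ‖P.h.toFun x - H73.ctr 0 P.mt z‖ +
        ‖P.c P.mt z - H73.ctr 0 P.mt z‖ := by
      rw [← norm_neg (P.c P.mt z - H73.ctr 0 P.mt z)]
      refine le_trans (le_of_eq ?_) (norm_add_le _ _)
      congr 1
      abel
    have e3 : (1 : ℝ) / 2 ^ P.mt = 1 / 2 / 2 ^ P.mt + 1 / 4 / 2 ^ P.mt + 1 / 4 / 2 ^ P.mt := by
      ring
    have h6 : (0:ℝ) ≤ 1 / 4 / 2 ^ P.mt := by positivity
    linarith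
  refine h1.trans ((mul_le_mul_of_nonneg_left h2 hδ).trans (le_of_eq ?_))
  ring

/-- **the data on the line** -/
theorem lineData (P : PreBeam p C θ₁ θ₂ ν₁ ν τ ε δ Λ f) {D D' μ r c ε₁ : ℝ} (hδ : 0 ≤ δ) (hδc : δ ≤ c) (hc4 : c < 1 / 4) (hε : ε ≤ ε₁)
    {β : Idx × Fin 3 → ℝ} (hβ : ∀ s, β s ≤ ε₁ / 2 ^ s.1.1)
    (hD : 0 ≤ D) {g : ConHomeo (Bx (bm θ₁ θ₂)) Λ} (H : BoxOut P.toBoxData p D μ D' r c ∅ β g) :
    LineData p C D c ε₁ P.v P.nS P.mt (P.a 1) P.m₂ (P.a 0) (P.b 0) P.G P.h g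
      (fun k => P.ℓ (ledge P.nS (P.a 1) P.m₂ k)) P.X where
  lt := P.alt 0 (by decide)
  unit := P.unit
  sub := fun k hk => (ledge_sub P k).trans (H687.squ_sub_Ω P.part (lsq_minSq P hk))
  fine := P.fine.trans hε
  mtε := P.mtε.trans hε
  Gsub := P.Gsub
  near := P.near
  close := P.close.trans (ENNReal.ofReal_le_ofReal hε)
  osc := fun k hk x hx y hy => (line_osc P hδ hk hx hy).trans (by gcongr)
  app := by
    intro k hk x hx
    obtain ⟨z, hz, hxz⟩ := tile_at P hk hx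
    exact H.close _ (lsq_minSq P hk) x (ledge_sub P k hx) P.mt z hz hxz
  tv := by
    rintro k hk ⟨z, hz⟩
    have hk' := P.Gsub hk
    obtain ⟨t, ht⟩ := P.tube k hk
    have hx0 := left_mem_edge' P.v (ledge P.nS (P.a 1) P.m₂ k)
    have hdeep : Deep c δ 0 P.ρ univ {0} P.mt ![z, t 1, t 2]
        (P.h.toFun '' edge P.v (ledge P.nS (P.a 1) P.m₂ k)) := by
      constructor
      · intro z' hz'
        refine P.tile k hk' _ hx0 z' ⟨fun i => (z' i : ℝ) / 2 ^ P.mt, fun i => ?_, ?_⟩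
        · rw [Pi.zero_apply, zero_add, zero_add]
          refine ⟨le_rfl, ?_⟩
          rw [add_div]
          have : (0:ℝ) ≤ 1 / 2 ^ P.mt := by positivity
          linarith
        · rw [pi_norm_le_iff_of_nonneg (by positivity)]
          intro i
          have hz'' := hz' i
          rw [Real.norm_eq_abs, Pi.sub_apply, abs_le]
          have hg : ∀ (w : ℤ), w - 2 ≤ z' i → z' i ≤ w + 1 →
              (w - 1 : ℝ) / 2 ^ P.mt ≤ P.h.toFun (segP P.v (ledge P.nS (P.a 1) P.m₂ k)).1 i →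
              P.h.toFun (segP P.v (ledge P.nS (P.a 1) P.m₂ k)).1 i ≤ (w + 1 : ℝ) / 2 ^ P.mt →
              -(4 / 2 ^ P.mt) ≤ P.h.toFun (segP P.v (ledge P.nS (P.a 1) P.m₂ k)).1 i -
                z' i / 2 ^ P.mt ∧
              P.h.toFun (segP P.v (ledge P.nS (P.a 1) P.m₂ k)).1 i - z' i / 2 ^ P.mt ≤
                4 / 2 ^ P.mt := by
            intro w h1 h2 h3 h4
            have h1' : (w : ℝ) - 2 ≤ z' i := by exact_mod_cast h1
            have h2' : (z' i : ℝ) ≤ w + 1 := by exact_mod_cast h2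
            have h5 : ((w : ℝ) - 2) / 2 ^ P.mt ≤ z' i / 2 ^ P.mt := by gcongr
            have h6 : (z' i : ℝ) / 2 ^ P.mt ≤ (w + 1) / 2 ^ P.mt := by gcongr
            have h7 : (0:ℝ) < 1 / 2 ^ P.mt := by positivity
            have e1 : ((w : ℝ) - 2) / 2 ^ P.mt = w / 2 ^ P.mt - 2 * (1 / 2 ^ P.mt) := by ring
            have e2 : ((w : ℝ) + 1) / 2 ^ P.mt = w / 2 ^ P.mt + 1 / 2 ^ P.mt := by ring
            have e3 : ((w : ℝ) - 1) / 2 ^ P.mt = w / 2 ^ P.mt - 1 / 2 ^ P.mt := by ring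
            have e4 : (4 : ℝ) / 2 ^ P.mt = 4 * (1 / 2 ^ P.mt) := by ring
            rw [e1] at h5
            rw [e2] at h4 h6
            rw [e3] at h3
            rw [e4]
            constructor <;> linarith
          have hδ1 : δ ≤ 1 := by linarith
          have hj : ∀ j : Fin 3, j ≠ 0 → (t j - 1 : ℝ) / 2 ^ P.mt ≤
              P.h.toFun (segP P.v (ledge P.nS (P.a 1) P.m₂ k)).1 j ∧
              P.h.toFun (segP P.v (ledge P.nS (P.a 1) P.m₂ k)).1 j ≤ (t j + 1 : ℝ) / 2 ^ P.mt := by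
            intro j hj
            have h1 := abs_le.1 (ht _ hx0 j hj)
            have h2 : δ / 2 ^ P.mt ≤ 1 / 2 ^ P.mt := by gcongr
            have e2 : ((t j : ℝ) + 1) / 2 ^ P.mt = t j / 2 ^ P.mt + 1 / 2 ^ P.mt := by ring
            have e3 : ((t j : ℝ) - 1) / 2 ^ P.mt = t j / 2 ^ P.mt - 1 / 2 ^ P.mt := by ring
            rw [e2, e3]
            constructor <;> linarith [h1.1, h1.2]
          fin_cases i
          · have h1 := hz _ hx0
            have hc0 : 0 ≤ c := hδ.trans hδc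
            refine hg z hz''.1 hz''.2 (le_trans ?_ h1.1) (h1.2.trans ?_)
            · gcongr; linarith
            · gcongr; linarith
          · exact hg (t 1) hz''.1 hz''.2 (hj 1 (by decide)).1 (hj 1 (by decide)).2
          · exact hg (t 2) hz''.1 hz''.2 (hj 2 (by decide)).1 (hj 2 (by decide)).2
      · intro _ _ _; trivial
      · rintro _ ⟨x, hx, rfl⟩ j hj
        have hj0 : j ≠ 0 := by simpa using hj
        have h1 := ht x hx j hj0
        rw [Pi.zero_apply, zero_add]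
        have hj' : j = 1 ∨ j = 2 := by revert hj0; clear hj h1; revert j; decide
        rcases hj' with rfl | rfl
        · exact h1
        · exact h1
      · rintro _ ⟨x, hx, rfl⟩ j hj
        have hj0 : j = 0 := by simpa using hj
        subst hj0
        rw [Pi.zero_apply, zero_add, zero_add]
        exact hz x hx
    refine (H.tv _ (ledge_minE P hk') {0} (by simp) (by decide) P.mt _ hdeep).trans ?_
    gcongr
    exact hβ _
  elip := by
    intro k hk hℓ x hx y hy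
    have h1 := H.elip _ (lsq_minSq P hk) _ (ledge_minE P hk) (ledge_sub P k) hℓ x hx y hy
    have hY : ¬ meetY P.v ∅ (squ P.v (lsq P.nS P.a P.b P.m₂ k)) := by
      rintro ⟨s', hs', -⟩; exact hs'
    rw [if_neg hY] at h1
    have h2 : β (ledge P.nS (P.a 1) P.m₂ k) ≤ ε₁ / 2 ^ P.nS :=
      hβ (ledge P.nS (P.a 1) P.m₂ k)
    refine h1.trans (mul_le_mul_of_nonneg_right (mul_le_mul_of_nonneg_left ?_ hD)
      (norm_nonneg _))
    exact mul_le_mul_of_nonneg_right (add_le_add le_rfl h2) (by positivity)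
  bad := P.bad.trans (ENNReal.ofReal_le_ofReal hε)
  good := P.good

end

end Vale.Agent.P073.H716
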