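import Vale.Agent.P073.H716.GSetB

/-!
# P073 / H716: **[G-SET]** the good set on a dyadic plane

`ae_gset`: for a.e. origin `v`, on every block of dyadic squares in the domain and for every
linear `L` there is a closed set `G` on which `f - L` is `12 κ`-Lipschitz and whose complement
has area at most `16 κ ^ (-p)` times the `p`-energy of `D f - L` on the block (any `p ≥ 1`).
-/

open Set Metric Topology Filter MeasureTheory
open scoped ENNReal
open Vale.Agent.P073.AB (Idx pt squ cl)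
open P073.Net (dyc dyo)
open Vale.Agent.P073.St (V Mat IsBoundedDomain IsSobolev)
open Vale.Agent.P073.H194
open Vale.Agent.P073.SQ (ev)
open Vale.Agent.P073.H16

namespace Vale.Agent.P073.H716

variable {i j k : Fin 3} {E' : Type*} [NormedAddCommGroup E'] [NormedSpace ℝ E']

/-- the integral over a block of `K ^ 2` dyadic squares -/
noncomputable def bInt (v : V) (n : ℕ) (z : Fin 3 → ℤ) (k : Fin 3) (K : ℕ) (H : V → ℝ≥0∞) :
    ℝ≥0∞ :=
  ∑' w : Bsq z k K, sInt v ((n, (w : Fin 3 → ℤ)), k) H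

/-- **(G-SET)** for the origin `v`. `D` is the derivative of `f`, `φ (D x)` any function above
the `p`-th powers of the two tangential derivatives of `f - L`. -/
def GSetGood (Ω : Set V) (f : V → E') (D : V → V →L[ℝ] E') (v : V) : Prop :=
  ∀ (n : ℕ) (z : Fin 3 → ℤ) (k : Fin 3) (K : ℕ), 0 < K → blk v n z k K ⊆ Ω →
  ∀ (L : V →L[ℝ] E') (p : ℝ), 1 ≤ p → ∀ φ : (V →L[ℝ] E') → ℝ≥0∞, Measurable φ →
  (∀ T : V →L[ℝ] E', ∀ l, l ≠ k → ‖T (ev l) - L (ev l)‖ₑ ^ p ≤ φ T) → ∀ κ : ℝ≥0∞,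
  ∃ G : Set V, IsClosed G ∧ G ⊆ blk v n z k K ∧
    bInt v n z k K (Gᶜ.indicator 1) * κ ^ p ≤ 16 * bInt v n z k K (fun x => φ (D x)) ∧
    (∀ x ∈ G, ∀ y ∈ G, ‖(f x - L x) - (f y - L y)‖ₑ ≤ 12 * κ * ‖x - y‖ₑ) ∧
    ∀ (n' : ℕ) (z' : Fin 3 → ℤ) (K' : ℕ), 0 < K' → blk v n' z' k K' ⊆ blk v n z k K →
      (blk v n' z' k K' ∩ G).Nonempty →
      bInt v n' z' k K' (fun x => φ (D x)) ≤ κ ^ p * ENNReal.ofReal ((K' / 2 ^ n') ^ 2)

theorem isClosed_blk (v : V) (n : ℕ) (z : Fin 3 → ℤ) (k : Fin 3) (K : ℕ) :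
    IsClosed (blk v n z k K) := by
  have e : blk v n z k K = {x | x k = pt v n z k} ∩ ⋂ l, ⋂ (_ : l ≠ k),
      {x | pt v n z l ≤ x l ∧ x l ≤ pt v n z l + K / 2 ^ n} := by
    ext x
    simp only [blk, mem_ofPred_eq, mem_inter_iff, mem_iInter]
  rw [e]
  refine (isClosed_eq (by fun_prop) continuous_const).inter (isClosed_iInter fun l =>
    isClosed_iInter fun _ => ?_)
  exact (isClosed_le continuous_const (continuous_apply l)).inter
    (isClosed_le (continuous_apply l) continuous_const)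

theorem mem_blk_iff (hij : i ≠ j) (hik : i ≠ k) (hjk : j ≠ k) {v : V} {n : ℕ} {z : Fin 3 → ℤ}
    {K : ℕ} {x : V} : x ∈ blk v n z k K ↔ x k = pt v n z k ∧
      x i ∈ Icc (pt v n z i) (pt v n z i + K / 2 ^ n) ∧
      x j ∈ Icc (pt v n z j) (pt v n z j + K / 2 ^ n) := by
  constructor
  · intro h
    exact ⟨h.1, h.2 i hik, h.2 j hjk⟩
  · rintro ⟨h1, h2, h3⟩
    refine ⟨h1, fun l hl => ?_⟩
    rcases cases3 hij hik hjk l with rfl | rfl | rfl
    · exact h2
    · exact h3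
    · exact absurd rfl hl

theorem P3_mem_blk (hij : i ≠ j) (hik : i ≠ k) (hjk : j ≠ k) {v : V} {n : ℕ} {z : Fin 3 → ℤ}
    {K : ℕ} {s t : ℝ} (hs : s ∈ Icc (pt v n z i) (pt v n z i + K / 2 ^ n))
    (ht : t ∈ Icc (pt v n z j) (pt v n z j + K / 2 ^ n)) :
    P3 i j k (pt v n z k) s t ∈ blk v n z k K := by
  rw [mem_blk_iff hij hik hjk, P3_k, P3_i hij hik, P3_j hjk]
  exact ⟨rfl, hs, ht⟩

theorem sub_blk (hij : i ≠ j) (hik : i ≠ k) (hjk : j ≠ k) {v : V} {n n' : ℕ}
    {z z' : Fin 3 → ℤ} {K K' : ℕ} (h : blk v n' z' k K' ⊆ blk v n z k K) :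
    pt v n' z' k = pt v n z k ∧
      (pt v n z i ≤ pt v n' z' i ∧ pt v n' z' i + K' / 2 ^ n' ≤ pt v n z i + K / 2 ^ n) ∧
      (pt v n z j ≤ pt v n' z' j ∧ pt v n' z' j + K' / 2 ^ n' ≤ pt v n z j + K / 2 ^ n) := by
  have h0 : (0:ℝ) ≤ K' / 2 ^ n' := by positivity
  have h1 := h (P3_mem_blk hij hik hjk (v := v) (n := n') (z := z') (K := K')
    (s := pt v n' z' i) (t := pt v n' z' j) ⟨le_rfl, by linarith⟩ ⟨le_rfl, by linarith⟩)
  have h2 := h (P3_mem_blk hij hik hjk (v := v) (n := n') (z := z') (K := K')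
    (s := pt v n' z' i + K' / 2 ^ n') (t := pt v n' z' j + K' / 2 ^ n')
    ⟨by linarith, le_rfl⟩ ⟨by linarith, le_rfl⟩)
  rw [mem_blk_iff hij hik hjk, P3_k, P3_i hij hik, P3_j hjk] at h1 h2
  exact ⟨h1.1, ⟨h1.2.1.1, h2.2.1.2⟩, h1.2.2.1, h2.2.2.2⟩

/-- **[G-SET]** for almost all origins -/
theorem ae_gset [CompleteSpace E'] {Ω : Set V} {f : V → E'} {D : V → V →L[ℝ] E'}
    (hΩ : IsOpen Ω) (hf : ContinuousOn f Ω) (hD : LocallyIntegrableOn D Ω)
    (hw : HB.WeakDeriv volume Ω f D) : ∀ᵐ v : V, GSetGood Ω f D v := by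
  -- a measurable representative
  have hDm : AEStronglyMeasurable D (volume.restrict Ω) := hD.aestronglyMeasurable
  set D' := hDm.mk D with hD'
  have hD'm : StronglyMeasurable D' := hDm.stronglyMeasurable_mk
  have hae : ∀ᵐ x ∂(volume : Measure V), x ∈ Ω → D x = D' x := by
    have := hDm.ae_eq_mk
    rwa [Filter.EventuallyEq, ae_restrict_iff' hΩ.measurableSet] at this
  have hD'i : LocallyIntegrableOn D' Ω := by
    intro x hx
    obtain ⟨S, hS, hi⟩ := hD x hx
    refine ⟨S ∩ Ω, inter_mem hS self_mem_nhdsWithin, ?_⟩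
    have h1 : IntegrableOn D (S ∩ Ω) := hi.mono_set inter_subset_left
    refine h1.congr ?_
    have h2 := hDm.ae_eq_mk
    exact ae_restrict_of_ae_restrict_of_subset inter_subset_right h2
  have hw' : HB.WeakDeriv volume Ω f D' := by
    intro φ h1 h2 h3 w
    rw [← hw φ h1 h2 h3 w]
    refine integral_congr_ae ?_
    filter_upwards [hDm.ae_eq_mk] with x hx
    rw [hD', ← hx]
  filter_upwards [ae_lineGood hΩ hf hD'i hw', H83.ae_rep hae] with v hv hrep
  intro n z k K hK hs L p hp φ hφ hφL κ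
  obtain ⟨i, j, hij, hik, hjk⟩ := exists_ij k
  have hp0 : 0 < p := by linarith
  have hK0 : (0:ℝ) < K := by exact_mod_cast hK
  have h2n : (0:ℝ) < 2 ^ n := by positivity
  set c := pt v n z k with hc
  set A := pt v n z i with hA
  set B := pt v n z j with hB
  set R : ℝ := K / 2 ^ n with hR
  have hR0 : 0 < R := by rw [hR]; positivity
  -- the two derivatives have the same integrals
  have hsw : ∀ s : Idx × Fin 3, squ v s ⊆ Ω →
      sInt v s (fun x => φ (D' x)) = sInt v s (fun x => φ (D x)) := by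
    intro s hsΩ
    have e4 : ∀ ψ : V → ℝ≥0∞, sInt v s ψ = sInt v s (fun x => Ω.indicator ψ x) := by
      intro ψ
      refine le_antisymm (sInt_le_sInt fun x hx => ?_) (sInt_le_sInt fun x hx => ?_)
      · rw [indicator_of_mem (hsΩ hx)]
      · rw [indicator_of_mem (hsΩ hx)]
    rw [e4, e4 fun x => φ (D x)]
    refine (hrep _ _ (fun x hx0 => ?_)).2 s
    have hx : x ∈ Ω → D x = D' x := by
      by_contra hcon
      exact hx0 hcon
    by_cases hxΩ : x ∈ Ω
    · rw [indicator_of_mem hxΩ, indicator_of_mem hxΩ, hx hxΩ]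
    · rw [indicator_of_notMem hxΩ, indicator_of_notMem hxΩ]
  have hbw : ∀ (n' : ℕ) (z' : Fin 3 → ℤ) (K' : ℕ), blk v n' z' k K' ⊆ Ω →
      bInt v n' z' k K' (fun x => φ (D' x)) = bInt v n' z' k K' (fun x => φ (D x)) := by
    intro n' z' K' hsub
    exact tsum_congr fun w => hsw _ ((squ_sub_blk w.2).trans hsub)
  have hφm : Measurable fun x => φ (D' x) := hφ.comp hD'm.measurable
  -- the upper gradient
  set g : V → ℝ≥0∞ := fun x =>
    max ‖D' x (ev i) - L (ev i)‖ₑ ‖D' x (ev j) - L (ev j)‖ₑ with hg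
  have hgm : Measurable g := by
    have h1 : ∀ l, Measurable fun x => ‖D' x (ev l) - L (ev l)‖ₑ := fun l =>
      ((((ContinuousLinearMap.apply ℝ E' (ev l : V)).continuous.comp_stronglyMeasurable
        hD'm).sub stronglyMeasurable_const)).enorm
    exact (h1 i).max (h1 j)
  have hgφ : ∀ x, g x ^ p ≤ φ (D' x) := by
    intro x
    rcases max_choice ‖D' x (ev i) - L (ev i)‖ₑ ‖D' x (ev j) - L (ev j)‖ₑ with h3 | h3
    · show (max _ _) ^ p ≤ _
      rw [h3]; exact hφL _ i hik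
    · show (max _ _) ^ p ≤ _
      rw [h3]; exact hφL _ j hjk
  set u : ℝ × ℝ → E' := fun w => f (P3 i j k c w.1 w.2) - L (P3 i j k c w.1 w.2) with hu
  set h : ℝ × ℝ → ℝ≥0∞ := fun w => g (P3 i j k c w.1 w.2) with hh
  set F : ℝ × ℝ → ℝ≥0∞ := fun w => φ (D' (P3 i j k c w.1 w.2)) with hF
  have hFm : Measurable F := hφm.comp (measurable_P3 c)
  have HM : Hm u h A B R := by
    refine ⟨hR0, hgm.comp (measurable_P3 c), ?_, ?_, ?_⟩
    · have h1 : ContinuousOn (fun x : V => f x - L x) Ω := hf.sub L.continuous.continuousOn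
      exact h1.comp (continuous_P3 c).continuousOn fun w hw =>
        hs (P3_mem_blk hij hik hjk hw.1 hw.2)
    · filter_upwards [ver_block hv hij hik hjk hK hs L] with s h1 hsI a ha b hb hab
      refine (h1 hsI a ha b hb hab).trans (lintegral_mono fun t => ?_)
      exact le_max_right _ _
    · filter_upwards [ver_block hv (Ne.symm hij) hjk hik hK hs L] with t h1 htI a ha b hb hab
      have h2 := h1 htI a ha b hb hab
      rw [P3_swap hij hik hjk, P3_swap hij hik hjk] at h2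
      refine h2.trans (lintegral_mono fun s => ?_)
      rw [P3_swap hij hik hjk]
      exact le_max_left _ _
  set Q : Set (ℝ × ℝ) := Icc A (A + R) ×ˢ Icc B (B + R) with hQ
  have hQm : MeasurableSet Q := measurableSet_Icc.prod measurableSet_Icc
  set M := MG (Q.indicator F) (κ ^ p) with hM
  set G : Set V := blk v n z k K ∩ {x | ((x i, x j) : ℝ × ℝ) ∈ M} with hG
  have hGc : IsClosed G := (isClosed_blk v n z k K).inter
    ((isClosed_MG _ _).preimage (by fun_prop))
  have hGQ : ∀ x ∈ G, ((x i, x j) : ℝ × ℝ) ∈ Q := by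
    intro x hx
    have := (mem_blk_iff hij hik hjk).1 hx.1
    exact ⟨this.2.1, this.2.2⟩
  have hself : ∀ x ∈ blk v n z k K, P3 i j k c (x i) (x j) = x := by
    intro x hx
    rw [hc, ← ((mem_blk_iff hij hik hjk).1 hx).1]
    exact P3_self hij hik hjk x
  -- squares through a point of `M`
  have hsq : ∀ w ∈ M, ∀ α β r : ℝ, 0 < r → A ≤ α → α + r ≤ A + R → B ≤ β → β + r ≤ B + R →
      w.1 ∈ Icc α (α + r) → w.2 ∈ Icc β (β + r) →
      dI F α β r ≤ κ ^ p * ENNReal.ofReal (r ^ 2) := by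
    intro w hw α β r hr h1 h2 h3 h4 h5 h6
    have h7 := MG_sq hw hr h5 h6
    have hsub : Icc α (α + r) ×ˢ Icc β (β + r) ⊆ Q :=
      prod_mono (Icc_subset_Icc h1 h2) (Icc_subset_Icc h3 h4)
    have h8 : dI F α β r = ∫⁻ w in Icc α (α + r) ×ˢ Icc β (β + r), Q.indicator F w := by
      rw [dI_eq_set]
      refine setLIntegral_congr_fun (measurableSet_Icc.prod measurableSet_Icc) fun y hy => ?_
      rw [indicator_of_mem (hsub hy)]
    rw [h8]
    exact h7
  have hsq1 : ∀ w ∈ M, ∀ α β r : ℝ, 0 < r → A ≤ α → α + r ≤ A + R → B ≤ β → β + r ≤ B + R →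
      w.1 ∈ Icc α (α + r) → w.2 ∈ Icc β (β + r) →
      dI h α β r ≤ κ * ENNReal.ofReal (r ^ 2) := by
    intro w hw α β r hr h1 h2 h3 h4 h5 h6
    refine dI_le_of_rpow HM.meas hp hr ?_
    refine le_trans ?_ (hsq w hw α β r hr h1 h2 h3 h4 h5 h6)
    exact lintegral_mono fun y => hgφ _
  refine ⟨G, hGc, inter_subset_left, ?_, ?_, ?_⟩
  · -- the area
    have hm : Measurable (Gᶜ.indicator (1 : V → ℝ≥0∞)) :=
      measurable_one.indicator hGc.measurableSet.compl
    have e1 : bInt v n z k K (Gᶜ.indicator 1) ≤ volume Mᶜ := by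
      rw [bInt, tsum_sInt_eq_dI hij hik hjk v n z K hm, dI_eq_set,
        ← lintegral_indicator hQm, ← lintegral_indicator_one (isClosed_MG _ _).measurableSet.compl]
      refine lintegral_mono fun w => ?_
      by_cases hw : w ∈ Q
      · rw [indicator_of_mem hw]
        have h1 := P3_mem_blk hij hik hjk hw.1 hw.2
        by_cases hwM : w ∈ M
        · have h3 : P3 i j k (pt v n z k) w.1 w.2 ∈ G := by
            refine ⟨h1, ?_⟩
            show ((P3 i j k (pt v n z k) w.1 w.2 i, P3 i j k (pt v n z k) w.1 w.2 j) : ℝ × ℝ) ∈ M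
            rw [P3_i hij hik, P3_j hjk]
            exact hwM
          have h4 : P3 i j k (pt v n z k) w.1 w.2 ∉ Gᶜ := fun hcon => hcon h3
          rw [indicator_of_notMem h4]
          exact zero_le
        · have h5 : w ∈ Mᶜ := hwM
          rw [indicator_of_mem h5]
          refine (indicator_le_self' (fun _ _ => zero_le) _).trans le_rfl
      · rw [indicator_of_notMem hw]
        exact zero_le
    have e2 := volume_MG (Q.indicator F) (κ ^ p)
    have e3 : ∫⁻ w, Q.indicator F w = bInt v n z k K (fun x => φ (D x)) := by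
      rw [lintegral_indicator hQm, ← dI_eq_set, ← hbw n z K hs]
      exact (tsum_sInt_eq_dI hij hik hjk v n z K hφm).symm
    rw [e3] at e2
    exact (mul_le_mul_left e1 _).trans e2
  · -- the Lipschitz estimate
    intro x hx y hy
    have h1 := lip_of_avg HM (κ := κ) (hGQ x hx) (hGQ y hy)
      (fun α β r => hsq1 _ hx.2 α β r) (fun α β r => hsq1 _ hy.2 α β r)
    simp only [hu, hself x hx.1, hself y hy.1] at h1
    refine h1.trans ?_
    gcongr
    rw [← edist_eq_enorm_sub, Prod.edist_eq]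
    exact max_le (edist_le_pi_edist x y i) (edist_le_pi_edist x y j)
  · -- blocks which meet `G`
    rintro n' z' K' hK' hsub ⟨x, hx1, hx2⟩
    obtain ⟨e1, ⟨e2, e3⟩, e4, e5⟩ := sub_blk hij hik hjk hsub
    have hx' := (mem_blk_iff hij hik hjk).1 hx1
    have hK0' : (0:ℝ) < K' := by exact_mod_cast hK'
    rw [← hbw n' z' K' (hsub.trans hs), bInt, tsum_sInt_eq_dI hij hik hjk v n' z' K' hφm, e1]
    exact hsq _ hx2.2 _ _ _ (by positivity) e2 e3 e4 e5 hx'.2.1 hx'.2.2

/-- **[G-SET]** for Sobolev maps between bounded domains, `p ≥ 1` -/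
theorem ae_gset_sobolev {p : ℝ} (hp : 1 ≤ p) {Ω : Set V} {f : V → V} {F : V → Mat}
    (hΩ : IsBoundedDomain Ω) (hf : ContinuousOn f Ω) (hS : IsSobolev p Ω f F) :
    ∀ᵐ v : V, GSetGood Ω f (fun x => cl (F x)) v := by
  have hv := PK.volume_ne_top_of_domain hΩ
  exact ae_gset hΩ.1 hf (PK.IsSob.locallyIntegrableOn_cl hp hv hS)
    (PK.IsSob.weakDeriv hp hv hS)

end Vale.Agent.P073.H716
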