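import Vale.Agent.P073.Net.Len

/-!
# P073 / H716: [R2e], variations: the Manhattan inequality
-/

open Set MeasureTheory Filter
open scoped ENNReal NNReal

namespace Vale.Agent.P073.H716

open Vale.Agent.P073.St (V euc)
open _root_.P073.Net (len edist_toLp euc_eq)

section
variable {E F G : Type*} [PseudoEMetricSpace E] [PseudoEMetricSpace F] [PseudoEMetricSpace G]

theorem Icc_add {f : ℝ → E} {a b c : ℝ} (hab : a ≤ b) (hbc : b ≤ c) :
    eVariationOn f (Icc a c) = eVariationOn f (Icc a b) + eVariationOn f (Icc b c) := by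
  have := eVariationOn.Icc_add_Icc f (s := univ) hab hbc (mem_univ b)
  simp only [univ_inter] at this
  exact this.symm

/-- superadditivity on one interval -/
theorem evar_super1 {f : ℝ → E} {g : ℝ → F} {k : ℝ → G} {a b : ℝ} {α β C : ℝ≥0∞} (hab : a ≤ b)
    (h : ∀ x ∈ Icc a b, ∀ y ∈ Icc a b,
      α * edist (f x) (f y) + β * edist (g x) (g y) ≤ C * edist (k x) (k y)) :
    α * edist (f a) (f b) + β * eVariationOn g (Icc a b) ≤ C * eVariationOn k (Icc a b) := by
  have hne : Nonempty (ℕ × {u : ℕ → ℝ // Monotone u ∧ ∀ i, u i ∈ Icc a b}) :=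
    ⟨0, fun _ => a, monotone_const, fun _ => left_mem_Icc.2 hab⟩
  rw [eVariationOn, ENNReal.mul_iSup, ENNReal.add_iSup]
  refine iSup_le fun p => ?_
  obtain ⟨n, u, hu, hus⟩ := p
  show α * edist (f a) (f b) + β * ∑ i ∈ Finset.range n, edist (g (u (i + 1))) (g (u i)) ≤ _
  have h0 := hus 0
  have hn := hus n
  have h0n : u 0 ≤ u n := hu (Nat.zero_le n)
  have e1 : edist (f (u 0)) (f (u n)) ≤
      ∑ i ∈ Finset.range n, edist (f (u (i + 1))) (f (u i)) := by
    have := edist_le_range_sum_edist (fun i => f (u i)) n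
    simp only [edist_comm] at this ⊢
    exact this
  have hsum : α * edist (f (u 0)) (f (u n)) +
      β * ∑ i ∈ Finset.range n, edist (g (u (i + 1))) (g (u i)) ≤
      C * eVariationOn k (Icc (u 0) (u n)) := by
    calc α * edist (f (u 0)) (f (u n)) +
        β * ∑ i ∈ Finset.range n, edist (g (u (i + 1))) (g (u i))
        ≤ α * ∑ i ∈ Finset.range n, edist (f (u (i + 1))) (f (u i)) +
          β * ∑ i ∈ Finset.range n, edist (g (u (i + 1))) (g (u i)) := by gcongr
      _ = ∑ i ∈ Finset.range n, (α * edist (f (u (i + 1))) (f (u i)) +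
          β * edist (g (u (i + 1))) (g (u i))) := by
        rw [Finset.mul_sum, Finset.mul_sum, ← Finset.sum_add_distrib]
      _ ≤ ∑ i ∈ Finset.range n, C * edist (k (u (i + 1))) (k (u i)) :=
        Finset.sum_le_sum fun i _ => h _ (hus _) _ (hus _)
      _ = C * ∑ i ∈ Finset.range n, edist (k (u (i + 1))) (k (u i)) := by rw [Finset.mul_sum]
      _ ≤ C * eVariationOn k (Icc (u 0) (u n)) := by
        gcongr
        refine eVariationOn.sum_le_of_monotoneOn_Iic (hu.monotoneOn _) fun i hi => ?_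
        exact ⟨hu (Nat.zero_le i), hu hi⟩
  have hl : α * edist (f a) (f (u 0)) ≤ C * eVariationOn k (Icc a (u 0)) := by
    calc α * edist (f a) (f (u 0)) ≤ α * edist (f a) (f (u 0)) + β * edist (g a) (g (u 0)) :=
          le_self_add
      _ ≤ C * edist (k a) (k (u 0)) := h _ (left_mem_Icc.2 hab) _ h0
      _ ≤ C * eVariationOn k (Icc a (u 0)) := by
        gcongr
        exact eVariationOn.edist_le _ (left_mem_Icc.2 h0.1) (right_mem_Icc.2 h0.1)
  have hr : α * edist (f (u n)) (f b) ≤ C * eVariationOn k (Icc (u n) b) := by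
    calc α * edist (f (u n)) (f b) ≤ α * edist (f (u n)) (f b) + β * edist (g (u n)) (g b) :=
          le_self_add
      _ ≤ C * edist (k (u n)) (k b) := h _ hn _ (right_mem_Icc.2 hab)
      _ ≤ C * eVariationOn k (Icc (u n) b) := by
        gcongr
        exact eVariationOn.edist_le _ (left_mem_Icc.2 hn.2) (right_mem_Icc.2 hn.2)
  have htri : edist (f a) (f b) ≤ edist (f a) (f (u 0)) + edist (f (u 0)) (f (u n)) +
      edist (f (u n)) (f b) := edist_triangle4 _ _ _ _
  calc α * edist (f a) (f b) + β * ∑ i ∈ Finset.range n, edist (g (u (i + 1))) (g (u i))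
      ≤ α * (edist (f a) (f (u 0)) + edist (f (u 0)) (f (u n)) + edist (f (u n)) (f b)) +
        β * ∑ i ∈ Finset.range n, edist (g (u (i + 1))) (g (u i)) := by gcongr
    _ = α * edist (f a) (f (u 0)) + (α * edist (f (u 0)) (f (u n)) +
        β * ∑ i ∈ Finset.range n, edist (g (u (i + 1))) (g (u i))) +
        α * edist (f (u n)) (f b) := by ring
    _ ≤ C * eVariationOn k (Icc a (u 0)) + C * eVariationOn k (Icc (u 0) (u n)) +
        C * eVariationOn k (Icc (u n) b) := add_le_add (add_le_add hl hsum) hr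
    _ = C * eVariationOn k (Icc a b) := by
      rw [Icc_add (f := k) h0.1 h0.2, Icc_add (f := k) h0n hn.2]
      ring

/-- **superadditivity of the variation** -/
theorem evar_super {f : ℝ → E} {g : ℝ → F} {k : ℝ → G} {a b : ℝ} {α β C : ℝ≥0∞} (hab : a ≤ b)
    (h : ∀ x ∈ Icc a b, ∀ y ∈ Icc a b,
      α * edist (f x) (f y) + β * edist (g x) (g y) ≤ C * edist (k x) (k y)) :
    α * eVariationOn f (Icc a b) + β * eVariationOn g (Icc a b) ≤
      C * eVariationOn k (Icc a b) := by
  have hne : Nonempty (ℕ × {u : ℕ → ℝ // Monotone u ∧ ∀ i, u i ∈ Icc a b}) :=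
    ⟨0, fun _ => a, monotone_const, fun _ => left_mem_Icc.2 hab⟩
  have hsub : ∀ {x y : ℝ}, x ∈ Icc a b → y ∈ Icc a b → ∀ z ∈ Icc x y, z ∈ Icc a b :=
    fun hx hy z hz => ⟨hx.1.trans hz.1, hz.2.trans hy.2⟩
  rw [show eVariationOn f (Icc a b) = ⨆ p : ℕ × {u : ℕ → ℝ // Monotone u ∧ ∀ i, u i ∈ Icc a b},
    ∑ i ∈ Finset.range p.1, edist (f ((p.2 : ℕ → ℝ) (i + 1))) (f ((p.2 : ℕ → ℝ) i)) from rfl,
    ENNReal.mul_iSup, ENNReal.iSup_add]
  refine iSup_le fun p => ?_
  obtain ⟨n, u, hu, hus⟩ := p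
  show α * ∑ i ∈ Finset.range n, edist (f (u (i + 1))) (f (u i)) +
    β * eVariationOn g (Icc a b) ≤ _
  have hind : ∀ m : ℕ, α * ∑ i ∈ Finset.range m, edist (f (u (i + 1))) (f (u i)) +
      β * eVariationOn g (Icc (u 0) (u m)) ≤ C * eVariationOn k (Icc (u 0) (u m)) := by
    intro m
    induction m with
    | zero =>
      have h1 : eVariationOn g (Icc (u 0) (u 0)) = 0 := by
        rw [Icc_self]; exact eVariationOn.subsingleton _ subsingleton_singleton
      rw [h1]; simp
    | succ m ih =>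
      have h1 : u m ≤ u (m + 1) := hu (Nat.le_succ m)
      have h2 := evar_super1 (f := f) (g := g) (k := k) (α := α) (β := β) (C := C) h1
        fun x hx y hy => h x (hsub (hus _) (hus _) x hx) y (hsub (hus _) (hus _) y hy)
      rw [Finset.sum_range_succ, Icc_add (f := g) (hu (Nat.zero_le m)) h1,
        Icc_add (f := k) (hu (Nat.zero_le m)) h1, mul_add, mul_add, mul_add]
      rw [edist_comm (f (u (m + 1)))]
      calc α * ∑ i ∈ Finset.range m, edist (f (u (i + 1))) (f (u i)) +
            α * edist (f (u m)) (f (u (m + 1))) +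
            (β * eVariationOn g (Icc (u 0) (u m)) + β * eVariationOn g (Icc (u m) (u (m + 1))))
          = (α * ∑ i ∈ Finset.range m, edist (f (u (i + 1))) (f (u i)) +
            β * eVariationOn g (Icc (u 0) (u m))) + (α * edist (f (u m)) (f (u (m + 1))) +
            β * eVariationOn g (Icc (u m) (u (m + 1)))) := by ring
        _ ≤ _ := add_le_add ih h2
  have h0 := hus 0
  have hn := hus n
  have hl : β * eVariationOn g (Icc a (u 0)) ≤ C * eVariationOn k (Icc a (u 0)) := by
    refine le_trans le_add_self (evar_super1 (f := f) (α := α) h0.1 fun x hx y hy => ?_)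
    exact h x (hsub (left_mem_Icc.2 hab) h0 x hx) y (hsub (left_mem_Icc.2 hab) h0 y hy)
  have hr : β * eVariationOn g (Icc (u n) b) ≤ C * eVariationOn k (Icc (u n) b) := by
    refine le_trans le_add_self (evar_super1 (f := f) (α := α) hn.2 fun x hx y hy => ?_)
    exact h x (hsub hn (right_mem_Icc.2 hab) x hx) y (hsub hn (right_mem_Icc.2 hab) y hy)
  rw [Icc_add (f := g) h0.1 h0.2, Icc_add (f := g) (hu (Nat.zero_le n)) hn.2,
    Icc_add (f := k) h0.1 h0.2, Icc_add (f := k) (hu (Nat.zero_le n)) hn.2]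
  calc α * ∑ i ∈ Finset.range n, edist (f (u (i + 1))) (f (u i)) +
      β * (eVariationOn g (Icc a (u 0)) + (eVariationOn g (Icc (u 0) (u n)) +
        eVariationOn g (Icc (u n) b)))
      = β * eVariationOn g (Icc a (u 0)) +
        (α * ∑ i ∈ Finset.range n, edist (f (u (i + 1))) (f (u i)) +
          β * eVariationOn g (Icc (u 0) (u n))) + β * eVariationOn g (Icc (u n) b) := by ring
    _ ≤ C * eVariationOn k (Icc a (u 0)) + C * eVariationOn k (Icc (u 0) (u n)) +
        C * eVariationOn k (Icc (u n) b) := add_le_add (add_le_add hl (hind n)) hr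
    _ = _ := by ring

end

/-- the pointwise inequality -/
theorem manh_pt {x y : V} {i j : Fin 3} (hij : i ≠ j) {lam : ℝ} (h0 : 0 < lam) :
    |x j - y j| + (1 / (2 * lam) - lam / 2) * |x i - y i| ≤
      (1 / (2 * lam) + lam / 2) * euc (x - y) := by
  set E := euc (x - y) with hE
  set a := |x i - y i| with ha
  set b := |x j - y j| with hb
  have h1 : a ^ 2 + b ^ 2 ≤ E ^ 2 := by
    rw [hE, euc, Real.sq_sqrt (Finset.sum_nonneg fun _ _ => sq_nonneg _), ha, hb, sq_abs, sq_abs]
    have := Finset.sum_le_sum_of_subset_of_nonneg (f := fun k => (x - y) k ^ 2)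
      (Finset.subset_univ ({i, j} : Finset (Fin 3))) fun _ _ _ => sq_nonneg _
    rw [Finset.sum_pair hij] at this
    simpa using this
  have hE0 : 0 ≤ E := Real.sqrt_nonneg _
  have ha0 : 0 ≤ a := abs_nonneg _
  have hb0 : 0 ≤ b := abs_nonneg _
  have haE : a ≤ E := abs_le_of_sq_le_sq' (by nlinarith) hE0 |>.2
  -- b² ≤ (E - a)(E + a)
  have h2 : b ^ 2 ≤ (((E - a) / lam + lam * (E + a)) / 2) ^ 2 := by
    have h3 : b ^ 2 ≤ (E - a) * (E + a) := by nlinarith
    have h4 : (E - a) * (E + a) = ((E - a) / lam) * (lam * (E + a)) := by field_simp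
    have h5 := sq_nonneg ((E - a) / lam - lam * (E + a))
    nlinarith
  have h6 : 0 ≤ ((E - a) / lam + lam * (E + a)) / 2 := by
    have : 0 ≤ (E - a) / lam := div_nonneg (by linarith) h0.le
    positivity
  have h7 := abs_le_of_sq_le_sq' h2 h6 |>.2
  have e : (1 / (2 * lam) + lam / 2) * E - (1 / (2 * lam) - lam / 2) * a =
      ((E - a) / lam + lam * (E + a)) / 2 := by
    field_simp; ring
  linarith

/-- **the Manhattan inequality** on an interval -/
theorem manhattan {q : ℝ → V} {a b : ℝ} (hab : a ≤ b) {i j : Fin 3} (hij : i ≠ j) {lam : ℝ}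
    (h0 : 0 < lam) (h1 : lam ≤ 1) :
    eVariationOn (fun t => q t j) (Icc a b) +
      ENNReal.ofReal (1 / (2 * lam) - lam / 2) * eVariationOn (fun t => q t i) (Icc a b) ≤
      ENNReal.ofReal (1 / (2 * lam) + lam / 2) * len q (Icc a b) := by
  have h2 : 0 ≤ 1 / (2 * lam) - lam / 2 := by
    rw [sub_nonneg, div_le_div_iff₀ two_pos (by positivity)]
    nlinarith
  have := evar_super (f := fun t => q t j) (g := fun t => q t i)
    (k := fun t => (WithLp.toLp 2 (q t) : EuclideanSpace ℝ (Fin 3))) (α := 1)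
    (β := ENNReal.ofReal (1 / (2 * lam) - lam / 2))
    (C := ENNReal.ofReal (1 / (2 * lam) + lam / 2)) hab (by
      intro x _ y _
      rw [edist_toLp, one_mul, edist_dist, edist_dist, Real.dist_eq, Real.dist_eq,
        ← ENNReal.ofReal_mul h2, ← ENNReal.ofReal_add (abs_nonneg _) (by positivity),
        ← ENNReal.ofReal_mul (by positivity)]
      exact ENNReal.ofReal_le_ofReal (manh_pt hij h0))
  rwa [one_mul] at this

end Vale.Agent.P073.H716
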