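import Vale.Agent.P073.H235.R2Parts
import Vale.Agent.P073.H732.Dvar1
import Vale.Agent.P073.H716.Rows1

/-!
# P073 / H716: [ROWS], one edge: variation and net displacement in terms of `xE`
-/

open Set MeasureTheory Filter Topology Metric
open scoped ENNReal NNReal

namespace Vale.Agent.P073.H716

open Vale.Agent.P073.St (V euc)
open Vale.Agent.P073.SQ (ev)
open Vale.Agent.P073.AB
open Vale.Agent.P073.H73 (onSeg segP)
open Vale.Agent.P073.H239 (tv)
open Vale.Agent.P073.H235 (xE)
open Vale.Agent.P073.H732 (conical_diff conical_edge)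
open Vale.Agent.P073.H687 (conical_len_le onSeg_segP)
open _root_.P073 (ConHomeo ConicalOn)
open _root_.P073.Net (len edist_toLp euc_smul euc_nonneg)
open _root_.P073.Gauge (gam)
open _root_.P073.Gauge.O407 (jInt eInt_eq deriv_gam)

theorem euc_ev0 : euc (ev 0 : V) = 1 := by
  rw [euc, Fin.sum_univ_three]
  simp [ev]

/-- the variation of a component of a conical curve, minus a linear function -/
theorem evar_coord_sub_le {γ : ℝ → V} (hγ : ConicalOn γ (Icc 0 1)) (j : Fin 3) (α : ℝ) :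
    eVariationOn (fun t => γ t j - α * t) (Icc 0 1) ≤
      ∫⁻ t in Icc (0:ℝ) 1, ENNReal.ofReal |deriv γ t j - α| := by
  have hX := hγ.conicalSet
  -- the curve `(γ t j - α t) ev 0`
  set c : ℝ → V := fun t => (γ t j - α * t) • (ev 0 : V) with hc
  have hcc : ConicalOn c (Icc 0 1) := by
    have h1 : ConicalOn (fun t => γ t j) (Icc 0 1) :=
      hγ.linear_comp (LinearMap.proj j : V →ₗ[ℝ] ℝ)
    have h2 : ConicalOn (fun t : ℝ => α * t) (Icc 0 1) :=
      _root_.P073.conicalOn_linear (LinearMap.toSpanSingleton ℝ ℝ α |>.comp LinearMap.id) hX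
        |>.congr fun t _ => by simp [mul_comm]
    exact (h1.sub h2).smul_const' (ev 0 : V)
  have h3 : eVariationOn (fun t => γ t j - α * t) (Icc 0 1) ≤ len c (Icc 0 1) := by
    have := _root_.P073.Net.eVariationOn_le_of_edist (f := fun t => γ t j - α * t)
      (g := fun t => (WithLp.toLp 2 (c t) : EuclideanSpace ℝ (Fin 3))) (s := Icc (0:ℝ) 1) (C := 1)
      (fun x _ y _ => by
        rw [edist_toLp, one_mul, hc, ← sub_smul, euc_smul, euc_ev0, mul_one, edist_dist,
          Real.dist_eq])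
    rwa [one_mul] at this
  refine h3.trans ((conical_len_le zero_le_one hcc).trans ?_)
  rw [← restrict_Ioo_eq_restrict_Icc]
  refine lintegral_mono_ae ?_
  rw [ae_restrict_iff' measurableSet_Ioo]
  filter_upwards [(conical_diff hγ).countable.ae_notMem volume] with t ht htI
  have hd : DifferentiableAt ℝ γ t := by
    by_contra hn
    exact ht ⟨htI, hn⟩
  have h4 : HasDerivAt (fun s => γ s j) (deriv γ t j) t := (hasDerivAt_pi.1 hd.hasDerivAt) j
  have h5 : HasDerivAt c ((deriv γ t j - α) • (ev 0 : V)) t := by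
    have h6 : HasDerivAt (fun s : ℝ => α * s) α t := by
      simpa using (hasDerivAt_id t).const_mul α
    exact (h4.sub h6).smul_const _
  rw [h5.deriv, euc_smul, euc_ev0, mul_one]

variable {Ω Λ : Set V}

/-- the component `j` on an edge -/
theorem evar_edge_le (h : ConHomeo Ω Λ) {v : V} {e : Idx × Fin 3} (he : edge v e ⊆ Ω)
    (j : Fin 3) :
    eVariationOn (fun t => onSeg h.toFun (segP v e) t j - (1 / 2 ^ e.1.1 * ev e.2 j) * t)
      (Icc 0 1) ≤ eInt v e fun x => ENNReal.ofReal |lineDeriv ℝ h.toFun x (ev e.2) j - ev e.2 j| := by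
  rw [onSeg_segP]
  refine (evar_coord_sub_le (conical_edge h he) j _).trans (le_of_eq ?_)
  rw [eInt_eq, jInt, ← lintegral_const_mul' _ _ ENNReal.ofReal_ne_top]
  refine lintegral_congr fun t => ?_
  rw [deriv_gam, ← ENNReal.ofReal_mul (by positivity)]
  congr 1
  rw [Pi.smul_apply, smul_eq_mul, ← mul_sub, abs_mul, abs_of_nonneg (by positivity)]

theorem measurable_comp_edge (h : V → V) (v : V) (e : Idx × Fin 3) (j : Fin 3) :
    Measurable fun t => ENNReal.ofReal |lineDeriv ℝ h (gam v e t) (ev e.2) j - ev e.2 j| := by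
  have h1 : Measurable fun t => deriv (fun s => h (gam v e s)) t j :=
    (measurable_pi_apply j).comp (measurable_deriv _)
  have h2 : ∀ t, lineDeriv ℝ h (gam v e t) (ev e.2) j =
      2 ^ e.1.1 * deriv (fun s => h (gam v e s)) t j := by
    intro t
    rw [deriv_gam, Pi.smul_apply, smul_eq_mul, ← mul_assoc]
    have : (2:ℝ) ^ e.1.1 * (1 / 2 ^ e.1.1) = 1 := by field_simp
    rw [this, one_mul]
  simp only [h2]
  exact (((h1.const_mul _).sub_const _).abs).ennreal_ofReal

/-- `xE` is the sum of the two horizontal errors -/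
theorem xE_eq (h : V → V) (v : V) (e : Idx × Fin 3) :
    xE h v e = ∑ j ∈ Finset.univ.erase (2 : Fin 3),
      eInt v e fun x => ENNReal.ofReal |lineDeriv ℝ h x (ev e.2) j - ev e.2 j| := by
  unfold xE
  simp only [eInt_eq, jInt]
  rw [← Finset.mul_sum, lintegral_finsetSum _ fun j _ => measurable_comp_edge h v e j]

/-- **variation** on an edge -/
theorem tv_edge_le (h : ConHomeo Ω Λ) {v : V} {e : Idx × Fin 3} (he : edge v e ⊆ Ω) :
    tv h.toFun (segP v e) (Finset.univ.erase 2) ≤
      ENNReal.ofReal (1 / 2 ^ e.1.1) + xE h.toFun v e := by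
  have h1 : ∀ j : Fin 3, eVariationOn (fun t => onSeg h.toFun (segP v e) t j) (Icc 0 1) ≤
      (eInt v e fun x => ENNReal.ofReal |lineDeriv ℝ h.toFun x (ev e.2) j - ev e.2 j|) +
        ENNReal.ofReal (1 / 2 ^ e.1.1 * ev e.2 j) := by
    intro j
    have hα : 0 ≤ 1 / 2 ^ e.1.1 * (ev e.2 : V) j := by
      have : 0 ≤ (ev e.2 : V) j := by
        by_cases hj : j = e.2
        · subst hj; simp [ev]
        · simp [ev, hj]
      positivity
    have h2 := _root_.P073.Net.eVariationOn_le_add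
      (f := fun t => onSeg h.toFun (segP v e) t j)
      (g := fun t => onSeg h.toFun (segP v e) t j - (1 / 2 ^ e.1.1 * ev e.2 j) * t)
      (k := fun t : ℝ => (1 / 2 ^ e.1.1 * ev e.2 j) * t) (s := Icc (0:ℝ) 1) (by
        intro x _ y _
        have := edist_add_add_le (onSeg h.toFun (segP v e) x j - (1 / 2 ^ e.1.1 * ev e.2 j) * x)
          ((1 / 2 ^ e.1.1 * ev e.2 j) * x)
          (onSeg h.toFun (segP v e) y j - (1 / 2 ^ e.1.1 * ev e.2 j) * y)
          ((1 / 2 ^ e.1.1 * ev e.2 j) * y)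
        simpa using this)
    refine h2.trans (add_le_add (evar_edge_le h he j) ?_)
    have h3 : MonotoneOn (fun t : ℝ => (1 / 2 ^ e.1.1 * (ev e.2 : V) j) * t) (Icc 0 1) :=
      fun x _ y _ hxy => mul_le_mul_of_nonneg_left hxy hα
    have h4 := h3.eVariationOn_eq (left_mem_Icc.2 zero_le_one) (right_mem_Icc.2 zero_le_one)
    rw [inter_self] at h4
    rw [h4]
    simp
  unfold tv
  calc ∑ j ∈ Finset.univ.erase (2 : Fin 3),
        eVariationOn (fun t => onSeg h.toFun (segP v e) t j) (Icc 0 1)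
      ≤ ∑ j ∈ Finset.univ.erase (2 : Fin 3),
        ((eInt v e fun x => ENNReal.ofReal |lineDeriv ℝ h.toFun x (ev e.2) j - ev e.2 j|) +
          ENNReal.ofReal (1 / 2 ^ e.1.1 * ev e.2 j)) := Finset.sum_le_sum fun j _ => h1 j
    _ = xE h.toFun v e + ∑ j ∈ Finset.univ.erase (2 : Fin 3),
          ENNReal.ofReal (1 / 2 ^ e.1.1 * (ev e.2 : V) j) := by
        rw [Finset.sum_add_distrib, xE_eq]
    _ ≤ xE h.toFun v e + ENNReal.ofReal (1 / 2 ^ e.1.1) := by
        gcongr
        have h4 : ∀ j : Fin 3, ENNReal.ofReal (1 / 2 ^ e.1.1 * (ev e.2 : V) j) =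
            if j = e.2 then ENNReal.ofReal (1 / 2 ^ e.1.1) else 0 := by
          intro j
          by_cases hj : j = e.2
          · subst hj; simp [ev]
          · simp [ev, hj]
        calc ∑ j ∈ Finset.univ.erase (2 : Fin 3), ENNReal.ofReal (1 / 2 ^ e.1.1 * (ev e.2 : V) j)
            ≤ ∑ j : Fin 3, ENNReal.ofReal (1 / 2 ^ e.1.1 * (ev e.2 : V) j) :=
              Finset.sum_le_sum_of_subset (Finset.erase_subset _ _)
          _ = _ := by
            simp only [h4]
            rw [Finset.sum_ite_eq' Finset.univ e.2, if_pos (Finset.mem_univ _)]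
    _ = _ := add_comm _ _

/-- **net displacement** on an edge -/
theorem net_edge_le (h : ConHomeo Ω Λ) {v : V} {e : Idx × Fin 3} (he : edge v e ⊆ Ω)
    (h2 : e.2 ≠ 2) :
    ENNReal.ofReal |h.toFun (segP v e).2 e.2 - h.toFun (segP v e).1 e.2 - 1 / 2 ^ e.1.1| ≤
      xE h.toFun v e := by
  have h1 := evar_edge_le h he e.2
  have h3 := eVariationOn.edist_le
    (fun t => onSeg h.toFun (segP v e) t e.2 - (1 / 2 ^ e.1.1 * (ev e.2 : V) e.2) * t)
    (right_mem_Icc.2 (zero_le_one' ℝ)) (left_mem_Icc.2 (zero_le_one' ℝ))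
  have e1 : (ev e.2 : V) e.2 = 1 := by simp [ev]
  have e2 : edist (onSeg h.toFun (segP v e) 1 e.2 - (1 / 2 ^ e.1.1 * (ev e.2 : V) e.2) * 1)
      (onSeg h.toFun (segP v e) 0 e.2 - (1 / 2 ^ e.1.1 * (ev e.2 : V) e.2) * 0) =
      ENNReal.ofReal |h.toFun (segP v e).2 e.2 - h.toFun (segP v e).1 e.2 - 1 / 2 ^ e.1.1| := by
    rw [edist_dist, Real.dist_eq, e1]
    simp only [onSeg, one_smul, zero_smul, add_zero, add_sub_cancel]
    congr 2
    ring
  rw [e2] at h3
  refine h3.trans (h1.trans ?_)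
  rw [xE_eq]
  exact Finset.single_le_sum (f := fun j => eInt v e fun x =>
    ENNReal.ofReal |lineDeriv ℝ h.toFun x (ev e.2) j - ev e.2 j|) (fun _ _ => zero_le)
    (Finset.mem_erase.2 ⟨h2, Finset.mem_univ _⟩)

end Vale.Agent.P073.H716
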