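import Mathlib

/-!
# P073, block CUB1 = [GEN]: generic constants for a countable family of affine functions

`exists_generic`: for a countable family of vectors `w i` and constants `c i` there are arbitrarily
small positive `η i` such that any finite set of the functionals `w j`, shifted by `c j + η j`, which
take a common value at some linear functional `l` is affinely independent.
-/

open Set Topology

namespace Vale.Agent.P073.H716

/-- in a product of compact intervals, one non trivial linear equation in finitely many coordinates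
defines a closed set whose complement is dense -/
theorem dense_ne {ι : Type*} {α β : ι → ℝ} (hαβ : ∀ i, α i < β i) (J : Finset ι) (a : ι → ℝ)
    (b : ℝ) (j : ι) (hj : j ∈ J) (haj : a j ≠ 0) :
    Dense {η : ∀ i, Icc (α i) (β i) | ∑ i ∈ J, a i * (η i : ℝ) ≠ b} := by
  classical
  intro η
  -- the line through `η` in direction `j`
  let φ : Icc (α j) (β j) → ∀ i, Icc (α i) (β i) := fun t => Function.update η j t
  have hφ : Continuous φ := continuous_const.update j continuous_id
  have hφη : φ (η j) = η := Function.update_eq_self j η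
  have hval : ∀ t : Icc (α j) (β j), ∑ i ∈ J, a i * (φ t i : ℝ) =
      a j * (t : ℝ) + ∑ i ∈ J.erase j, a i * (η i : ℝ) := by
    intro t
    rw [← Finset.add_sum_erase J _ hj]
    congr 1
    · simp [φ]
    · apply Finset.sum_congr rfl
      intro i hi
      have : i ≠ j := Finset.ne_of_mem_erase hi
      simp [φ, Function.update_of_ne this]
  -- good parameters are dense
  have hd : Dense {t : Icc (α j) (β j) |
      a j * (t : ℝ) + ∑ i ∈ J.erase j, a i * (η i : ℝ) ≠ b} := by
    set s : ℝ := (b - ∑ i ∈ J.erase j, a i * (η i : ℝ)) / a j with hs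
    have hset : {t : Icc (α j) (β j) | a j * (t : ℝ) + ∑ i ∈ J.erase j, a i * (η i : ℝ) ≠ b} =
        {t : Icc (α j) (β j) | (t : ℝ) ≠ s} := by
      ext t
      simp only [mem_ofPred_eq, ne_eq, not_iff_not]
      rw [hs, eq_div_iff haj]
      constructor <;> intro h <;> linarith
    rw [hset]
    intro t
    rw [Metric.mem_closure_iff]
    intro ε hε
    by_cases hts : (t : ℝ) = s
    · -- move a little
      rcases lt_or_ge (t : ℝ) (β j) with h | h
      · refine ⟨⟨min (β j) (t + ε / 2), ?_⟩, ?_, ?_⟩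
        · constructor
          · exact le_min (hαβ j).le (by linarith [t.2.1])
          · exact min_le_left _ _
        · simp only [mem_ofPred_eq, ne_eq]
          rw [← hts]
          have : (t : ℝ) < min (β j) (t + ε / 2) := lt_min h (by linarith)
          exact this.ne'
        · rw [Subtype.dist_eq, Real.dist_eq]
          have h1 : (t : ℝ) < min (β j) (t + ε / 2) := lt_min h (by linarith)
          have h2 : min (β j) (t + ε / 2) ≤ t + ε / 2 := min_le_right _ _
          rw [abs_of_neg (by linarith)]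
          linarith
      · have ht : (t : ℝ) = β j := le_antisymm t.2.2 h
        refine ⟨⟨max (α j) (t - ε / 2), ?_⟩, ?_, ?_⟩
        · constructor
          · exact le_max_left _ _
          · exact max_le (hαβ j).le (by linarith [t.2.2])
        · simp only [mem_ofPred_eq, ne_eq]
          rw [← hts]
          have : max (α j) (t - ε / 2) < (t : ℝ) := max_lt (by rw [ht]; exact hαβ j) (by linarith)
          exact this.ne
        · rw [Subtype.dist_eq, Real.dist_eq]
          have h1 : max (α j) (t - ε / 2) < (t : ℝ) :=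
            max_lt (by rw [ht]; exact hαβ j) (by linarith)
          have h2 : (t : ℝ) - ε / 2 ≤ max (α j) (t - ε / 2) := le_max_right _ _
          rw [abs_of_pos (by linarith)]
          linarith
    · exact ⟨t, hts, by rw [dist_self]; exact hε⟩
  have hmem : φ (η j) ∈ closure (φ '' {t : Icc (α j) (β j) |
      a j * (t : ℝ) + ∑ i ∈ J.erase j, a i * (η i : ℝ) ≠ b}) :=
    image_closure_subset_closure_image hφ ⟨η j, hd (η j), rfl⟩
  rw [hφη] at hmem
  refine closure_mono ?_ hmem
  rintro _ ⟨t, ht, rfl⟩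
  simp only [mem_ofPred_eq] at ht ⊢
  rw [hval]
  exact ht

theorem isOpen_ne {ι : Type*} {α β : ι → ℝ} (J : Finset ι) (a : ι → ℝ) (b : ℝ) :
    IsOpen {η : ∀ i, Icc (α i) (β i) | ∑ i ∈ J, a i * (η i : ℝ) ≠ b} := by
  refine isOpen_ne_fun ?_ continuous_const
  refine continuous_finsetSum _ fun i _ => ?_
  exact continuous_const.mul (continuous_subtype_val.comp (continuous_apply i))

/-- countably many linear equations can be avoided by arbitrarily small positive numbers -/
theorem exists_avoid {ι κ : Type*} [Countable κ] (tol : ι → ℝ) (htol : ∀ i, 0 < tol i)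
    (J : κ → Finset ι) (a : κ → ι → ℝ) (b : κ → ℝ) (ha : ∀ k, ∃ j ∈ J k, a k j ≠ 0) :
    ∃ η : ι → ℝ, (∀ i, 0 < η i ∧ η i < tol i) ∧ ∀ k, ∑ i ∈ J k, a k i * η i ≠ b k := by
  have hαβ : ∀ i, tol i / 3 < tol i / 2 := fun i => by have := htol i; linarith
  have : ∀ i, Nonempty (Icc (tol i / 3) (tol i / 2)) := fun i => ⟨⟨_, left_mem_Icc.2 (hαβ i).le⟩⟩
  have hd : Dense (⋂ k, {η : ∀ i, Icc (tol i / 3) (tol i / 2) |
      ∑ i ∈ J k, a k i * (η i : ℝ) ≠ b k}) := by
    apply dense_iInter_of_isOpen
    · exact fun k => isOpen_ne (J k) (a k) (b k)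
    · intro k
      obtain ⟨j, hj, haj⟩ := ha k
      exact dense_ne hαβ (J k) (a k) (b k) j hj haj
  obtain ⟨η, hη⟩ := hd.nonempty
  refine ⟨fun i => (η i : ℝ), fun i => ⟨?_, ?_⟩, fun k => ?_⟩
  · have := (η i).2.1; have := htol i; linarith
  · have := (η i).2.2; have := htol i; linarith
  · exact mem_iInter.1 hη k

/-- **[GEN]** generic constants: finitely many of the affine functions `l ↦ l (w j) - (c j + η j)`
with a common value at some `l` have affinely independent slopes -/
theorem exists_generic {ι W : Type*} [Countable ι] [AddCommGroup W] [Module ℝ W]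
    (w : ι → W) (c tol : ι → ℝ) (htol : ∀ i, 0 < tol i) :
    ∃ η : ι → ℝ, (∀ i, 0 < η i ∧ η i < tol i) ∧
      ∀ (J : Finset ι) (l : W →ₗ[ℝ] ℝ) (t : ℝ), (∀ j ∈ J, l (w j) - (c j + η j) = t) →
        AffineIndependent ℝ (fun j : J => w j) := by
  classical
  -- the affinely dependent finite sets
  let κ := {J : Finset ι // ¬ AffineIndependent ℝ (fun j : J => w j)}
  have hrel : ∀ k : κ, ∃ a : ι → ℝ, (∃ j ∈ k.1, a j ≠ 0) ∧ ∑ i ∈ k.1, a i = 0 ∧
      ∑ i ∈ k.1, a i • w i = 0 := by
    rintro ⟨J, hJ⟩
    rw [affineIndependent_iff] at hJ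
    push Not at hJ
    obtain ⟨s, u, hu0, huw, j, hjs, huj⟩ := hJ
    refine ⟨fun i => if h : i ∈ J then (if (⟨i, h⟩ : J) ∈ s then u ⟨i, h⟩ else 0) else 0,
      ⟨j, j.2, ?_⟩, ?_, ?_⟩
    · simp [hjs, huj]
    · rw [← Finset.sum_coe_sort J]
      have : ∀ i : J, (if h : (i : ι) ∈ J then (if (⟨i, h⟩ : J) ∈ s then u ⟨i, h⟩ else 0) else 0) =
          if i ∈ s then u i else 0 := by
        intro i; simp
      rw [Finset.sum_congr rfl (fun i _ => this i), Finset.sum_ite_mem, Finset.univ_inter]
      exact hu0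
    · rw [← Finset.sum_coe_sort J]
      have : ∀ i : J, (if h : (i : ι) ∈ J then (if (⟨i, h⟩ : J) ∈ s then u ⟨i, h⟩ else 0) else 0)
          • w i = if i ∈ s then u i • w i else 0 := by
        intro i
        by_cases hi : i ∈ s <;> simp [hi]
      rw [Finset.sum_congr rfl (fun i _ => this i), Finset.sum_ite_mem, Finset.univ_inter]
      exact huw
  choose a ha ha0 haw using hrel
  obtain ⟨η, hη, hne⟩ := exists_avoid (κ := κ) tol htol (fun k => k.1) a
    (fun k => - ∑ i ∈ k.1, a k i * c i) ha
  refine ⟨η, hη, fun J l t hJ => ?_⟩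
  by_contra hdep
  apply hne ⟨J, hdep⟩
  have h1 : ∑ i ∈ J, a ⟨J, hdep⟩ i * (l (w i) - (c i + η i)) = 0 := by
    rw [Finset.sum_congr rfl (fun i hi => by rw [hJ i hi]), ← Finset.sum_mul, ha0 ⟨J, hdep⟩,
      zero_mul]
  have h2 : ∑ i ∈ J, a ⟨J, hdep⟩ i * l (w i) = 0 := by
    have := congrArg l (haw ⟨J, hdep⟩)
    rw [map_sum, map_zero] at this
    simpa [map_smul, smul_eq_mul] using this
  have h3 : ∑ i ∈ J, a ⟨J, hdep⟩ i * (l (w i) - (c i + η i)) =
      ∑ i ∈ J, a ⟨J, hdep⟩ i * l (w i) - ∑ i ∈ J, a ⟨J, hdep⟩ i * c i -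
        ∑ i ∈ J, a ⟨J, hdep⟩ i * η i := by
    rw [← Finset.sum_sub_distrib, ← Finset.sum_sub_distrib]
    exact Finset.sum_congr rfl fun i _ => by ring
  rw [h1, h2] at h3
  show ∑ i ∈ J, a ⟨J, hdep⟩ i * η i = - ∑ i ∈ J, a ⟨J, hdep⟩ i * c i
  linarith

end Vale.Agent.P073.H716
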