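import Vale.Agent.P073.H716.RowsQ

/-!
# P073 / H716: **[ROWS]** `SpecRows` of `H235/R2Parts.lean`
-/

open Set MeasureTheory Filter Finset
open scoped ENNReal NNReal

namespace Vale.Agent.P073.H716

open Vale.Agent.P073
open Vale.Agent.P073.St (V euc)
open Vale.Agent.P073.SQ (ev)
open Vale.Agent.P073.AB
open Vale.Agent.P073.H73 (onSeg segP)
open Vale.Agent.P073.H239 (tv)
open Vale.Agent.P073.H235 (xE rect redge Free NearMon ShortH RowData SpecRows)
open _root_.P073 (ConHomeo)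

variable {Ω Λ : Set V} {p C D c ε : ℝ} {v : V} {nS mt : ℕ} {a b : Fin 3 → ℤ}
  {G : Finset (Fin 3 → ℤ)} {h g : ConHomeo Ω Λ} {ℓ X : Idx × Fin 3 → ℝ≥0∞} {i j : Fin 3}

/-- a square which is not free has edges in the zone -/
theorem zo_of_not_free (H : RowData p C D c ε v nS mt a b G h g ℓ X) (hc : 0 ≤ c)
    {k : Fin 3 → ℤ} (hk : k ∈ rect a b) (hF : ¬ Free c v nS mt h.toFun k) :
    ∃ i : Fin 3, i ≠ 2 ∧ Zo c v nS mt h.toFun i k := by
  by_contra hcon
  push Not at hcon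
  apply hF
  have h2 : (0:ℝ) < 2 ^ mt := by positivity
  have hch : 0 ≤ c / 2 ^ mt := by positivity
  have hsq : ∀ i : Fin 3, i ≠ 2 → (segP v ((nS, k), i)).1 ∈ squ v ((nS, k), 2) ∧
      (segP v ((nS, k), i)).2 ∈ squ v ((nS, k), 2) := by
    intro i hi
    have he : EdgeOfSq ((nS, k), i) ((nS, k), 2) :=
      ⟨rfl, hi, rfl, rfl, fun l _ _ => Or.inl rfl⟩
    exact ⟨S308.edge_sub_squ he (left_mem_edge v _), S308.edge_sub_squ he (right_mem_edge v _)⟩
  refine ⟨fun i => ⌊h.toFun (pt v nS k) i * 2 ^ mt⌋, fun x hx i hi => ?_⟩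
  obtain ⟨s1, s2⟩ := hsq i hi
  have hno := hcon i hi
  set z := ⌊h.toFun (pt v nS k) i * 2 ^ mt⌋ with hz
  have z1 : (z : ℝ) / 2 ^ mt ≤ h.toFun (pt v nS k) i := by
    rw [div_le_iff₀ h2]; exact Int.floor_le _
  have z2 : h.toFun (pt v nS k) i < ((z : ℝ) + 1) / 2 ^ mt := by
    rw [lt_div_iff₀ h2]; exact Int.lt_floor_add_one _
  have hosc : ∀ y ∈ squ v ((nS, k), 2), ∀ y' ∈ squ v ((nS, k), 2),
      |h.toFun y i - h.toFun y' i| ≤ c / 2 ^ mt := by
    intro y hy y' hy'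
    have h3 := norm_le_pi_norm (h.toFun y - h.toFun y') i
    rw [Real.norm_eq_abs, Pi.sub_apply] at h3
    exact h3.trans (H.osc k hk y hy y' hy')
  have hx0 : ∀ y ∈ squ v ((nS, k), 2), |h.toFun y i - h.toFun (pt v nS k) i| ≤ c / 2 ^ mt :=
    fun y hy => hosc y hy _ s1
  have e1 : ((z : ℝ) + c) / 2 ^ mt = z / 2 ^ mt + c / 2 ^ mt := by ring
  have e2 : ((z : ℝ) + 1 - c) / 2 ^ mt = (z + 1) / 2 ^ mt - c / 2 ^ mt := by ring
  have e3 : 2 * c / 2 ^ mt = c / 2 ^ mt + c / 2 ^ mt := by ring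
  constructor
  · by_contra hlt
    push Not at hlt
    rw [e1] at hlt
    apply hno
    have key : ∀ y ∈ squ v ((nS, k), 2), |h.toFun y i - z / 2 ^ mt| ≤ 2 * c / 2 ^ mt := by
      intro y hy
      have h3 := abs_le.1 (hosc y hy x hx)
      have h4 := abs_le.1 (hx0 y hy)
      rw [e3, abs_le]
      constructor <;> linarith [h3.1, h3.2, h4.1, h4.2]
    exact ⟨z, key _ s1, key _ s2⟩
  · by_contra hlt
    push Not at hlt
    rw [e2] at hlt
    apply hno
    have key : ∀ y ∈ squ v ((nS, k), 2), |h.toFun y i - ((z + 1 : ℤ) : ℝ) / 2 ^ mt| ≤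
        2 * c / 2 ^ mt := by
      intro y hy
      have h3 := abs_le.1 (hosc y hy x hx)
      have h4 := abs_le.1 (hx0 y hy)
      push_cast
      rw [e3, abs_le]
      constructor <;> linarith [h3.1, h3.2, h4.1, h4.2]
    exact ⟨z + 1, key _ s1, key _ s2⟩

theorem dir_cases (hi : i ≠ 2) : i = 0 ∨ i = 1 := by
  revert i; decide

theorem third_two (hij : i ≠ j) (hi : i ≠ 2) (hj : j ≠ 2) : third 2 j = i := by
  revert i j; decide

theorem sides_eq (F : Idx × Fin 3 → ℝ≥0∞) (k : Fin 3 → ℤ) :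
    ∑' e : {e : Idx × Fin 3 // EdgeOfSq e ((nS, k), 2)}, F e.1 =
      (F ((nS, k), 0) + F ((nS, Function.update k 1 (k 1 + 1)), 0)) +
        (F ((nS, k), 1) + F ((nS, Function.update k 0 (k 0 + 1)), 1)) := by
  rw [H687.tsum_sqE, sum_sqE]
  have e1 : (Finset.univ.erase (2 : Fin 3)) = {1, 0} := by decide
  show ∑ a ∈ Finset.univ.erase (2 : Fin 3), _ = _
  rw [e1, Finset.sum_pair (by decide)]
  have e2 : ∀ l : Fin 3, Function.update k l (k l + 0) = k := by
    intro l; rw [add_zero, Function.update_eq_self]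
  have e3 : third 2 1 = 0 := by decide
  have e4 : third 2 0 = 1 := by decide
  simp only [sqEdge, e2, e3, e4]

/-- shifted squares are edges positions -/
theorem shift_mem (hij : i ≠ j) (hi : i ≠ 2) (hj : j ≠ 2) {k : Fin 3 → ℤ}
    (hk : k ∈ rect a b) : Function.update k j (k j + 1) ∈ redge a b i := by
  rw [mem_rect hij hi hj] at hk
  rw [mem_redge hij hi hj, Function.update_of_ne hj.symm, Function.update_of_ne hij,
    Function.update_self]
  omega

theorem shift_inj (j : Fin 3) :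
    Function.Injective fun k : Fin 3 → ℤ => Function.update k j (k j + 1) := by
  intro k k' hkk
  funext l
  have h1 := congrFun hkk l
  by_cases hl : l = j
  · subst hl
    simp only [Function.update_self] at h1
    omega
  · simp only [Function.update_of_ne hl] at h1
    exact h1

theorem sum_dir_le (hij : i ≠ j) (hi : i ≠ 2) (hj : j ≠ 2) (F : Idx × Fin 3 → ℝ≥0∞) :
    ∑ k ∈ rect a b, (F ((nS, k), i) + F ((nS, Function.update k j (k j + 1)), i)) ≤
      2 * ∑ k ∈ redge a b i, F ((nS, k), i) := by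
  rw [sum_add_distrib, two_mul]
  refine add_le_add ?_ ?_
  · exact sum_le_sum_of_subset fun k hk => rect_sub_redge hij hi hj hk
  · rw [← sum_image (f := fun k => F ((nS, k), i))
      (g := fun k : Fin 3 → ℤ => Function.update k j (k j + 1))
      (fun k _ k' _ hkk => shift_inj j hkk)]
    refine sum_le_sum_of_subset fun k hk => ?_
    obtain ⟨k', hk', rfl⟩ := Finset.mem_image.1 hk
    exact shift_mem hij hi hj hk'

theorem sum_sides_le (F : Idx × Fin 3 → ℝ≥0∞) :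
    ∑ k ∈ rect a b, ∑' e : {e : Idx × Fin 3 // EdgeOfSq e ((nS, k), 2)}, F e.1 ≤
      2 * ∑ k ∈ redge a b 0, F ((nS, k), 0) + 2 * ∑ k ∈ redge a b 1, F ((nS, k), 1) := by
  simp only [sides_eq]
  rw [sum_add_distrib]
  exact add_le_add (sum_dir_le (by decide) (by decide) (by decide) F)
    (sum_dir_le (by decide) (by decide) (by decide) F)

/-- constant functions -/
theorem sides_const (x : ℝ≥0∞) (k : Fin 3 → ℤ) :
    ∑' _e : {e : Idx × Fin 3 // EdgeOfSq e ((nS, k), 2)}, x = 4 * x := by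
  have := sides_eq (nS := nS) (fun _ => x) k
  rw [this]
  ring

/-! ### Linear bounds -/

theorem card_redge_le (H : RowData p C D c ε v nS mt a b G h g ℓ X) (hij : i ≠ j) (hi : i ≠ 2)
    (hj : j ≠ 2) : ((redge a b i).card : ℝ) * (1 / 2 ^ nS) ^ 2 ≤ 2 := by
  have h1 := sum_redge (a := a) (b := b) (E := ℕ) hij hi hj (H.size j hj).1 (fun _ => 1)
  simp only [sum_const, card_range, smul_eq_mul, mul_one] at h1
  have h2 := size_le H hi
  have h3 := rows_le H hj
  have h4 : (0:ℝ) ≤ ((b i - a i).toNat : ℝ) * (1 / 2 ^ nS) := by positivity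
  have h5 : (0:ℝ) ≤ ((((b j - a j).toNat + 1 : ℕ)) : ℝ) * (1 / 2 ^ nS) := by positivity
  rw [h1, Nat.cast_mul]
  calc _ = (((((b j - a j).toNat + 1 : ℕ)) : ℝ) * (1 / 2 ^ nS)) *
        (((b i - a i).toNat : ℝ) * (1 / 2 ^ nS)) := by ring
    _ ≤ 2 * 1 := mul_le_mul h3 h2 h4 (by norm_num)
    _ = 2 := by norm_num

theorem sumX_le (H : RowData p C D c ε v nS mt a b G h g ℓ X) (hp : 1 ≤ p) {lam : ℝ}
    (hl : 0 < lam) (hε : ε = lam ^ p) (hij : i ≠ j) (hi : i ≠ 2) (hj : j ≠ 2) :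
    ∑ k ∈ redge a b i, ENNReal.ofReal (1 / 2 ^ nS) * X ((nS, k), i) ≤
      ENNReal.ofReal (3 * lam) := by
  have hσ : (0:ℝ) < 1 / 2 ^ nS := by positivity
  have h1 : ∑ k ∈ redge a b i, ENNReal.ofReal (1 / 2 ^ nS) *
      (ENNReal.ofReal ((1 / 2 ^ nS) ^ (1 - p)) * X ((nS, k), i) ^ p) ≤ ENNReal.ofReal ε :=
    (Finset.single_le_sum (f := fun i => ∑ k ∈ redge a b i, ENNReal.ofReal (1 / 2 ^ nS) *
      (ENNReal.ofReal ((1 / 2 ^ nS) ^ (1 - p)) * X ((nS, k), i) ^ p)) (fun _ _ => zero_le)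
      (Finset.mem_erase.2 ⟨hi, Finset.mem_univ i⟩)).trans H.close
  have h2 : ((redge a b i).card : ℝ≥0∞) * ENNReal.ofReal (lam * (1 / 2 ^ nS) ^ 2) ≤
      ENNReal.ofReal (2 * lam) := by
    rw [← ENNReal.ofReal_natCast, ← ENNReal.ofReal_mul (by positivity)]
    refine ENNReal.ofReal_le_ofReal ?_
    have h3 := mul_le_mul_of_nonneg_left (card_redge_le H hij hi hj) hl.le
    linarith
  have h3 : ENNReal.ofReal (lam ^ (1 - p)) * ENNReal.ofReal ε = ENNReal.ofReal lam := by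
    rw [← ENNReal.ofReal_mul (by positivity), hε, ← Real.rpow_add hl]
    simp
  calc _ ≤ ∑ k ∈ redge a b i, (ENNReal.ofReal (lam * (1 / 2 ^ nS) ^ 2) +
        ENNReal.ofReal (lam ^ (1 - p)) * (ENNReal.ofReal (1 / 2 ^ nS) *
          (ENNReal.ofReal ((1 / 2 ^ nS) ^ (1 - p)) * X ((nS, k), i) ^ p))) :=
        sum_le_sum fun k _ => lin_le hp hσ hl _
    _ = (redge a b i).card * ENNReal.ofReal (lam * (1 / 2 ^ nS) ^ 2) +
        ENNReal.ofReal (lam ^ (1 - p)) * ∑ k ∈ redge a b i, ENNReal.ofReal (1 / 2 ^ nS) *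
          (ENNReal.ofReal ((1 / 2 ^ nS) ^ (1 - p)) * X ((nS, k), i) ^ p) := by
        rw [sum_add_distrib, sum_const, nsmul_eq_mul, ← mul_sum]
    _ ≤ ENNReal.ofReal (2 * lam) + ENNReal.ofReal (lam ^ (1 - p)) * ENNReal.ofReal ε := by
        gcongr
    _ = ENNReal.ofReal (3 * lam) := by
        rw [h3, ← ENNReal.ofReal_add (by positivity) hl.le]
        congr 1
        ring

theorem X_ne_top (H : RowData p C D c ε v nS mt a b G h g ℓ X) (hp : 1 ≤ p) {lam : ℝ}
    (hl : 0 < lam) (hε : ε = lam ^ p) (hij : i ≠ j) (hi : i ≠ 2) (hj : j ≠ 2)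
    {k : Fin 3 → ℤ} (hk : k ∈ redge a b i) : X ((nS, k), i) ≠ ⊤ := by
  intro hcon
  have h1 := (single_le_sum (f := fun k => ENNReal.ofReal (1 / 2 ^ nS) * X ((nS, k), i))
    (fun _ _ => zero_le) hk).trans (sumX_le H hp hl hε hij hi hj)
  have h2 : ENNReal.ofReal (1 / 2 ^ nS) ≠ 0 := by
    simp only [ne_eq, ENNReal.ofReal_eq_zero, not_le]; positivity
  simp only [hcon, ENNReal.mul_top h2, top_le_iff] at h1
  exact ENNReal.ofReal_ne_top h1

theorem eta_le (H : RowData p C D c ε v nS mt a b G h g ℓ X) (hp : 1 ≤ p) {lam : ℝ}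
    (hl : 0 < lam) (hε : ε = lam ^ p) (hij : i ≠ j) (hi : i ≠ 2) (hj : j ≠ 2) :
    ∑ k ∈ redge a b i, (1 / 2 ^ nS) * (X ((nS, k), i)).toReal ≤ 3 * lam := by
  have h1 := sumX_le H hp hl hε hij hi hj
  have h2 : ∑ k ∈ redge a b i, (1 / 2 ^ nS) * (X ((nS, k), i)).toReal =
      (∑ k ∈ redge a b i, ENNReal.ofReal (1 / 2 ^ nS) * X ((nS, k), i)).toReal := by
    rw [ENNReal.toReal_sum fun k hk => ENNReal.mul_ne_top ENNReal.ofReal_ne_top
      (X_ne_top H hp hl hε hij hi hj hk)]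
    refine sum_congr rfl fun k _ => ?_
    rw [ENNReal.toReal_mul, ENNReal.toReal_ofReal (by positivity)]
  rw [h2]
  exact ENNReal.toReal_le_of_le_ofReal (by positivity) h1

open Classical in
/-- the squares outside `G` -/
theorem badQ_le (H : RowData p C D c ε v nS mt a b G h g ℓ X) (hp : 1 ≤ p) (hε0 : 0 ≤ ε)
    (hε1 : ε ≤ 1) :
    ∑ k ∈ rect a b \ G, ENNReal.ofReal (1 / 2 ^ nS) * Qr ε nS ℓ k ≤ ENNReal.ofReal (9 * ε) := by
  have hσ : (0:ℝ) < 1 / 2 ^ nS := by positivity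
  have h1 : ∀ k : Fin 3 → ℤ, ENNReal.ofReal (1 / 2 ^ nS) * Qr ε nS ℓ k ≤
      4 * ENNReal.ofReal (2 * (1 / 2 ^ nS) ^ 2) +
        ∑' e : {e : Idx × Fin 3 // EdgeOfSq e ((nS, k), 2)},
          ENNReal.ofReal (1 / 2 ^ nS) * (ENNReal.ofReal ((1 / 2 ^ nS) ^ (1 - p)) * ℓ e.1 ^ p) := by
    intro k
    unfold Qr
    rw [← ENNReal.tsum_mul_left, ← sides_const (nS := nS) _ k, ← ENNReal.tsum_add]
    refine ENNReal.tsum_le_tsum fun e => ?_
    have h2 := lin_le (lam := 1) hp hσ one_pos (ℓ e.1)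
    rw [Real.one_rpow, ENNReal.ofReal_one, one_mul, one_mul] at h2
    rw [mul_add]
    refine (add_le_add_left h2 _).trans ?_
    rw [add_right_comm]
    refine add_le_add_left ?_ _
    rw [← ENNReal.ofReal_mul hσ.le, ← ENNReal.ofReal_add (by positivity) (by positivity)]
    refine ENNReal.ofReal_le_ofReal ?_
    have h3 : ε * (1 / 2 ^ nS) ^ 2 ≤ 1 * (1 / 2 ^ nS) ^ 2 := by gcongr
    calc _ = (1 / 2 ^ nS) ^ 2 + ε * (1 / 2 ^ nS) ^ 2 := by ring
      _ ≤ _ := by linarith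
  refine (sum_le_sum fun k _ => h1 k).trans ?_
  rw [sum_add_distrib, sum_const, nsmul_eq_mul]
  have h4 : ((rect a b \ G).card : ℝ) / 4 ^ nS ≤ ε :=
    (ENNReal.ofReal_le_ofReal_iff hε0).1 H.area
  have h5 : ((rect a b \ G).card : ℝ≥0∞) * (4 * ENNReal.ofReal (2 * (1 / 2 ^ nS) ^ 2)) ≤
      ENNReal.ofReal (8 * ε) := by
    have e4 : (4 : ℝ≥0∞) = ENNReal.ofReal 4 := by norm_num
    rw [← ENNReal.ofReal_natCast, e4, ← ENNReal.ofReal_mul (by positivity),
      ← ENNReal.ofReal_mul (by positivity)]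
    refine ENNReal.ofReal_le_ofReal ?_
    have e5 : (1 / 2 ^ nS : ℝ) ^ 2 = 1 / 4 ^ nS := by
      rw [div_pow, one_pow, ← pow_mul, mul_comm nS 2, pow_mul]; norm_num
    rw [e5]
    calc _ = 8 * (((rect a b \ G).card : ℝ) / 4 ^ nS) := by ring
      _ ≤ _ := by linarith
  refine (add_le_add h5 H.bad).trans (le_of_eq ?_)
  rw [← ENNReal.ofReal_add (by positivity) hε0]
  congr 1
  ring

open Classical in
/-- good squares which are not free -/
theorem goodQ_le (H : RowData p C D c ε v nS mt a b G h g ℓ X) (hp : 1 ≤ p) (hC : 0 < C)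
    (hε1 : ε ≤ 1) {lam : ℝ} (hl : 0 < lam) (hε : ε = lam ^ p) {S : Finset (Fin 3 → ℤ)}
    (hS : S ⊆ G) {t : ℝ} (ht : (1 / 2 ^ nS : ℝ) ^ 2 * (S.card : ℝ) ≤ t) :
    ∑ k ∈ S, ENNReal.ofReal (1 / 2 ^ nS) * Qr ε nS ℓ k ≤
      ENNReal.ofReal (4 * (C + 1) * t + 12 * C * lam) := by
  have hσ : (0:ℝ) < 1 / 2 ^ nS := by positivity
  have hε0 : 0 < ε := by rw [hε]; positivity
  have ht0 : 0 ≤ t := le_trans (by positivity) ht
  have h1 : ∀ k ∈ S, ENNReal.ofReal (1 / 2 ^ nS) * Qr ε nS ℓ k ≤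
      4 * ENNReal.ofReal ((C + 1) * (1 / 2 ^ nS) ^ 2) +
        ENNReal.ofReal C * ∑' e : {e : Idx × Fin 3 // EdgeOfSq e ((nS, k), 2)},
          ENNReal.ofReal (1 / 2 ^ nS) * X e.1 := by
    intro k hk
    unfold Qr
    rw [← ENNReal.tsum_mul_left, ← ENNReal.tsum_mul_left, ← sides_const (nS := nS) _ k,
      ← ENNReal.tsum_add]
    refine ENNReal.tsum_le_tsum fun e => ?_
    have h2 := H.good k (hS hk) e.1 e.2
    calc ENNReal.ofReal (1 / 2 ^ nS) * (ℓ e.1 + ENNReal.ofReal (ε / 2 ^ nS))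
        ≤ ENNReal.ofReal (1 / 2 ^ nS) * (ENNReal.ofReal C * (ENNReal.ofReal (1 / 2 ^ nS) +
          X e.1) + ENNReal.ofReal (ε / 2 ^ nS)) := by gcongr
      _ = (ENNReal.ofReal C * (ENNReal.ofReal (1 / 2 ^ nS) * ENNReal.ofReal (1 / 2 ^ nS)) +
          ENNReal.ofReal (1 / 2 ^ nS) * ENNReal.ofReal (ε / 2 ^ nS)) +
          ENNReal.ofReal C * (ENNReal.ofReal (1 / 2 ^ nS) * X e.1) := by ring
      _ ≤ _ := by
        refine add_le_add_left ?_ _
        rw [← ENNReal.ofReal_mul hσ.le, ← ENNReal.ofReal_mul hσ.le, ← ENNReal.ofReal_mul hC.le,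
          ← ENNReal.ofReal_add (by positivity) (by positivity)]
        refine ENNReal.ofReal_le_ofReal ?_
        have h3 : ε * (1 / 2 ^ nS) ^ 2 ≤ 1 * (1 / 2 ^ nS) ^ 2 := by gcongr
        calc _ = C * (1 / 2 ^ nS) ^ 2 + ε * (1 / 2 ^ nS) ^ 2 := by ring
          _ ≤ _ := by linarith
  refine (sum_le_sum h1).trans ?_
  rw [sum_add_distrib, sum_const, nsmul_eq_mul, ← mul_sum]
  have h5 : (S.card : ℝ≥0∞) * (4 * ENNReal.ofReal ((C + 1) * (1 / 2 ^ nS) ^ 2)) ≤
      ENNReal.ofReal (4 * (C + 1) * t) := by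
    have e4 : (4 : ℝ≥0∞) = ENNReal.ofReal 4 := by norm_num
    rw [← ENNReal.ofReal_natCast, e4, ← ENNReal.ofReal_mul (by positivity),
      ← ENNReal.ofReal_mul (by positivity)]
    refine ENNReal.ofReal_le_ofReal ?_
    calc _ = 4 * (C + 1) * ((1 / 2 ^ nS : ℝ) ^ 2 * (S.card : ℝ)) := by ring
      _ ≤ _ := by gcongr
  have h6 : ∑ k ∈ S, ∑' e : {e : Idx × Fin 3 // EdgeOfSq e ((nS, k), 2)},
      ENNReal.ofReal (1 / 2 ^ nS) * X e.1 ≤ ENNReal.ofReal (12 * lam) := by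
    refine (sum_le_sum_of_subset (hS.trans H.Gsub)).trans ?_
    refine (sum_sides_le (nS := nS) (a := a) (b := b)
      (fun e => ENNReal.ofReal (1 / 2 ^ nS) * X e)).trans ?_
    have h7 := sumX_le H hp hl hε (i := 0) (j := 1) (by decide) (by decide) (by decide)
    have h8 := sumX_le H hp hl hε (i := 1) (j := 0) (by decide) (by decide) (by decide)
    refine (add_le_add (mul_le_mul_right h7 2) (mul_le_mul_right h8 2)).trans (le_of_eq ?_)
    have e2 : (2 : ℝ≥0∞) = ENNReal.ofReal 2 := by norm_num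
    rw [e2, ← ENNReal.ofReal_mul (by norm_num), ← ENNReal.ofReal_add (by positivity)
      (by positivity)]
    congr 1
    ring
  refine (add_le_add h5 (mul_le_mul_right h6 _)).trans (le_of_eq ?_)
  rw [← ENNReal.ofReal_mul hC.le, ← ENNReal.ofReal_add (by positivity) (by positivity)]
  congr 1
  ring

open Classical in
/-- all displacements are finite -/
theorem Qr_ne_top (H : RowData p C D c ε v nS mt a b G h g ℓ X) (hp : 1 ≤ p) (hC : 0 < C)
    (hε1 : ε ≤ 1) {lam : ℝ} (hl : 0 < lam) (hε : ε = lam ^ p) {k : Fin 3 → ℤ}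
    (hk : k ∈ rect a b) : Qr ε nS ℓ k ≠ ⊤ := by
  have hε0 : 0 < ε := by rw [hε]; positivity
  intro hcon
  have h2 : ENNReal.ofReal (1 / 2 ^ nS) ≠ 0 := by
    simp only [ne_eq, ENNReal.ofReal_eq_zero, not_le]; positivity
  by_cases hG : k ∈ G
  · have h1 := (single_le_sum (f := fun k => ENNReal.ofReal (1 / 2 ^ nS) * Qr ε nS ℓ k)
      (fun _ _ => zero_le) (Finset.mem_singleton_self k)).trans
      (goodQ_le H hp hC hε1 hl hε (Finset.singleton_subset_iff.2 hG) le_rfl)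
    simp only [hcon, ENNReal.mul_top h2, top_le_iff] at h1
    exact ENNReal.ofReal_ne_top h1
  · have h1 := (single_le_sum (f := fun k => ENNReal.ofReal (1 / 2 ^ nS) * Qr ε nS ℓ k)
      (fun _ _ => zero_le) (Finset.mem_sdiff.2 ⟨hk, hG⟩)).trans (badQ_le H hp hε0.le hε1)
    simp only [hcon, ENNReal.mul_top h2, top_le_iff] at h1
    exact ENNReal.ofReal_ne_top h1

open Classical in
/-- the zone in both directions -/
theorem zone_le (H : RowData p C D c ε v nS mt a b G h g ℓ X) (hp : 1 ≤ p) (hc : 0 ≤ c)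
    (hc4 : 4 * c ≤ 1) (hε1 : ε ≤ 1) {lam : ℝ} (hl : 0 < lam) (hε : ε = lam ^ p) (hij : i ≠ j)
    (hi : i ≠ 2) (hj : j ≠ 2) :
    (1 / 2 ^ nS : ℝ) ^ 2 * (((redge a b i).filter (Zo c v nS mt h.toFun i)).card : ℝ) ≤
      32 * c + 9 * lam := by
  have h1 := dir_zone H hij hi hj hc hc4 fun k hk => X_ne_top H hp hl hε hij hi hj hk
  have h2 := eta_le H hp hl hε hij hi hj
  have h3 : 24 * c * (1 / 2 ^ mt) ≤ 24 * c * 1 := by
    have := H.mtε.trans hε1
    gcongr
  linarith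

open Classical in
/-- the squares which are not free -/
theorem nf_le (H : RowData p C D c ε v nS mt a b G h g ℓ X) (hp : 1 ≤ p) (hc : 0 ≤ c)
    (hc4 : 4 * c ≤ 1) (hε1 : ε ≤ 1) {lam : ℝ} (hl : 0 < lam) (hε : ε = lam ^ p) :
    (1 / 2 ^ nS : ℝ) ^ 2 * (((rect a b).filter fun k => ¬ Free c v nS mt h.toFun k).card : ℝ) ≤
      64 * c + 18 * lam := by
  have h0 := zone_le H hp hc hc4 hε1 hl hε (i := 0) (j := 1) (by decide) (by decide) (by decide)
  have h1 := zone_le H hp hc hc4 hε1 hl hε (i := 1) (j := 0) (by decide) (by decide) (by decide)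
  have h2 : ((rect a b).filter fun k => ¬ Free c v nS mt h.toFun k) ⊆
      ((redge a b 0).filter (Zo c v nS mt h.toFun 0)) ∪
        ((redge a b 1).filter (Zo c v nS mt h.toFun 1)) := by
    intro k hk
    obtain ⟨hk1, hk2⟩ := Finset.mem_filter.1 hk
    obtain ⟨i, hi, hz⟩ := zo_of_not_free H hc hk1 hk2
    have hi' : i = 0 ∨ i = 1 := dir_cases hi
    rw [Finset.mem_union]
    rcases hi' with rfl | rfl
    · exact Or.inl (Finset.mem_filter.2
        ⟨rect_sub_redge (i := 0) (j := 1) (by decide) (by decide) (by decide) hk1, hz⟩)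
    · exact Or.inr (Finset.mem_filter.2
        ⟨rect_sub_redge (i := 1) (j := 0) (by decide) (by decide) (by decide) hk1, hz⟩)
  have h3 : ((((rect a b).filter fun k => ¬ Free c v nS mt h.toFun k).card : ℕ) : ℝ) ≤
      (((redge a b 0).filter (Zo c v nS mt h.toFun 0)).card : ℝ) +
        (((redge a b 1).filter (Zo c v nS mt h.toFun 1)).card : ℝ) := by
    exact_mod_cast (Finset.card_le_card h2).trans (Finset.card_union_le _ _)
  have h4 := mul_le_mul_of_nonneg_left h3 (by positivity : (0:ℝ) ≤ (1 / 2 ^ nS) ^ 2)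
  linarith

open Classical in
/-- the displacements on the squares which are not good or not free -/
theorem U_le (H : RowData p C D c ε v nS mt a b G h g ℓ X) (hp : 1 ≤ p) (hC : 0 < C)
    (hD : 0 < D) (hc : 0 ≤ c) (hc4 : 4 * c ≤ 1) {lam : ℝ} (hl : 0 < lam) (hl1 : lam ≤ 1)
    (hε : ε = lam ^ p) :
    ∑ k ∈ (rect a b).filter (fun k => ¬ (k ∈ G ∧ Free c v nS mt h.toFun k)),
      (1 / 2 ^ nS) * (D * (Qr ε nS ℓ k).toReal) ≤
        D * ((C + 1) * (256 * c + 93 * lam)) := by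
  have hε0 : 0 < ε := by rw [hε]; positivity
  have hεl : ε ≤ lam := by
    rw [hε]
    calc lam ^ p ≤ lam ^ (1:ℝ) := Real.rpow_le_rpow_of_exponent_ge hl hl1 hp
      _ = lam := Real.rpow_one _
  have hε1 : ε ≤ 1 := hεl.trans hl1
  set S := (rect a b).filter (fun k => ¬ (k ∈ G ∧ Free c v nS mt h.toFun k)) with hSd
  set S₁ := G.filter (fun k => ¬ Free c v nS mt h.toFun k) with hS₁
  have hsub : S ⊆ (rect a b \ G) ∪ S₁ := by
    intro k hk
    obtain ⟨hk1, hk2⟩ := Finset.mem_filter.1 hk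
    rw [Finset.mem_union]
    by_cases hG : k ∈ G
    · exact Or.inr (Finset.mem_filter.2 ⟨hG, fun hF => hk2 ⟨hG, hF⟩⟩)
    · exact Or.inl (Finset.mem_sdiff.2 ⟨hk1, hG⟩)
  have hS₁c : (1 / 2 ^ nS : ℝ) ^ 2 * (S₁.card : ℝ) ≤ 64 * c + 18 * lam := by
    refine le_trans ?_ (nf_le H hp hc hc4 hε1 hl hε)
    refine mul_le_mul_of_nonneg_left ?_ (by positivity)
    have : S₁ ⊆ (rect a b).filter fun k => ¬ Free c v nS mt h.toFun k :=
      Finset.filter_subset_filter _ H.Gsub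
    exact_mod_cast Finset.card_le_card this
  have h1 : ∑ k ∈ S, ENNReal.ofReal (1 / 2 ^ nS) * Qr ε nS ℓ k ≤
      ENNReal.ofReal ((C + 1) * (256 * c + 93 * lam)) := by
    refine (sum_le_sum_of_subset hsub).trans ?_
    have hdis : Disjoint (rect a b \ G) S₁ := by
      rw [Finset.disjoint_left]
      intro k hk1 hk2
      exact (Finset.mem_sdiff.1 hk1).2 (Finset.mem_filter.1 hk2).1
    rw [sum_union hdis]
    refine (add_le_add (badQ_le H hp hε0.le hε1)
      (goodQ_le H hp hC hε1 hl hε (Finset.filter_subset _ _) hS₁c)).trans ?_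
    rw [← ENNReal.ofReal_add (by positivity) (by positivity)]
    refine ENNReal.ofReal_le_ofReal ?_
    have h2 : 0 ≤ C * lam := by positivity
    nlinarith
  have h2 : ∑ k ∈ S, (1 / 2 ^ nS) * (D * (Qr ε nS ℓ k).toReal) =
      D * (∑ k ∈ S, ENNReal.ofReal (1 / 2 ^ nS) * Qr ε nS ℓ k).toReal := by
    rw [ENNReal.toReal_sum fun k hk => ENNReal.mul_ne_top ENNReal.ofReal_ne_top
      (Qr_ne_top H hp hC hε1 hl hε (Finset.mem_filter.1 hk).1), mul_sum]
    refine sum_congr rfl fun k _ => ?_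
    rw [ENNReal.toReal_mul, ENNReal.toReal_ofReal (by positivity)]
    ring
  rw [h2]
  refine mul_le_mul_of_nonneg_left ?_ hD.le
  exact ENNReal.toReal_le_of_le_ofReal (by positivity) h1

open Classical in
/-- the bad edges of one direction -/
theorem badE_le (H : RowData p C D c ε v nS mt a b G h g ℓ X) (hp : 1 ≤ p) (hC : 0 < C)
    (hD : 0 < D) (hc : 0 ≤ c) (hc4 : 4 * c ≤ 1) {lam : ℝ} (hl : 0 < lam) (hl1 : lam ≤ 1)
    (hε : ε = lam ^ p) {r : ℝ} (hr : 0 < r) (hij : i ≠ j) (hi : i ≠ 2) (hj : j ≠ 2) :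
    (1 / 2 ^ nS : ℝ) ^ 2 * (((redge a b i).filter (fun k =>
      GoodE c v nS mt h.toFun G i k ∧ NotMon r v nS g.toFun i k)).card : ℝ) ≤
      1 / r * ((19 + 512 * (D * (C + 1))) * (c + lam)) := by
  have hε0 : 0 < ε := by rw [hε]; positivity
  have hεl : ε ≤ lam := by
    rw [hε]
    calc lam ^ p ≤ lam ^ (1:ℝ) := Real.rpow_le_rpow_of_exponent_ge hl hl1 hp
      _ = lam := Real.rpow_one _
  have hε1 : ε ≤ 1 := hεl.trans hl1
  have h1 := dir_bad H hij hi hj hc (by linarith) hε0.le hD.le (r := r)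
    (fun k hk => X_ne_top H hp hl hε hij hi hj hk)
    (fun k hk => Qr_ne_top H hp hC hε1 hl hε hk)
  have h2 := eta_le H hp hl hε hij hi hj
  have h3 := U_le H hp hC hD hc hc4 hl hl1 hε
  have h4 : D / 2 ^ mt ≤ D * lam := by
    calc D / 2 ^ mt = D * (1 / 2 ^ mt) := by ring
      _ ≤ D * lam := by
        have := H.mtε.trans hεl
        gcongr
  rw [one_div_mul_eq_div, le_div_iff₀ hr, mul_comm]
  refine h1.trans ?_
  have h5 : 0 ≤ D * lam := by positivity
  have h6 : 0 ≤ D * C * lam := by positivity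
  have h7 : 0 ≤ D * C * c := by positivity
  have h8 : 0 ≤ D * c := by positivity
  nlinarith

/-- a bad edge: a side of a good free square which is not nearly monotone, or a large error -/
def BadEd (r c : ℝ) (v : V) (nS mt : ℕ) (h g : V → V) (G : Finset (Fin 3 → ℤ))
    (X : Idx × Fin 3 → ℝ≥0∞) (i : Fin 3) (k : Fin 3 → ℤ) : Prop :=
  (GoodE c v nS mt h G i k ∧ NotMon r v nS g i k) ∨ ENNReal.ofReal (r / 2 ^ nS) < X ((nS, k), i)

/-- a square which is not nearly monotone or has a long side has a bad edge -/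
theorem bad_edge (H : RowData p C D c ε v nS mt a b G h g ℓ X) {r : ℝ} (hr : 0 < r)
    {k : Fin 3 → ℤ} (hG : k ∈ G) (hF : Free c v nS mt h.toFun k)
    (hN : ¬ (NearMon r v nS g.toFun k ∧ ShortH r v nS h.toFun k)) :
    ∃ i j : Fin 3, i ≠ j ∧ i ≠ 2 ∧ j ≠ 2 ∧ ∃ k' : Fin 3 → ℤ,
      (k' = k ∨ k' = Function.update k j (k j + 1)) ∧ k' ∈ redge a b i ∧
      BadEd r c v nS mt h.toFun g.toFun G X i k' := by
  have hside : ∀ e : Idx × Fin 3, EdgeOfSq e ((nS, k), 2) →
      (GoodE c v nS mt h.toFun G e.2 e.1.2 → NotMon r v nS g.toFun e.2 e.1.2 ∨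
        ENNReal.ofReal (r / 2 ^ nS) < X e) → ∃ i j : Fin 3, i ≠ j ∧ i ≠ 2 ∧ j ≠ 2 ∧
        ∃ k' : Fin 3 → ℤ, (k' = k ∨ k' = Function.update k j (k j + 1)) ∧ k' ∈ redge a b i ∧
        BadEd r c v nS mt h.toFun g.toFun G X i k' := by
    rintro ⟨⟨n, k'⟩, i⟩ he hbad
    have hn : n = nS := he.1
    subst hn
    have hi : i ≠ 2 := he.2.1
    obtain ⟨j, hij, hj⟩ : ∃ j : Fin 3, i ≠ j ∧ j ≠ 2 := by
      rcases dir_cases hi with rfl | rfl
      · exact ⟨1, by decide, by decide⟩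
      · exact ⟨0, by decide, by decide⟩
    have hk := (edgeOfSq_iff hij hi hj).1 he
    have hgo : GoodE c v n mt h.toFun G i k' := ⟨k, hG, hF, he⟩
    refine ⟨i, j, hij, hi, hj, k', hk, ?_, ?_⟩
    · rcases hk with rfl | rfl
      · exact rect_sub_redge hij hi hj (H.Gsub hG)
      · exact shift_mem hij hi hj (H.Gsub hG)
    · rcases hbad hgo with h1 | h1
      · exact Or.inl ⟨hgo, h1⟩
      · exact Or.inr h1
  rw [not_and_or] at hN
  rcases hN with hN | hN
  · unfold NearMon at hN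
    push Not at hN
    obtain ⟨⟨⟨n, k'⟩, i⟩, he, hm⟩ := hN
    have hn : n = nS := he.1
    subst hn
    refine hside _ he fun _ => Or.inl ?_
    by_cases h1 : (1 - r) / 2 ^ n ≤ g.toFun (segP v ((n, k'), i)).2 i -
        g.toFun (segP v ((n, k'), i)).1 i
    · exact Or.inr (hm h1)
    · exact Or.inl (not_le.1 h1)
  · unfold ShortH at hN
    push Not at hN
    obtain ⟨⟨⟨n, k'⟩, i⟩, he, hm⟩ := hN
    have hn : n = nS := he.1
    subst hn
    refine hside _ he fun _ => Or.inr ?_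
    by_contra hcon
    rw [not_lt] at hcon
    have hi : i ≠ 2 := he.2.1
    obtain ⟨j, hij, hj⟩ : ∃ j : Fin 3, i ≠ j ∧ j ≠ 2 := by
      rcases dir_cases hi with rfl | rfl
      · exact ⟨1, by decide, by decide⟩
      · exact ⟨0, by decide, by decide⟩
    have hk : k' ∈ redge a b i := by
      rcases (edgeOfSq_iff hij hi hj).1 he with rfl | rfl
      · exact rect_sub_redge hij hi hj (H.Gsub hG)
      · exact shift_mem hij hi hj (H.Gsub hG)
    have h1 := tv_edge_le h (edge_sub_Ω H hij hi hj hk)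
    have h2 := h1.trans (add_le_add le_rfl ((H.near i hi k' hk).trans hcon))
    rw [← ENNReal.ofReal_add (by positivity) (by positivity)] at h2
    have e1 : (1 : ℝ) / 2 ^ n + r / 2 ^ n = (1 + r) / 2 ^ n := by ring
    rw [e1] at h2
    exact absurd h2 (not_le.2 hm)

open Classical in
/-- edges with a large error -/
theorem badX_le (H : RowData p C D c ε v nS mt a b G h g ℓ X) (hp : 1 ≤ p) {lam : ℝ}
    (hl : 0 < lam) (hε : ε = lam ^ p) {r : ℝ} (hr : 0 < r) (hij : i ≠ j) (hi : i ≠ 2)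
    (hj : j ≠ 2) :
    (1 / 2 ^ nS : ℝ) ^ 2 * (((redge a b i).filter (fun k =>
      ENNReal.ofReal (r / 2 ^ nS) < X ((nS, k), i))).card : ℝ) ≤ 1 / r * (3 * lam) := by
  have h1 := eta_le H hp hl hε hij hi hj
  rw [one_div_mul_eq_div, le_div_iff₀ hr, mul_comm]
  refine le_trans ?_ h1
  have h2 : ∑ k ∈ (redge a b i).filter (fun k =>
      ENNReal.ofReal (r / 2 ^ nS) < X ((nS, k), i)), (1 / 2 ^ nS : ℝ) * (r / 2 ^ nS) ≤
      ∑ k ∈ redge a b i, (1 / 2 ^ nS) * (X ((nS, k), i)).toReal := by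
    refine (sum_le_sum fun k hk => ?_).trans
      (sum_le_sum_of_subset_of_nonneg (Finset.filter_subset _ _) fun _ _ _ => by positivity)
    obtain ⟨hk1, hk2⟩ := Finset.mem_filter.1 hk
    have h3 := (ofReal_lt_toReal (X_ne_top H hp hl hε hij hi hj hk1) hk2).le
    gcongr
  rw [sum_const, nsmul_eq_mul] at h2
  refine le_trans (le_of_eq ?_) h2
  ring

open Classical in
/-- the squares of one direction with a bad edge -/
theorem badS_le (H : RowData p C D c ε v nS mt a b G h g ℓ X) (hp : 1 ≤ p) (hC : 0 < C)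
    (hD : 0 < D) (hc : 0 ≤ c) (hc4 : 4 * c ≤ 1) {lam : ℝ} (hl : 0 < lam) (hl1 : lam ≤ 1)
    (hε : ε = lam ^ p) {r : ℝ} (hr : 0 < r) (hij : i ≠ j) (hi : i ≠ 2) (hj : j ≠ 2) :
    (1 / 2 ^ nS : ℝ) ^ 2 * (((rect a b).filter (fun k => ∃ k' : Fin 3 → ℤ,
      (k' = k ∨ k' = Function.update k j (k j + 1)) ∧ k' ∈ redge a b i ∧
      BadEd r c v nS mt h.toFun g.toFun G X i k')).card : ℝ) ≤
      2 * (1 / r * ((22 + 512 * (D * (C + 1))) * (c + lam))) := by
  set S := (redge a b i).filter (fun k => BadEd r c v nS mt h.toFun g.toFun G X i k) with hSd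
  have h1 : (1 / 2 ^ nS : ℝ) ^ 2 * (S.card : ℝ) ≤
      1 / r * ((22 + 512 * (D * (C + 1))) * (c + lam)) := by
    have h1 := badE_le H hp hC hD hc hc4 hl hl1 hε hr hij hi hj
    have h2 := badX_le H hp hl hε hr hij hi hj
    have h3 : (S.card : ℝ) ≤ (((redge a b i).filter (fun k =>
        GoodE c v nS mt h.toFun G i k ∧ NotMon r v nS g.toFun i k)).card : ℝ) +
        (((redge a b i).filter (fun k =>
          ENNReal.ofReal (r / 2 ^ nS) < X ((nS, k), i))).card : ℝ) := by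
      have h4 : S ⊆ ((redge a b i).filter (fun k =>
          GoodE c v nS mt h.toFun G i k ∧ NotMon r v nS g.toFun i k)) ∪
          ((redge a b i).filter (fun k => ENNReal.ofReal (r / 2 ^ nS) < X ((nS, k), i))) := by
        intro k hk
        obtain ⟨hk1, hk2⟩ := Finset.mem_filter.1 hk
        rw [Finset.mem_union]
        rcases hk2 with h5 | h5
        · exact Or.inl (Finset.mem_filter.2 ⟨hk1, h5⟩)
        · exact Or.inr (Finset.mem_filter.2 ⟨hk1, h5⟩)
      exact_mod_cast (Finset.card_le_card h4).trans (Finset.card_union_le _ _)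
    have h4 := mul_le_mul_of_nonneg_left h3 (by positivity : (0:ℝ) ≤ (1 / 2 ^ nS) ^ 2)
    have h5 : 1 / r * (3 * lam) ≤ 1 / r * (3 * (c + lam)) := by gcongr; linarith
    have h6 : 1 / r * ((22 + 512 * (D * (C + 1))) * (c + lam)) =
        1 / r * ((19 + 512 * (D * (C + 1))) * (c + lam)) + 1 / r * (3 * (c + lam)) := by ring
    rw [h6]
    linarith
  have h2 : ((rect a b).filter (fun k => ∃ k' : Fin 3 → ℤ,
      (k' = k ∨ k' = Function.update k j (k j + 1)) ∧ k' ∈ redge a b i ∧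
      BadEd r c v nS mt h.toFun g.toFun G X i k')) ⊆
      S ∪ (rect a b).filter (fun k => Function.update k j (k j + 1) ∈ S) := by
    intro k hk
    obtain ⟨hk1, k', hk', h3, h4⟩ := Finset.mem_filter.1 hk
    rw [Finset.mem_union]
    rcases hk' with rfl | rfl
    · exact Or.inl (Finset.mem_filter.2 ⟨h3, h4⟩)
    · exact Or.inr (Finset.mem_filter.2 ⟨hk1, Finset.mem_filter.2 ⟨h3, h4⟩⟩)
  have h3 : ((rect a b).filter (fun k => Function.update k j (k j + 1) ∈ S)).card ≤ S.card :=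
    Finset.card_le_card_of_injOn (fun k => Function.update k j (k j + 1))
      (fun k hk => (Finset.mem_filter.1 hk).2) fun k _ k' _ hkk => shift_inj j hkk
  have h4 := (Finset.card_le_card h2).trans (Finset.card_union_le _ _)
  have h5 : (((rect a b).filter (fun k => ∃ k' : Fin 3 → ℤ,
      (k' = k ∨ k' = Function.update k j (k j + 1)) ∧ k' ∈ redge a b i ∧
      BadEd r c v nS mt h.toFun g.toFun G X i k')).card : ℝ) ≤
      2 * (S.card : ℝ) := by
    have : ((rect a b).filter (fun k => ∃ k' : Fin 3 → ℤ,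
      (k' = k ∨ k' = Function.update k j (k j + 1)) ∧ k' ∈ redge a b i ∧
      BadEd r c v nS mt h.toFun g.toFun G X i k')).card ≤ 2 * S.card := by omega
    exact_mod_cast this
  have h6 := mul_le_mul_of_nonneg_left h5 (by positivity : (0:ℝ) ≤ (1 / 2 ^ nS) ^ 2)
  linarith

/-- **[ROWS]** -/
theorem specRows : SpecRows := by
  classical
  intro p C D r ε₁ hp hC hD hr hε₁
  set M := 22 + 512 * (D * (C + 1)) with hM
  have hM0 : 0 < M := by positivity
  set K := 64 + 4 * (1 / r * M) with hK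
  have hK0 : 0 < K := by positivity
  refine ⟨min (1 / 4) (ε₁ / (2 * K)), by positivity, fun c hc0 hc => ?_⟩
  set lam := min 1 (ε₁ / (2 * K)) with hlam
  have hl : 0 < lam := by positivity
  have hl1 : lam ≤ 1 := min_le_left _ _
  have hl2 : lam ≤ ε₁ / (2 * K) := min_le_right _ _
  have hc4 : 4 * c ≤ 1 := by have := hc.trans (min_le_left _ _); linarith
  have hc2 : c ≤ ε₁ / (2 * K) := hc.trans (min_le_right _ _)
  refine ⟨lam ^ p, by positivity, ?_⟩
  intro Ω Λ v nS mt a b G h g ℓ X hΩ H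
  have hε0 : 0 < lam ^ p := by positivity
  have hεl : lam ^ p ≤ lam := by
    calc lam ^ p ≤ lam ^ (1:ℝ) := Real.rpow_le_rpow_of_exponent_ge hl hl1 hp
      _ = lam := Real.rpow_one _
  have hε1 : lam ^ p ≤ 1 := hεl.trans hl1
  refine ⟨(rect a b).filter fun k => ¬ (k ∈ G ∧ Free c v nS mt h.toFun k ∧
    NearMon r v nS g.toFun k ∧ ShortH r v nS h.toFun k), ?_, fun k hk hkB => ?_⟩
  swap
  · by_contra hcon
    exact hkB (Finset.mem_filter.2 ⟨hk, hcon⟩)
  set S : Fin 3 → Fin 3 → Finset (Fin 3 → ℤ) := fun i j =>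
    (rect a b).filter (fun k => ∃ k' : Fin 3 → ℤ,
      (k' = k ∨ k' = Function.update k j (k j + 1)) ∧ k' ∈ redge a b i ∧
      BadEd r c v nS mt h.toFun g.toFun G X i k') with hS
  set NF := (rect a b).filter fun k => ¬ Free c v nS mt h.toFun k with hNF
  have h01 := badS_le H hp hC hD hc0.le hc4 hl hl1 rfl hr (i := 0) (j := 1)
    (by decide) (by decide) (by decide)
  have h10 := badS_le H hp hC hD hc0.le hc4 hl hl1 rfl hr (i := 1) (j := 0)
    (by decide) (by decide) (by decide)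
  have hnf := nf_le H hp hc0.le hc4 hε1 hl rfl
  have hsub : ((rect a b).filter fun k => ¬ (k ∈ G ∧ Free c v nS mt h.toFun k ∧
      NearMon r v nS g.toFun k ∧ ShortH r v nS h.toFun k)) ⊆
      ((rect a b \ G) ∪ NF) ∪ (S 0 1 ∪ S 1 0) := by
    intro k hk
    obtain ⟨hk1, hk2⟩ := Finset.mem_filter.1 hk
    rw [Finset.mem_union, Finset.mem_union, Finset.mem_union]
    by_cases hG : k ∈ G
    · by_cases hF : Free c v nS mt h.toFun k
      · have hN : ¬ (NearMon r v nS g.toFun k ∧ ShortH r v nS h.toFun k) :=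
          fun hN => hk2 ⟨hG, hF, hN⟩
        obtain ⟨i, j, hij, hi, hj, h1⟩ := bad_edge H hr hG hF hN
        right
        rcases dir_cases hi with rfl | rfl
        · rcases dir_cases hj with rfl | rfl
          · exact absurd rfl hij
          · exact Or.inl (Finset.mem_filter.2 ⟨hk1, h1⟩)
        · rcases dir_cases hj with rfl | rfl
          · exact Or.inr (Finset.mem_filter.2 ⟨hk1, h1⟩)
          · exact absurd rfl hij
      · exact Or.inl (Or.inr (Finset.mem_filter.2 ⟨hk1, hF⟩))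
    · exact Or.inl (Or.inl (Finset.mem_sdiff.2 ⟨hk1, hG⟩))
  have hcard : (((rect a b).filter fun k => ¬ (k ∈ G ∧ Free c v nS mt h.toFun k ∧
      NearMon r v nS g.toFun k ∧ ShortH r v nS h.toFun k)).card : ℝ) ≤
      ((rect a b \ G).card : ℝ) + NF.card + ((S 0 1).card + (S 1 0).card) := by
    have h1 := (Finset.card_le_card hsub).trans (Finset.card_union_le _ _)
    have h2 := Finset.card_union_le (rect a b \ G) NF
    have h3 := Finset.card_union_le (S 0 1) (S 1 0)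
    exact_mod_cast h1.trans (add_le_add h2 h3)
  have hG : ((rect a b \ G).card : ℝ) / 4 ^ nS ≤ lam ^ p :=
    (ENNReal.ofReal_le_ofReal_iff hε0.le).1 H.area
  have e5 : (1 / 2 ^ nS : ℝ) ^ 2 = 1 / 4 ^ nS := by
    rw [div_pow, one_pow, ← pow_mul, mul_comm nS 2, pow_mul]; norm_num
  rw [e5] at h01 h10 hnf
  have h4 : (0:ℝ) < 1 / 4 ^ nS := by positivity
  have h5 := mul_le_mul_of_nonneg_left hcard h4.le
  have hfin : K * (c + lam) ≤ ε₁ := by
    calc K * (c + lam) ≤ K * (ε₁ / (2 * K) + ε₁ / (2 * K)) := by gcongr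
      _ = ε₁ := by field_simp; ring
  have h6 : 0 ≤ 1 / r * (M * (c + lam)) := by positivity
  rw [div_eq_mul_one_div, mul_comm] at hG
  rw [div_eq_mul_one_div, mul_comm]
  refine h5.trans (le_trans ?_ hfin)
  rw [← hM] at h01 h10
  have h7 : 1 / 4 ^ nS * (((rect a b \ G).card : ℝ) + NF.card + ((S 0 1).card + (S 1 0).card)) =
      1 / 4 ^ nS * ((rect a b \ G).card : ℝ) + 1 / 4 ^ nS * NF.card +
        (1 / 4 ^ nS * ((S 0 1).card : ℝ) + 1 / 4 ^ nS * ((S 1 0).card : ℝ)) := by ring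
  rw [h7]
  have h8 : K * (c + lam) = 64 * (c + lam) + 4 * (1 / r * (M * (c + lam))) := by
    rw [hK]; ring
  rw [h8]
  linarith

end Vale.Agent.P073.H716
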