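import Vale.Agent.P073.H716.RB3
import Vale.Agent.P073.H239.FSpec

/-!
# P073 / H716: **[ROWS-B]** `SpecRowsB` of `H239/FSpec.lean`
-/

open Set MeasureTheory Filter Finset WithLp
open scoped ENNReal NNReal

namespace Vale.Agent.P073.H716

open Vale.Agent.P073
open Vale.Agent.P073.St (V Mat euc)
open Vale.Agent.P073.SQ (ev)
open Vale.Agent.P073.AB
open Vale.Agent.P073.H73 (onSeg segP)
open Vale.Agent.P073.H239 (tv len2 FData FAux SpecRowsB)
open Vale.Agent.P073.H235 (Bx cmp rect redge Free NearMon ShortH)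
open Vale.Agent.P073.H851 (M3)
open _root_.P073.Net (len eVariationOn_le_of_edist)

/-- equal components on a segment have equal variations -/
theorem tv_congr {h h' : V → V} {e : V × V} {A : Finset (Fin 3)}
    (H : ∀ x ∈ segment ℝ e.1 e.2, ∀ l ∈ A, h x l = h' x l) : tv h e A = tv h' e A := by
  unfold H239.tv
  refine Finset.sum_congr rfl fun l hl => ?_
  refine eVariationOn.eq_of_eqOn fun t ht => ?_
  show h (e.1 + t • (e.2 - e.1)) l = h' (e.1 + t • (e.2 - e.1)) l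
  refine H _ ?_ l hl
  rw [segment_eq_image']
  exact ⟨t, ht, rfl⟩

variable {p Cu : ℝ} {Lc : M3 → ℝ} {δ : ℝ} {j : ℕ} {C θ ν τ ε c : ℝ} {Λ : Set V} {f : V → V}
  {F : V → Mat} {v : V}

/-- the data of the rows -/
theorem rowB_of (X : FData p Cu Lc δ j C θ ν τ ε c Λ f F v) {D c₀ : ℝ}
    {q : V → V} (hD : 1 ≤ D) (hCu : 1 ≤ Cu) (hc₀ : 0 < c₀)
    (hc : c ≤ c₀ / 2) (hδ : δ ≤ c₀) (O : FAux X D c₀ (2 * ε) q) :
    RowB p (D + 4) (3 * (D * Cu)) c₀ ε (6 * ε) v X.nS X.mt X.a X.b X.G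
      (cmp (H235.fl θ) f) (fun x => X.gg (X.h₁.toFun x)) X.toR2.hh.toFun q
      (fun e => ENNReal.ofReal (1 + ε) * len2 X.h₁.toFun (segP v e)) X.Xe := by
  have hε0 := X.hε.1
  have hε1 := X.hε.2
  have hmt : (0:ℝ) < 1 / 2 ^ X.mt := by positivity
  have hsub : ∀ k ∈ rect X.a X.b, squ v ((X.nS, k), 2) ⊆ Bx (H235.fl θ) := by
    intro k hk
    obtain ⟨q', hq, hF⟩ := (X.pl.minS k hk).1
    exact (H194.face_sub hF).trans (X.st.part.sub q' hq)
  have hnear : ∀ k ∈ rect X.a X.b, ∀ x ∈ squ v ((X.nS, k), 2),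
      ‖X.gg (X.h₁.toFun x) - cmp (H235.fl θ) f x‖ ≤ 2 * ε := by
    intro k hk x hx
    have hxΩ := hsub k hk hx
    have h1 := X.tp.ggc _ (X.h₁.mapsTo hxΩ)
    have h2 := (X.st.close x hxΩ).1
    calc _ = ‖(X.gg (X.h₁.toFun x) - X.h₁.toFun x) + (X.h₁.toFun x - cmp (H235.fl θ) f x)‖ := by
          congr 1; abel
      _ ≤ ‖X.gg (X.h₁.toFun x) - X.h₁.toFun x‖ + ‖X.h₁.toFun x - cmp (H235.fl θ) f x‖ :=
          norm_add_le _ _
      _ ≤ _ := by linarith
  have e32 : (3 : ℝ≥0∞) = ENNReal.ofReal 3 := by norm_num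
  constructor
  · exact X.pl.alt
  · exact X.pl.quad
  · exact X.pl.size
  · exact X.tp.Gsub
  · exact (ENNReal.ofReal_le_ofReal_iff hε0.le).1 X.tp.area
  · intro k hk x hx
    refine (hnear k hk x hx).trans ?_
    nlinarith
  · intro k hk x hx
    have h1 := O.close k hk x hx
    have h2 := X.tp.far k hk x hx
    have h3 := hnear k hk x hx
    have h4 := X.tp.mtε
    have e1 : D / 2 ^ X.mt = D * (1 / 2 ^ X.mt) := by ring
    have e2 : (2:ℝ) / 2 ^ X.mt = 2 * (1 / 2 ^ X.mt) := by ring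
    rw [e1] at h1
    rw [e2] at h2
    calc _ = ‖(q x - X.toR2.hh.toFun x) + (X.toR2.hh.toFun x - X.gg (X.h₁.toFun x)) +
          (X.gg (X.h₁.toFun x) - cmp (H235.fl θ) f x)‖ := by congr 1; abel
      _ ≤ ‖q x - X.toR2.hh.toFun x‖ + ‖X.toR2.hh.toFun x - X.gg (X.h₁.toFun x)‖ +
          ‖X.gg (X.h₁.toFun x) - cmp (H235.fl θ) f x‖ := norm_add₃_le
      _ ≤ D * (1 / 2 ^ X.mt) + 2 * (1 / 2 ^ X.mt) + 2 * ε := by linarith
      _ ≤ D * ε + 2 * ε + 2 * ε := by gcongr
      _ = _ := by ring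
  · intro k hk x hx y hy
    refine (X.tp.osc k hk x hx y hy).2.trans ?_
    gcongr
  · intro i _ k _
    refine eVariationOn_le_of_edist fun x _ y _ => ?_
    rw [edist_dist, edist_dist, dist_eq_norm, dist_eq_norm, ← ENNReal.ofReal_mul (by linarith),
      ← toLp_sub, ← toLp_sub]
    exact ENNReal.ofReal_le_ofReal (X.tp.gglip _ _)
  · intro i hi k hk
    have h1 := X.ed.len i hi k hk
    calc ENNReal.ofReal (1 + ε) * len2 X.h₁.toFun (segP v ((X.nS, k), i))
        ≤ ENNReal.ofReal (1 + ε) * (ENNReal.ofReal (1 / 2 ^ X.nS) + X.Xe ((X.nS, k), i)) := by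
          gcongr
      _ = ENNReal.ofReal ((1 + ε) / 2 ^ X.nS) + ENNReal.ofReal (1 + ε) * X.Xe ((X.nS, k), i) := by
          rw [mul_add, ← ENNReal.ofReal_mul (by linarith), mul_one_div]
      _ ≤ _ := by
          gcongr
          calc ENNReal.ofReal (1 + ε) ≤ ENNReal.ofReal 2 :=
                ENNReal.ofReal_le_ofReal (by linarith)
            _ = 2 := by norm_num
  · exact X.ed.disp
  · exact X.ed.close
  · intro i hi k hk
    have h1 := O.len i hi k hk
    have h0 : 0 ≤ 3 * (D * Cu) := by positivity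
    calc tv q (segP v ((X.nS, k), i)) Finset.univ
        ≤ 3 * len (onSeg q (segP v ((X.nS, k), i))) (Set.Icc 0 1) := tv_le_len _ _ _
      _ ≤ 3 * (ENNReal.ofReal (D * Cu) *
          len (onSeg X.h₁.toFun (segP v ((X.nS, k), i))) (Set.Icc 0 1) +
          ENNReal.ofReal (2 * ε / 2 ^ X.nS)) := by gcongr
      _ = ENNReal.ofReal (3 * (D * Cu)) *
          (1 * len (onSeg X.h₁.toFun (segP v ((X.nS, k), i))) (Set.Icc 0 1)) +
          ENNReal.ofReal (6 * ε / 2 ^ X.nS) := by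
          rw [mul_add, one_mul, ← mul_assoc, e32, ← ENNReal.ofReal_mul (by norm_num),
            ← ENNReal.ofReal_mul (by norm_num)]
          congr 2
          ring
      _ ≤ _ := by
          gcongr
          · rw [← ENNReal.ofReal_one]
            exact ENNReal.ofReal_le_ofReal (by linarith)
          · exact le_rfl
  · intro k hk hF
    obtain ⟨z, hz⟩ := hF
    have hcz : c ≤ c₀ := by linarith
    have htan : ∀ x ∈ squ v ((X.nS, k), 2), ∀ i, i ≠ 2 →
        X.toR2.hh.toFun x i = X.gg (X.h₁.toFun x) i := by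
      intro x hx
      refine X.tp.tan k hk x hx z fun i hi => ?_
      obtain ⟨h1, h2⟩ := hz x hx i hi
      refine ⟨le_trans ?_ h1, h2.trans ?_⟩
      · gcongr
      · gcongr
    refine ⟨⟨z, fun x hx i hi => ?_⟩, fun e he => tv_congr fun x hx l hl => ?_⟩
    · rw [htan x hx i hi]
      exact hz x hx i hi
    · exact htan x (S308.edge_sub_squ he hx) l (Finset.mem_erase.1 hl).1
  · intro k hk hF e he
    refine (O.tv k hk hF e he).trans ?_
    gcongr
    linarith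

/-- **[ROWS-B]** -/
theorem specRowsB : SpecRowsB := by
  classical
  intro p Cu D C θ r ε₁ hp hCu hD hC hθ hr hr1 hε₁
  have hDC : 0 ≤ 3 * (D * Cu) := by positivity
  set A : ℝ := 400 * (1 + 3 * (D * Cu)) / r with hA
  have hA0 : 0 < A := by positivity
  refine ⟨min (1 / 4) (ε₁ / (12 * A)), by positivity, fun c₀ hc₀ hc₁ => ?_⟩
  have hc4 : 4 * c₀ ≤ 1 := by have := hc₁.trans (min_le_left _ _); linarith
  have hcA : c₀ ≤ ε₁ / (12 * A) := hc₁.trans (min_le_right _ _)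
  set lam : ℝ := min 1 (ε₁ / (4 * A)) with hlam
  have hl : 0 < lam := by positivity
  have hl1 : lam ≤ 1 := min_le_left _ _
  have hl2 : lam ≤ ε₁ / (4 * A) := min_le_right _ _
  obtain ⟨s, hs⟩ : ∃ s, s = lam ^ 2 := ⟨_, rfl⟩
  have hs0 : 0 < s := by rw [hs]; positivity
  refine ⟨min ((s ^ 2 / 96) ^ p) (min (s ^ 2 / 8) (min (s / (8 * (D + 4)))
    (min (s / 6) (ε₁ / (16 * A))))), by positivity, ?_⟩
  intro δ j Lc ν τ ε c Λ f F v X q hε hc hδ O
  have h1 : ε ≤ (s ^ 2 / 96) ^ p := hε.trans (min_le_left _ _)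
  have hε2 := hε.trans (min_le_right _ _)
  have h2 : ε ≤ s ^ 2 / 8 := hε2.trans (min_le_left _ _)
  have hε3 := hε2.trans (min_le_right _ _)
  have h3 : ε ≤ s / (8 * (D + 4)) := hε3.trans (min_le_left _ _)
  have hε4 := hε3.trans (min_le_right _ _)
  have h4 : ε ≤ s / 6 := hε4.trans (min_le_left _ _)
  have h5 : ε ≤ ε₁ / (16 * A) := hε4.trans (min_le_right _ _)
  have hε0 := X.hε.1
  have H := rowB_of X hD hCu hc₀ hc hδ O
  have hcount := H.count (la := s ^ 2 / 96) hp hc₀.le hc4 hε0.le (by positivity) hDC hr hr1 hl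
    hl1 hs (by positivity) h1 (by linarith) (by linarith) (by
      rw [le_div_iff₀ (by positivity)] at h3
      rw [le_div_iff₀ (by norm_num)]
      linarith) (by linarith)
  refine ⟨_, hcount.trans ?_, fun k hk hkB => ?_⟩
  · have e1 : 400 * (1 + 3 * (D * Cu)) * (lam + 3 * c₀ + 4 * ε) / r =
        A * (lam + 3 * c₀ + 4 * ε) := by rw [hA]; ring
    rw [e1]
    calc A * (lam + 3 * c₀ + 4 * ε) ≤
          A * (ε₁ / (4 * A) + 3 * (ε₁ / (12 * A)) + 4 * (ε₁ / (16 * A))) := by gcongr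
      _ = 3 / 4 * ε₁ := by field_simp; ring
      _ ≤ ε₁ := by linarith
  · by_contra hcon
    exact hkB (Finset.mem_filter.2 ⟨hk, hcon⟩)

end Vale.Agent.P073.H716
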