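import Vale.Agent.P073.H16.Mor2A
import Mathlib.MeasureTheory.Covering.Vitali

/-!
# P073 / H716: the set of the plane where all averages over squares are small
-/

namespace Vale.Agent.P073.H716

open MeasureTheory Set Filter Topology Metric
open scoped ENNReal NNReal
open Vale.Agent.P073.H16

/-! ### the maximal function on the plane -/

/-- the points of the plane at which all averages of `h` over squares are at most `k` -/
def MG (h : ℝ × ℝ → ℝ≥0∞) (k : ℝ≥0∞) : Set (ℝ × ℝ) :=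
  {z | ∀ c r, 0 < r → z ∈ ball c r → ∫⁻ w in closedBall c r, h w ≤ k * ENNReal.ofReal ((2 * r) ^ 2)}

theorem volume_cb (c : ℝ × ℝ) {r : ℝ} (hr : 0 ≤ r) :
    volume (closedBall c r) = ENNReal.ofReal ((2 * r) ^ 2) := by
  rw [← closedBall_prod_same, Measure.volume_eq_prod, Measure.prod_prod, Real.volume_closedBall,
    Real.volume_closedBall, ← ENNReal.ofReal_mul (by positivity)]
  congr 1; ring

variable {h : ℝ × ℝ → ℝ≥0∞} {k : ℝ≥0∞}

theorem isClosed_MG (h : ℝ × ℝ → ℝ≥0∞) (k : ℝ≥0∞) : IsClosed (MG h k) := by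
  rw [← isOpen_compl_iff, isOpen_iff_mem_nhds]
  intro z hz
  have hz' : ¬ ∀ c r, 0 < r → z ∈ ball c r →
      ∫⁻ w in closedBall c r, h w ≤ k * ENNReal.ofReal ((2 * r) ^ 2) := hz
  push Not at hz'
  obtain ⟨c, r, hr, hzc, hlt⟩ := hz'
  filter_upwards [isOpen_ball.mem_nhds hzc] with w hw hwG
  exact absurd (hwG c r hr hw) (not_le.2 hlt)

/-- closed squares -/
theorem MG_closedBall {z c : ℝ × ℝ} {r : ℝ} (hr : 0 < r) (hz : z ∈ MG h k)
    (hzc : z ∈ closedBall c r) :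
    ∫⁻ w in closedBall c r, h w ≤ k * ENNReal.ofReal ((2 * r) ^ 2) := by
  have h1 : ∀ t > r, ∫⁻ w in closedBall c r, h w ≤ k * ENNReal.ofReal ((2 * t) ^ 2) := by
    intro t ht
    refine (lintegral_mono_set (closedBall_subset_closedBall ht.le)).trans
      (hz c t (hr.trans ht) ?_)
    exact mem_ball.2 ((mem_closedBall.1 hzc).trans_lt ht)
  have h2 : Tendsto (fun t : ℝ => k * ENNReal.ofReal ((2 * t) ^ 2)) (𝓝[>] r)
      (𝓝 (k * ENNReal.ofReal ((2 * r) ^ 2))) := by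
    refine ENNReal.Tendsto.const_mul ?_ (Or.inl ?_)
    · refine (ENNReal.continuous_ofReal.comp (by fun_prop)).continuousWithinAt.tendsto
    · simp only [ne_eq, ENNReal.ofReal_eq_zero, not_le]
      positivity
  refine ge_of_tendsto h2 ?_
  filter_upwards [self_mem_nhdsWithin] with t ht
  exact h1 t ht

/-- **weak type (1,1)** for the maximal function over squares -/
theorem volume_MG (h : ℝ × ℝ → ℝ≥0∞) (k : ℝ≥0∞) :
    volume (MG h k)ᶜ * k ≤ 16 * ∫⁻ w, h w := by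
  rcases eq_or_ne k 0 with rfl | hk0
  · simp
  rcases eq_or_ne (∫⁻ w, h w) ⊤ with hI | hI
  · rw [hI]; simp
  -- the bad squares
  set T : Set ((ℝ × ℝ) × ℝ) := {a | 0 < a.2 ∧
    k * ENNReal.ofReal ((2 * a.2) ^ 2) < ∫⁻ w in closedBall a.1 a.2, h w} with hT
  -- bounded radii
  obtain ⟨M, hM⟩ : ∃ M : ℝ, ∀ a ∈ T, a.2 ≤ M := by
    have h1 : ∃ M : ℝ, 0 < M ∧ ∫⁻ w, h w ≤ k * ENNReal.ofReal ((2 * M) ^ 2) := by
      set I := (∫⁻ w, h w) / k with hIk
      have hI' : I ≠ ⊤ := ENNReal.div_ne_top hI hk0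
      rcases eq_or_ne k ⊤ with hkt | hkt
      · refine ⟨1, one_pos, ?_⟩
        rw [hkt, ENNReal.top_mul]
        · exact le_top
        · simp
      refine ⟨I.toReal + 1, by positivity, ?_⟩
      have h2 : ∫⁻ w, h w = k * I := by
        rw [hIk, ENNReal.mul_div_cancel hk0 hkt]
      rw [h2]
      gcongr
      rw [← ENNReal.ofReal_toReal hI']
      refine ENNReal.ofReal_le_ofReal ?_
      rw [ENNReal.toReal_ofReal ENNReal.toReal_nonneg]
      nlinarith [ENNReal.toReal_nonneg (a := I)]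
    obtain ⟨M, hM0, hM⟩ := h1
    refine ⟨M, fun a ha => ?_⟩
    by_contra hcon
    push Not at hcon
    have h3 := ha.2.trans_le (setLIntegral_le_lintegral _ _)
    have h4 : k * ENNReal.ofReal ((2 * M) ^ 2) ≤ k * ENNReal.ofReal ((2 * a.2) ^ 2) := by
      gcongr
    exact absurd (hM.trans h4) (not_le.2 h3)
  obtain ⟨U, hUT, hUd, hU⟩ := Vitali.exists_disjoint_subfamily_covering_enlargement_closedBall
    T (fun a => a.1) (fun a => a.2) M hM 4 (by norm_num)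
  have hUc : U.Countable := by
    refine hUd.countable_of_nonempty_interior fun a ha => ?_
    refine ⟨a.1, ?_⟩
    exact ball_subset_interior_closedBall (mem_ball_self (hUT ha).1)
  have hcov : (MG h k)ᶜ ⊆ ⋃ a ∈ U, closedBall a.1 (4 * a.2) := by
    intro z hz
    have hz' : ¬ ∀ c r, 0 < r → z ∈ ball c r →
        ∫⁻ w in closedBall c r, h w ≤ k * ENNReal.ofReal ((2 * r) ^ 2) := hz
    push Not at hz'
    obtain ⟨c, r, hr, hzc, hlt⟩ := hz'
    obtain ⟨b, hb, hsub⟩ := hU (c, r) ⟨hr, hlt⟩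
    exact mem_iUnion₂.2 ⟨b, hb, hsub (ball_subset_closedBall hzc)⟩
  have : Countable U := hUc
  have hm : ∀ a : U, MeasurableSet (closedBall (a : (ℝ × ℝ) × ℝ).1 (a : (ℝ × ℝ) × ℝ).2) :=
    fun a => isClosed_closedBall.measurableSet
  have hdisj : Pairwise (Function.onFun Disjoint
      fun a : U => closedBall (a : (ℝ × ℝ) × ℝ).1 (a : (ℝ × ℝ) × ℝ).2) :=
    fun a b hab => hUd a.2 b.2 fun e => hab (Subtype.ext e)
  calc volume (MG h k)ᶜ * k ≤ volume (⋃ a ∈ U, closedBall a.1 (4 * a.2)) * k := by gcongr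
    _ ≤ (∑' a : U, volume (closedBall (a : (ℝ × ℝ) × ℝ).1 (4 * (a : (ℝ × ℝ) × ℝ).2))) * k := by
      gcongr
      rw [biUnion_eq_iUnion]
      exact measure_iUnion_le _
    _ = ∑' a : U, volume (closedBall (a : (ℝ × ℝ) × ℝ).1 (4 * (a : (ℝ × ℝ) × ℝ).2)) * k :=
      ENNReal.tsum_mul_right.symm
    _ ≤ ∑' a : U, 16 * ∫⁻ w in closedBall (a : (ℝ × ℝ) × ℝ).1 (a : (ℝ × ℝ) × ℝ).2, h w := by
      refine ENNReal.tsum_le_tsum fun a => ?_
      have ha := hUT a.2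
      have h0 : 0 < (a : (ℝ × ℝ) × ℝ).2 := ha.1
      rw [volume_cb _ (by positivity)]
      have e : (2 * (4 * (a : (ℝ × ℝ) × ℝ).2)) ^ 2 = 16 * (2 * (a : (ℝ × ℝ) × ℝ).2) ^ 2 := by ring
      rw [e, ENNReal.ofReal_mul (by norm_num), ENNReal.ofReal_ofNat, mul_assoc, mul_comm _ k]
      gcongr
      exact ha.2.le
    _ = 16 * ∑' a : U, ∫⁻ w in closedBall (a : (ℝ × ℝ) × ℝ).1 (a : (ℝ × ℝ) × ℝ).2, h w :=
      ENNReal.tsum_mul_left
    _ = 16 * ∫⁻ w in ⋃ a : U, closedBall (a : (ℝ × ℝ) × ℝ).1 (a : (ℝ × ℝ) × ℝ).2, h w := by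
      rw [lintegral_iUnion hm hdisj]
    _ ≤ 16 * ∫⁻ w, h w := by
      gcongr
      exact Measure.restrict_le_self

/-! ### squares as balls -/

theorem sq_eq_cb (α β r : ℝ) :
    Icc α (α + r) ×ˢ Icc β (β + r) = closedBall ((α + r / 2, β + r / 2) : ℝ × ℝ) (r / 2) := by
  rw [← closedBall_prod_same, Real.closedBall_eq_Icc, Real.closedBall_eq_Icc]
  congr 2 <;> ring

theorem dI_eq_set (h : ℝ × ℝ → ℝ≥0∞) (α β r : ℝ) :
    dI h α β r = ∫⁻ w in Icc α (α + r) ×ˢ Icc β (β + r), h w := by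
  rw [dI, Measure.prod_restrict, ← Measure.volume_eq_prod]

theorem MG_sq {z : ℝ × ℝ} (hz : z ∈ MG h k) {α β r : ℝ} (hr : 0 < r)
    (h1 : z.1 ∈ Icc α (α + r)) (h2 : z.2 ∈ Icc β (β + r)) :
    ∫⁻ w in Icc α (α + r) ×ˢ Icc β (β + r), h w ≤ k * ENNReal.ofReal (r ^ 2) := by
  have h3 : z ∈ Icc α (α + r) ×ˢ Icc β (β + r) := ⟨h1, h2⟩
  rw [sq_eq_cb] at h3 ⊢
  have := MG_closedBall (half_pos hr) hz h3
  rwa [mul_div_cancel₀ r two_ne_zero] at this

/-! ### telescoping along good lines -/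

variable {E' : Type*} [NormedAddCommGroup E'] {u : ℝ × ℝ → E'} {A B R : ℝ}

/-- restriction to a smaller square -/
theorem Hm.mono (H : Hm u h A B R) {α β r : ℝ} (hr : 0 < r) (h1 : A ≤ α) (h2 : α + r ≤ A + R)
    (h3 : B ≤ β) (h4 : β + r ≤ B + R) : Hm u h α β r := by
  have e1 : Icc α (α + r) ⊆ Icc A (A + R) := Icc_subset_Icc h1 h2
  have e2 : Icc β (β + r) ⊆ Icc B (B + R) := Icc_subset_Icc h3 h4
  refine ⟨hr, H.meas, H.cont.mono (prod_mono e1 e2), ?_, ?_⟩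
  · filter_upwards [H.ver] with s hs hsI a ha b hb hab
    exact hs (e1 hsI) a (e2 ha) b (e2 hb) hab
  · filter_upwards [H.hor] with t ht htI a ha b hb hab
    exact ht (e2 htI) a (e1 ha) b (e1 hb) hab

/-- the next point of the chain, in terms of the integral on the current square -/
theorem exists_next1 (H : Hm u h A B R) {κ : ℝ≥0∞}
    {x y : ℝ} (hx : x ∈ Icc A (A + R)) (hy : y ∈ Icc B (B + R))
    (hκ : ∀ α β r : ℝ, 0 < r → A ≤ α → α + r ≤ A + R → B ≤ β → β + r ≤ B + R →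
      x ∈ Icc α (α + r) → y ∈ Icc β (β + r) → dI h α β r ≤ κ * ENNReal.ofReal (r ^ 2))
    (j : ℕ) (z : ℝ × ℝ)
    (hz : PS u h A B R x y j z) : ∃ z', PS u h A B R x y (j + 1) z' ∧
      edist (u z) (u z') ≤ 3 * κ * ENNReal.ofReal (R * (1 / 2) ^ j) := by
  obtain ⟨hq0, hq1⟩ := half_pow_mem j
  have hR := H.pos
  have e : ((1:ℝ) / 2) ^ (j + 1) = (1 / 2) ^ j / 2 := by rw [pow_succ]; ring
  unfold PS at hz ⊢
  rw [e, ← mul_div_assoc]
  set q : ℝ := (1 / 2) ^ j with hq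
  obtain ⟨h1, h2, h3⟩ := hz
  obtain ⟨hx1, hx2⟩ := hx
  obtain ⟨hy1, hy2⟩ := hy
  have x0 : 0 ≤ x - A := by linarith
  have x1 : 0 ≤ A + R - x := by linarith
  have y0 : 0 ≤ y - B := by linarith
  have y1 : 0 ≤ B + R - y := by linarith
  have a1 : A ≤ A + (x - A) * (1 - q) := by
    have := mul_nonneg x0 (by linarith : 0 ≤ 1 - q); linarith
  have a2 : A + (x - A) * (1 - q) + R * q ≤ A + R := by
    have := mul_nonneg x1 (by linarith : 0 ≤ 1 - q); nlinarith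
  have b1 : B ≤ B + (y - B) * (1 - q) := by
    have := mul_nonneg y0 (by linarith : 0 ≤ 1 - q); linarith
  have b2 : B + (y - B) * (1 - q) + R * q ≤ B + R := by
    have := mul_nonneg y1 (by linarith : 0 ≤ 1 - q); nlinarith
  have c1 := mul_nonneg x0 hq0.le
  have c2 := mul_nonneg x1 hq0.le
  have c3 := mul_nonneg y0 hq0.le
  have c4 := mul_nonneg y1 hq0.le
  obtain ⟨b', hb', a', ha', hg, hd⟩ := step H (mul_pos hR hq0) a1 a2 b1 b2
    (show A + (x - A) * (1 - q) ≤ A + (x - A) * (1 - q / 2) by nlinarith)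
    (show A + (x - A) * (1 - q / 2) + R * q / 2 ≤ A + (x - A) * (1 - q) + R * q by nlinarith)
    (show B + (y - B) * (1 - q) ≤ B + (y - B) * (1 - q / 2) by nlinarith)
    (show B + (y - B) * (1 - q / 2) + R * q / 2 ≤ B + (y - B) * (1 - q) + R * q by nlinarith)
    h1 h2 h3
  refine ⟨(b', a'), ⟨hb', ha', hg⟩, ?_⟩
  rw [edist_comm, edist_eq_enorm_sub]
  have hr : 0 < R * q := mul_pos hR hq0
  have h4 := hκ _ _ _ hr a1 a2 b1 b2 ⟨by nlinarith, by nlinarith⟩ ⟨by nlinarith, by nlinarith⟩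
  have h5 : ‖u (b', a') - u z‖ₑ * ENNReal.ofReal (R * q) ≤
      3 * κ * ENNReal.ofReal (R * q) * ENNReal.ofReal (R * q) := by
    refine hd.trans ?_
    calc 3 * dI h (A + (x - A) * (1 - q)) (B + (y - B) * (1 - q)) (R * q)
        ≤ 3 * (κ * ENNReal.ofReal ((R * q) ^ 2)) := by gcongr
      _ = _ := by rw [pow_two, ENNReal.ofReal_mul hr.le]; ring
  exact (ENNReal.mul_le_mul_iff_left (by simpa using hr) ENNReal.ofReal_ne_top).1 h5

/-- the chain from a good starting point -/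
theorem chain1 (H : Hm u h A B R) {κ : ℝ≥0∞} {t : ℝ}
    (ht : t ∈ Icc B (B + R)) (hg : HG u h A R A B R t) {x y : ℝ} (hx : x ∈ Icc A (A + R))
    (hy : y ∈ Icc B (B + R))
    (hκ : ∀ α β r : ℝ, 0 < r → A ≤ α → α + r ≤ A + R → B ≤ β → β + r ≤ B + R →
      x ∈ Icc α (α + r) → y ∈ Icc β (β + r) → dI h α β r ≤ κ * ENNReal.ofReal (r ^ 2)) :
    edist (u (A, t)) (u (x, y)) ≤ 6 * κ * ENNReal.ofReal R := by
  have hR := H.pos
  have h0 : PS u h A B R x y 0 (A, t) := by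
    unfold PS
    simp only [pow_zero, sub_self, mul_zero, add_zero, mul_one]
    exact ⟨⟨le_rfl, by linarith⟩, ht, hg⟩
  choose! next hn1 hn2 using fun j z => exists_next1 (κ := κ) H hx hy hκ j z
  let z : ℕ → ℝ × ℝ := fun j => Nat.rec (A, t) (fun j z => next j z) j
  have hz0 : z 0 = (A, t) := rfl
  have hzs : ∀ j, z (j + 1) = next j (z j) := fun _ => rfl
  have hz : ∀ j, PS u h A B R x y j (z j) := by
    intro j
    induction j with
    | zero => rw [hz0]; exact h0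
    | succ j ih => rw [hzs]; exact hn1 j (z j) ih
  have hlim : Tendsto z atTop (𝓝 (x, y)) :=
    (tendsto_coord fun j => (hz j).1).prodMk_nhds (tendsto_coord fun j => (hz j).2.1)
  have hmem : ∀ j, z j ∈ Icc A (A + R) ×ˢ Icc B (B + R) := fun j =>
    ⟨mem_unit hx (hz j).1, mem_unit hy (hz j).2.1⟩
  have hul : Tendsto (fun j => u (z j)) atTop (𝓝 (u (x, y))) := by
    have hc := H.cont (x, y) ⟨hx, hy⟩
    exact hc.tendsto.comp (tendsto_nhdsWithin_iff.2 ⟨hlim, Eventually.of_forall hmem⟩)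
  have hd := edist_le_tsum_of_edist_le_of_tendsto₀ (f := fun j => u (z j))
    (fun j => 3 * κ * ENNReal.ofReal (R * (1 / 2) ^ j))
    (fun j => by
      show edist (u (z j)) (u (z (j + 1))) ≤ _
      rw [hzs]
      exact hn2 j (z j) (hz j)) hul
  rw [hz0] at hd
  refine hd.trans (le_of_eq ?_)
  rw [ENNReal.tsum_mul_left]
  have e2 : ∑' j : ℕ, ENNReal.ofReal (R * (1 / 2) ^ j) = ENNReal.ofReal R * 2 := by
    have e3 : ∀ j : ℕ, ENNReal.ofReal (R * (1 / 2) ^ j) =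
        ENNReal.ofReal R * ENNReal.ofReal ((1 / 2) ^ j) := fun j => ENNReal.ofReal_mul hR.le
    simp only [e3]
    rw [ENNReal.tsum_mul_left, ← ENNReal.ofReal_tsum_of_nonneg (fun j => by positivity)
      summable_geometric_two, tsum_geometric_two, ENNReal.ofReal_ofNat]
  rw [e2]; ring

/-- a square of side `ρ` around two points of distance `ρ`, in a bigger square (one coordinate) -/
theorem exists_corner {A R ρ x x' : ℝ} (hx : x ∈ Icc A (A + R)) (hx' : x' ∈ Icc A (A + R))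
    (hd : |x - x'| ≤ ρ) (hρ : ρ ≤ R) : ∃ α, A ≤ α ∧ α + ρ ≤ A + R ∧ x ∈ Icc α (α + ρ) ∧
      x' ∈ Icc α (α + ρ) := by
  obtain ⟨h1, h2⟩ := hx
  obtain ⟨h3, h4⟩ := hx'
  obtain ⟨h5, h6⟩ := abs_le.1 hd
  refine ⟨min (min x x') (A + R - ρ), ?_, ?_, ⟨?_, ?_⟩, ?_, ?_⟩
  · refine le_min (le_min h1 h3) (by linarith)
  · have := min_le_right (min x x') (A + R - ρ); linarith
  · exact (min_le_left _ _).trans (min_le_left _ _)
  · rw [min_add, min_add]
    refine le_min (le_min ?_ ?_) ?_ <;> linarith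
  · exact (min_le_left _ _).trans (min_le_right _ _)
  · rw [min_add, min_add]
    refine le_min (le_min ?_ ?_) ?_ <;> linarith

/-- **(G1)** two points with small averages of the upper gradient -/
theorem lip_of_avg (H : Hm u h A B R) {κ : ℝ≥0∞} {P Q : ℝ × ℝ}
    (hP : P ∈ Icc A (A + R) ×ˢ Icc B (B + R)) (hQ : Q ∈ Icc A (A + R) ×ˢ Icc B (B + R))
    (hPκ : ∀ α β r : ℝ, 0 < r → A ≤ α → α + r ≤ A + R → B ≤ β → β + r ≤ B + R →
      P.1 ∈ Icc α (α + r) → P.2 ∈ Icc β (β + r) → dI h α β r ≤ κ * ENNReal.ofReal (r ^ 2))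
    (hQκ : ∀ α β r : ℝ, 0 < r → A ≤ α → α + r ≤ A + R → B ≤ β → β + r ≤ B + R →
      Q.1 ∈ Icc α (α + r) → Q.2 ∈ Icc β (β + r) → dI h α β r ≤ κ * ENNReal.ofReal (r ^ 2)) :
    ‖u P - u Q‖ₑ ≤ 12 * κ * edist P Q := by
  rcases eq_or_ne P Q with rfl | hPQ
  · simp
  set ρ := dist P Q with hρ
  have hρ0 : 0 < ρ := dist_pos.2 hPQ
  have d1 : |P.1 - Q.1| ≤ ρ := by
    rw [← Real.dist_eq]; exact le_max_left _ _
  have d2 : |P.2 - Q.2| ≤ ρ := by
    rw [← Real.dist_eq]; exact le_max_right _ _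
  have hρR : ρ ≤ R := by
    rw [hρ, Prod.dist_eq]
    refine max_le ?_ ?_
    · rw [Real.dist_eq, abs_le]
      constructor <;> linarith [hP.1.1, hP.1.2, hQ.1.1, hQ.1.2]
    · rw [Real.dist_eq, abs_le]
      constructor <;> linarith [hP.2.1, hP.2.2, hQ.2.1, hQ.2.2]
  obtain ⟨α, a1, a2, a3, a4⟩ := exists_corner hP.1 hQ.1 d1 hρR
  obtain ⟨β, b1, b2, b3, b4⟩ := exists_corner hP.2 hQ.2 d2 hρR
  have H' := Hm.mono H hρ0 a1 a2 b1 b2
  obtain ⟨t, ht, hg⟩ := exists_HG H' (α := α) (β := β) (r := ρ) hρ0 le_rfl le_rfl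
  have h1 := chain1 H' (κ := κ) ht hg a3 b3 fun α' β' r hr c1 c2 c3 c4 =>
    hPκ α' β' r hr (a1.trans c1) (c2.trans a2) (b1.trans c3) (c4.trans b2)
  have h2 := chain1 H' (κ := κ) ht hg a4 b4 fun α' β' r hr c1 c2 c3 c4 =>
    hQκ α' β' r hr (a1.trans c1) (c2.trans a2) (b1.trans c3) (c4.trans b2)
  rw [← edist_eq_enorm_sub]
  refine (edist_triangle_left (u P) (u Q) (u (α, t))).trans ?_
  refine (add_le_add h1 h2).trans (le_of_eq ?_)
  rw [edist_dist, ← hρ]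
  ring

end Vale.Agent.P073.H716
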