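import Vale.Agent.P073.H716.GSetA
import Vale.Agent.P073.H16.Mor2C

/-!
# P073 / H716: the points of a dyadic plane where all averages of the energy are small
-/

open Set Metric Topology Filter MeasureTheory
open scoped ENNReal
open Vale.Agent.P073.AB (Idx pt squ cl)
open P073.Net (dyc dyo)
open Vale.Agent.P073.St (V Mat IsBoundedDomain IsSobolev)
open Vale.Agent.P073.H194
open Vale.Agent.P073.SQ (ev)
open Vale.Agent.P073.H16

namespace Vale.Agent.P073.H716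

/-- Hoelder on a square -/
theorem dI_le_of_rpow {h : ℝ × ℝ → ℝ≥0∞} (hh : Measurable h) {p : ℝ} (hp : 1 ≤ p) {κ : ℝ≥0∞}
    {α β r : ℝ} (hr : 0 < r)
    (hκ : dI (fun z => h z ^ p) α β r ≤ κ ^ p * ENNReal.ofReal (r ^ 2)) :
    dI h α β r ≤ κ * ENNReal.ofReal (r ^ 2) := by
  have hr2 : (0:ℝ) < r ^ 2 := by positivity
  rcases hp.eq_or_lt with rfl | hp
  · simpa using hκ
  have hp0 : 0 < p := by linarith
  have h1 := H31.lintegral_le_rpow_mul (ν := (volume.restrict (Icc α (α + r))).prod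
    (volume.restrict (Icc β (β + r)))) hp hh.aemeasurable
  refine h1.trans ?_
  have e1 : ((volume.restrict (Icc α (α + r))).prod (volume.restrict (Icc β (β + r)))) univ =
      ENNReal.ofReal (r ^ 2) := by
    rw [← univ_prod_univ, Measure.prod_prod, Measure.restrict_apply_univ,
      Measure.restrict_apply_univ, Real.volume_Icc, Real.volume_Icc, add_sub_cancel_left,
      add_sub_cancel_left, ← ENNReal.ofReal_mul hr.le]
    congr 1
    ring
  rw [e1]
  have e2 : 0 ≤ 1 - 1 / p := by rw [sub_nonneg, div_le_one hp0]; exact hp.le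
  have h2 : dI (fun z => h z ^ p) α β r ^ (1 / p) ≤
      κ * ENNReal.ofReal (r ^ 2) ^ (1 / p) := by
    calc dI (fun z => h z ^ p) α β r ^ (1 / p)
        ≤ (κ ^ p * ENNReal.ofReal (r ^ 2)) ^ (1 / p) := by gcongr
      _ = κ * ENNReal.ofReal (r ^ 2) ^ (1 / p) := by
        rw [ENNReal.mul_rpow_of_nonneg _ _ (by positivity), ← ENNReal.rpow_mul,
          mul_one_div_cancel hp0.ne', ENNReal.rpow_one]
  calc _ ≤ κ * ENNReal.ofReal (r ^ 2) ^ (1 / p) * ENNReal.ofReal (r ^ 2) ^ (1 - 1 / p) := by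
        gcongr
        exact h2
    _ = κ * ENNReal.ofReal (r ^ 2) := by
      rw [mul_assoc, ← ENNReal.rpow_add _ _ (by simpa using hr.ne') ENNReal.ofReal_ne_top]
      simp

/-- gluing an upper gradient estimate along a line -/
theorem ug_glue {E' : Type*} [NormedAddCommGroup E'] {φ : ℝ → E'} {g : ℝ → ℝ≥0∞} {B q : ℝ}
    (hq : 0 < q) (K : ℕ)
    (h : ∀ m < K, ∀ a ∈ Icc (B + (m : ℝ) / q) (B + ((m : ℝ) + 1) / q),
      ∀ b ∈ Icc (B + (m : ℝ) / q) (B + ((m : ℝ) + 1) / q), a ≤ b →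
      ‖φ b - φ a‖ₑ ≤ ∫⁻ t in Icc a b, g t) :
    ∀ a ∈ Icc B (B + (K : ℝ) / q), ∀ b ∈ Icc B (B + (K : ℝ) / q), a ≤ b →
      ‖φ b - φ a‖ₑ ≤ ∫⁻ t in Icc a b, g t := by
  induction K with
  | zero =>
    intro a ha b hb hab
    have h1 : a = b := by
      simp only [Nat.cast_zero, zero_div, add_zero] at ha hb
      linarith [ha.1, ha.2, hb.1, hb.2]
    subst h1
    simp
  | succ K ih =>
    intro a ha b hb hab
    have ih' := ih fun m hm => h m (by omega)
    have hK := h K (by omega)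
    push_cast at ha hb
    rcases le_total b (B + (K : ℝ) / q) with hb' | hb'
    · exact ih' a ⟨ha.1, hab.trans hb'⟩ b ⟨hb.1, hb'⟩ hab
    rcases le_total (B + (K : ℝ) / q) a with ha' | ha'
    · exact hK a ⟨ha', ha.2⟩ b ⟨hb', hb.2⟩ hab
    set c := B + (K : ℝ) / q with hc
    have hc0 : B ≤ c := by rw [hc]; linarith [show (0:ℝ) ≤ K / q by positivity]
    have hc1 : c ≤ B + ((K : ℝ) + 1) / q := by
      rw [hc, add_div]
      linarith [show (0:ℝ) ≤ 1 / q by positivity]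
    have h1 := ih' a ⟨ha.1, ha'⟩ c ⟨hc0, le_rfl⟩ ha'
    have h2 := hK c ⟨le_rfl, hc1⟩ b ⟨hb', hb.2⟩ hb'
    have e : φ b - φ a = (φ b - φ c) + (φ c - φ a) := by abel
    rw [e]
    refine (enorm_add_le _ _).trans ?_
    refine (add_le_add h2 h1).trans ?_
    rw [restrict_Ioc_eq_restrict_Icc.symm, restrict_Ioc_eq_restrict_Icc.symm,
      restrict_Ioc_eq_restrict_Icc.symm, ← Ioc_union_Ioc_eq_Ioc ha' hb',
      lintegral_union measurableSet_Ioc (Ioc_disjoint_Ioc_of_le le_rfl), add_comm]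

variable {i j k : Fin 3} {E' : Type*} [NormedAddCommGroup E'] [NormedSpace ℝ E']

theorem pt_nsq_k (hik : i ≠ k) (hjk : j ≠ k) (v : V) (n : ℕ) (z : Fin 3 → ℤ) (a b : ℕ) :
    pt v n (nsq i j z a b) k = pt v n z k := by
  simp [pt, nsq, Ne.symm hjk, Ne.symm hik]

theorem pt_nsq_i (hij : i ≠ j) (v : V) (n : ℕ) (z : Fin 3 → ℤ) (a b : ℕ) :
    pt v n (nsq i j z a b) i = pt v n z i + a / 2 ^ n := by
  simp only [pt, nsq, Function.update_of_ne hij, Function.update_self]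
  push_cast; ring

theorem pt_nsq_j (v : V) (n : ℕ) (z : Fin 3 → ℤ) (a b : ℕ) :
    pt v n (nsq i j z a b) j = pt v n z j + b / 2 ^ n := by
  simp only [pt, nsq, Function.update_self]
  push_cast; ring

/-- the lines in direction `j` of a block -/
theorem ver_block [CompleteSpace E'] {Ω : Set V} {f : V → E'} {D : V → V →L[ℝ] E'} {v : V}
    (h : LineGood Ω f D v) (hij : i ≠ j) (hik : i ≠ k) (hjk : j ≠ k) {n : ℕ} {z : Fin 3 → ℤ}
    {K : ℕ} (hK : 0 < K) (hs : blk v n z k K ⊆ Ω) (L : V →L[ℝ] E') :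
    ∀ᵐ s : ℝ, s ∈ Icc (pt v n z i) (pt v n z i + K / 2 ^ n) →
      ∀ a ∈ Icc (pt v n z j) (pt v n z j + K / 2 ^ n),
      ∀ b ∈ Icc (pt v n z j) (pt v n z j + K / 2 ^ n), a ≤ b →
      ‖(f (P3 i j k (pt v n z k) s b) - L (P3 i j k (pt v n z k) s b)) -
        (f (P3 i j k (pt v n z k) s a) - L (P3 i j k (pt v n z k) s a))‖ₑ ≤
        ∫⁻ t in Icc a b, ‖D (P3 i j k (pt v n z k) s t) (ev j) - L (ev j)‖ₑ := by
  have hall : ∀ a0 b0 : ℕ, ∀ᵐ s : ℝ, a0 < K → b0 < K →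
      s ∈ Icc (pt v n z i + a0 / 2 ^ n) (pt v n z i + a0 / 2 ^ n + 1 / 2 ^ n) →
      ∀ a ∈ Icc (pt v n z j + b0 / 2 ^ n) (pt v n z j + b0 / 2 ^ n + 1 / 2 ^ n),
      ∀ b ∈ Icc (pt v n z j + b0 / 2 ^ n) (pt v n z j + b0 / 2 ^ n + 1 / 2 ^ n), a ≤ b →
      ‖(f (P3 i j k (pt v n z k) s b) - L (P3 i j k (pt v n z k) s b)) -
        (f (P3 i j k (pt v n z k) s a) - L (P3 i j k (pt v n z k) s a))‖ₑ ≤
        ∫⁻ t in Icc a b, ‖D (P3 i j k (pt v n z k) s t) (ev j) - L (ev j)‖ₑ := by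
    intro a0 b0
    by_cases ha0 : a0 < K
    swap
    · exact Eventually.of_forall fun s h => absurd h ha0
    by_cases hb0 : b0 < K
    swap
    · exact Eventually.of_forall fun s _ h => absurd h hb0
    have h1 := ver_of_lineGood h hij hik hjk (z := nsq i j z a0 b0)
      ((squ_sub_blk (nsq_mem hij hik hjk ha0 hb0)).trans hs) L
    rw [pt_nsq_k hik hjk, pt_nsq_i hij, pt_nsq_j] at h1
    filter_upwards [h1] with s hs1 _ _ using hs1
  have h2 : (0:ℝ) < 2 ^ n := by positivity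
  filter_upwards [ae_all_iff.2 fun a0 => ae_all_iff.2 fun b0 => hall a0 b0] with s hs1 hsI
  obtain ⟨a0, ha0, h3, h4⟩ := exists_unit h2 hK hsI.1 hsI.2
  refine ug_glue (φ := fun t => f (P3 i j k (pt v n z k) s t) - L (P3 i j k (pt v n z k) s t))
    h2 K fun b0 hb0 a ha b hb hab => ?_
  have e : ∀ t c : ℝ, t + (c + 1) / 2 ^ n = t + c / 2 ^ n + 1 / 2 ^ n := by intro t c; ring
  rw [e] at ha hb h4
  exact hs1 a0 b0 ha0 hb0 ⟨h3, h4⟩ a ha b hb hab

/-! ### the integral over a block -/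

theorem floor_iff {t0 s : ℝ} {n : ℕ} {w : ℤ} :
    s ∈ Ico (t0 + (w : ℝ) / 2 ^ n) (t0 + (w : ℝ) / 2 ^ n + 1 / 2 ^ n) ↔
      ⌊(s - t0) * 2 ^ n⌋ = w := by
  have h2 : (0:ℝ) < 2 ^ n := by positivity
  rw [Int.floor_eq_iff, mem_Ico]
  constructor
  · rintro ⟨h3, h4⟩
    constructor
    · rw [← div_le_iff₀ h2]; linarith
    · rw [← lt_div_iff₀ h2, add_div]; linarith
  · rintro ⟨h3, h4⟩
    rw [← div_le_iff₀ h2] at h3
    rw [← lt_div_iff₀ h2, add_div] at h4
    constructor <;> linarith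

theorem floor_range {t0 s : ℝ} {n : ℕ} {z : ℤ} {K : ℕ} :
    s ∈ Ico (t0 + (z : ℝ) / 2 ^ n) (t0 + (z : ℝ) / 2 ^ n + K / 2 ^ n) ↔
      z ≤ ⌊(s - t0) * 2 ^ n⌋ ∧ ⌊(s - t0) * 2 ^ n⌋ < z + K := by
  have h2 : (0:ℝ) < 2 ^ n := by positivity
  have e : (z : ℤ) + (K : ℤ) = ((z + K : ℤ)) := rfl
  rw [Int.le_floor, Int.floor_lt, mem_Ico]
  push_cast
  constructor
  · rintro ⟨h3, h4⟩
    constructor
    · rw [← div_le_iff₀ h2]; linarith
    · rw [← lt_div_iff₀ h2, add_div]; linarith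
  · rintro ⟨h3, h4⟩
    rw [← div_le_iff₀ h2] at h3
    rw [← lt_div_iff₀ h2, add_div] at h4
    constructor <;> linarith

/-- the surface integral over a block of squares is a double integral -/
theorem tsum_sInt_eq_dI (hij : i ≠ j) (hik : i ≠ k) (hjk : j ≠ k) (v : V) (n : ℕ)
    (z : Fin 3 → ℤ) (K : ℕ) {H : V → ℝ≥0∞} (hH : Measurable H) :
    ∑' w : Bsq z k K, sInt v ((n, (w : Fin 3 → ℤ)), k) H =
      dI (fun w => H (P3 i j k (pt v n z k) w.1 w.2)) (pt v n z i) (pt v n z j) (K / 2 ^ n) := by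
  set g : ℝ × ℝ → ℝ≥0∞ := fun w => H (P3 i j k (pt v n z k) w.1 w.2) with hg
  have hico : ∀ α β r : ℝ, dI g α β r = ∫⁻ w in Ico α (α + r) ×ˢ Ico β (β + r), g w := by
    intro α β r
    rw [dI_eq_set]
    refine setLIntegral_congr ?_
    rw [Measure.volume_eq_prod]
    exact Measure.set_prod_ae_eq Ico_ae_eq_Icc.symm Ico_ae_eq_Icc.symm
  have h1 : ∀ w : Bsq z k K, sInt v ((n, (w : Fin 3 → ℤ)), k) H =
      ∫⁻ y in Ico (pt v n w i) (pt v n w i + 1 / 2 ^ n) ×ˢ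
        Ico (pt v n w j) (pt v n w j + 1 / 2 ^ n), g y := by
    intro w
    rw [sInt_eq_dI hij hik hjk v n w hH]
    have e : pt v n (w : Fin 3 → ℤ) k = pt v n z k := by
      simp only [pt]; rw [w.2.1]
    rw [e, hico]
  simp only [h1]
  rw [hico, ← lintegral_iUnion]
  · congr 2
    ext y
    simp only [mem_iUnion, mem_prod]
    simp only [pt, floor_iff, floor_range]
    constructor
    · rintro ⟨⟨w, hw1, hw2⟩, h3, h4⟩
      simp only at h3 h4
      rw [h3, h4]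
      exact ⟨hw2 i hik, hw2 j hjk⟩
    · rintro ⟨h3, h4⟩
      refine ⟨⟨Function.update (Function.update z i ⌊(y.1 - v i) * 2 ^ n⌋) j
        ⌊(y.2 - v j) * 2 ^ n⌋, ?_, ?_⟩, ?_, ?_⟩
      · simp [Ne.symm hjk, Ne.symm hik]
      · intro l hl
        rcases cases3 hij hik hjk l with rfl | rfl | rfl
        · rw [Function.update_of_ne hij, Function.update_self]; exact h3
        · rw [Function.update_self]; exact h4
        · exact absurd rfl hl
      · simp [hij]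
      · simp
  · intro w
    exact measurableSet_Ico.prod measurableSet_Ico
  · intro w w' hww'
    rw [Function.onFun, Set.disjoint_left]
    rintro y ⟨h3, h4⟩ ⟨h5, h6⟩
    simp only [pt, floor_iff] at h3 h4 h5 h6
    apply hww'
    ext l
    rcases cases3 hij hik hjk l with rfl | rfl | rfl
    · rw [← h3, ← h5]
    · rw [← h4, ← h6]
    · rw [w.2.1, w'.2.1]

end Vale.Agent.P073.H716
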