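import Mathlib

/-!
# P073, block CUB2 = [HOLE]: `N` planes leave a hole of relative size `1 / (7 N)` in a cube

`exists_hole`: in `Fin 3 → ℝ` with the sup norm, for `N ≥ 1` planes and every ball of radius `r`
there is a point `c` at distance at most `r / 2` from the centre such that the ball of radius
`r / (7 N)` around `c` misses all the planes.
-/

open Set Metric

namespace Vale.Agent.P073.H716

/-- distance to a plane, in the dominant direction -/
theorem abs_eval_sub_le (a : Fin 3 → ℝ) (b ρ : ℝ) (k : Fin 3) (hk : ∀ j, |a j| ≤ |a k|)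
    {c y : Fin 3 → ℝ} (hy : dist y c ≤ ρ) (hb : ∑ j, a j * y j = b) :
    |∑ j, a j * c j - b| ≤ 3 * ρ * |a k| := by
  have hd : ∀ j, |c j - y j| ≤ ρ := fun j => by
    have := dist_le_pi_dist y c j
    rw [Real.dist_eq, abs_sub_comm] at this
    exact this.trans hy
  rw [← hb, ← Finset.sum_sub_distrib]
  calc |∑ j, (a j * c j - a j * y j)| ≤ ∑ j, |a j * c j - a j * y j| :=
        Finset.abs_sum_le_sum_abs _ _
    _ ≤ ∑ _j : Fin 3, |a k| * ρ := by
        apply Finset.sum_le_sum
        intro j _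
        rw [← mul_sub, abs_mul]
        exact mul_le_mul (hk j) (hd j) (abs_nonneg _) (abs_nonneg _)
    _ = 3 * ρ * |a k| := by
        rw [Finset.sum_const, Finset.card_univ, Fintype.card_fin]
        simp only [nsmul_eq_mul, Nat.cast_ofNat]
        ring

/-- **[HOLE]** -/
theorem exists_hole {N : ℕ} (hN : 0 < N) (a : Fin N → Fin 3 → ℝ) (b : Fin N → ℝ)
    (ha : ∀ i, a i ≠ 0) (x₀ : Fin 3 → ℝ) {r : ℝ} (hr : 0 < r) :
    ∃ c : Fin 3 → ℝ, dist c x₀ ≤ r / 2 ∧
      ∀ (i : Fin N) (y : Fin 3 → ℝ), dist y c ≤ r / (7 * N) → ∑ k, a i k * y k ≠ b i := by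
  classical
  have hN' : (0 : ℝ) < N := by exact_mod_cast hN
  set d : ℝ := r / N with hd
  set ρ : ℝ := r / (7 * N) with hρ
  have hdpos : 0 < d := div_pos hr hN'
  have hρpos : 0 < ρ := div_pos hr (by positivity)
  have h6 : 6 * ρ < d := by
    rw [hρ, hd, show r / (7 * (N : ℝ)) = r / N / 7 by rw [div_div]; ring_nf]
    have : 0 < r / N := hdpos
    linarith
  -- the grid
  let g : (Fin 3 → Fin (N + 1)) → Fin 3 → ℝ := fun i k => x₀ k - r / 2 + (i k : ℕ) * d
  have hg : ∀ i, dist (g i) x₀ ≤ r / 2 := by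
    intro i
    rw [dist_pi_le_iff (by linarith)]
    intro k
    rw [Real.dist_eq]
    have h1 : ((i k : ℕ) : ℝ) ≤ N := by
      have := (i k).2
      exact_mod_cast Nat.lt_succ_iff.1 this
    have h2 : (0 : ℝ) ≤ (i k : ℕ) := Nat.cast_nonneg _
    have h3 : ((i k : ℕ) : ℝ) * d ≤ r := by
      calc ((i k : ℕ) : ℝ) * d ≤ N * d := by gcongr
        _ = r := by rw [hd]; field_simp
    have h4 : 0 ≤ ((i k : ℕ) : ℝ) * d := by positivity
    show |x₀ k - r / 2 + (i k : ℕ) * d - x₀ k| ≤ r / 2
    rw [abs_le]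
    constructor <;> linarith
  -- dominant coordinates
  have hdom : ∀ i : Fin N, ∃ k, ∀ j, |a i j| ≤ |a i k| := fun i => by
    obtain ⟨k, -, hk⟩ := Finset.exists_max_image Finset.univ (fun j => |a i j|)
      Finset.univ_nonempty
    exact ⟨k, fun j => hk j (Finset.mem_univ j)⟩
  choose k hk using hdom
  have hak : ∀ i, 0 < |a i (k i)| := by
    intro i
    rcases (abs_nonneg (a i (k i))).lt_or_eq with h | h
    · exact h
    · exfalso
      apply ha i
      funext j
      have := hk i j
      rw [← h] at this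
      exact abs_eq_zero.1 (le_antisymm this (abs_nonneg _))
  -- bad grid points
  let bad : Fin N → Finset (Fin 3 → Fin (N + 1)) := fun i =>
    Finset.univ.filter fun p => |∑ j, a i j * g p j - b i| ≤ 3 * ρ * |a i (k i)|
  have hbad : ∀ i, (bad i).card ≤ (N + 1) ^ 2 := by
    intro i
    have : (bad i).card ≤ (Finset.univ : Finset (Fin 2 → Fin (N + 1))).card := by
      apply Finset.card_le_card_of_injOn (fun p => fun m => p ((k i).succAbove m))
        (fun p _ => Finset.mem_univ _)
      intro p hp q hq hpq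
      simp only [bad, Finset.coe_filter, Finset.mem_univ, true_and, mem_ofPred_eq] at hp hq
      have hoff : ∀ j, j ≠ k i → p j = q j := by
        intro j hj
        obtain ⟨m, rfl⟩ := Fin.exists_succAbove_eq hj
        exact congrFun hpq m
      have hkk : p (k i) = q (k i) := by
        by_contra hne
        have hcast : (1 : ℝ) ≤ |((p (k i) : ℕ) : ℝ) - ((q (k i) : ℕ) : ℝ)| := by
          have hne' : ((p (k i) : ℕ) : ℤ) - ((q (k i) : ℕ) : ℤ) ≠ 0 := by
            intro h
            apply hne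
            apply Fin.ext
            omega
          have := Int.one_le_abs hne'
          have h2 : ((1 : ℤ) : ℝ) ≤ ((|((p (k i) : ℕ) : ℤ) - ((q (k i) : ℕ) : ℤ)| : ℤ) : ℝ) := by
            exact_mod_cast this
          push_cast at h2
          exact h2
        have hsum : (∑ j, a i j * g p j - b i) - (∑ j, a i j * g q j - b i) =
            a i (k i) * ((((p (k i) : ℕ) : ℝ) - ((q (k i) : ℕ) : ℝ)) * d) := by
          rw [sub_sub_sub_cancel_right, ← Finset.sum_sub_distrib,
            Finset.sum_eq_single (k i)]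
          · simp only [g]; ring
          · intro j _ hj
            simp only [g]
            rw [hoff j hj]; ring
          · intro h; exact absurd (Finset.mem_univ _) h
        have habs : |a i (k i)| * (|((p (k i) : ℕ) : ℝ) - ((q (k i) : ℕ) : ℝ)| * d) ≤
            6 * ρ * |a i (k i)| := by
          have e : |a i (k i) * ((((p (k i) : ℕ) : ℝ) - ((q (k i) : ℕ) : ℝ)) * d)| =
              |a i (k i)| * (|((p (k i) : ℕ) : ℝ) - ((q (k i) : ℕ) : ℝ)| * d) := by
            rw [abs_mul, abs_mul, abs_of_pos hdpos]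
          rw [← e, ← hsum]
          calc _ ≤ |∑ j, a i j * g p j - b i| + |∑ j, a i j * g q j - b i| := abs_sub _ _
            _ ≤ 3 * ρ * |a i (k i)| + 3 * ρ * |a i (k i)| := add_le_add hp hq
            _ = 6 * ρ * |a i (k i)| := by ring
        have h3 : |((p (k i) : ℕ) : ℝ) - ((q (k i) : ℕ) : ℝ)| * d ≤ 6 * ρ := by
          have := hak i
          by_contra hcon
          push Not at hcon
          nlinarith
        have : d ≤ 6 * ρ := by nlinarith
        linarith
      funext j
      by_cases hj : j = k i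
      · rw [hj]; exact hkk
      · exact hoff j hj
    refine this.trans ?_
    rw [Finset.card_univ, Fintype.card_fun, Fintype.card_fin, Fintype.card_fin]
  -- a good grid point
  obtain ⟨p, hp⟩ : ∃ p : Fin 3 → Fin (N + 1), ∀ i, p ∉ bad i := by
    by_contra hcon
    push Not at hcon
    have hcover : (Finset.univ : Finset (Fin 3 → Fin (N + 1))) ⊆ Finset.univ.biUnion bad := by
      intro p _
      obtain ⟨i, hi⟩ := hcon p
      exact Finset.mem_biUnion.2 ⟨i, Finset.mem_univ i, hi⟩
    have h1 := Finset.card_le_card hcover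
    have h2 : (Finset.univ.biUnion bad).card ≤ N * (N + 1) ^ 2 := by
      calc _ ≤ ∑ i, (bad i).card := Finset.card_biUnion_le
        _ ≤ ∑ _i : Fin N, (N + 1) ^ 2 := Finset.sum_le_sum fun i _ => hbad i
        _ = N * (N + 1) ^ 2 := by simp
    rw [Finset.card_univ, Fintype.card_fun, Fintype.card_fin, Fintype.card_fin] at h1
    have h3 : N * (N + 1) ^ 2 < (N + 1) ^ 3 := by
      calc N * (N + 1) ^ 2 < (N + 1) * (N + 1) ^ 2 := by
            apply Nat.mul_lt_mul_of_pos_right (Nat.lt_succ_self N) (by positivity)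
        _ = (N + 1) ^ 3 := by ring
    omega
  refine ⟨g p, hg p, fun i y hy hb => ?_⟩
  apply hp i
  simp only [bad, Finset.mem_filter, Finset.mem_univ, true_and]
  exact abs_eval_sub_le (a i) (b i) ρ (k i) (hk i) hy hb

/-- **[HOLE]**, arbitrary finite families of at most `N` planes -/
theorem exists_hole' {ι : Type*} (s : Finset ι) {N : ℕ} (hs : s.card ≤ N)
    (a : ι → Fin 3 → ℝ) (b : ι → ℝ) (ha : ∀ i ∈ s, a i ≠ 0) (x₀ : Fin 3 → ℝ) {r : ℝ}
    (hr : 0 < r) :
    ∃ c : Fin 3 → ℝ, dist c x₀ ≤ r / 2 ∧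
      ∀ i ∈ s, ∀ y : Fin 3 → ℝ, dist y c ≤ r / (7 * N) → ∑ k, a i k * y k ≠ b i := by
  classical
  rcases s.eq_empty_or_nonempty with h0 | hne
  · subst h0
    exact ⟨x₀, by rw [dist_self]; linarith, by simp⟩
  · have hpos : 0 < s.card := Finset.card_pos.2 hne
    obtain ⟨c, hc, hc'⟩ := exists_hole hpos (fun i => a (s.equivFin.symm i))
      (fun i => b (s.equivFin.symm i)) (fun i => ha _ (s.equivFin.symm i).2) x₀ hr
    refine ⟨c, hc, fun i hi y hy => ?_⟩
    have := hc' (s.equivFin ⟨i, hi⟩) y (hy.trans ?_)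
    · simpa using this
    · have h1 : (0 : ℝ) < s.card := by exact_mod_cast hpos
      have h2 : (s.card : ℝ) ≤ N := by exact_mod_cast hs
      gcongr

end Vale.Agent.P073.H716
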