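import Vale.Agent.P073.H716.Hole

/-!
# P073, block CUB2 = [HOLE], functional form
-/

open Set Metric

namespace Vale.Agent.P073.H716

/-- a linear functional in coordinates -/
theorem clm_eq_sum (φ : (Fin 3 → ℝ) →L[ℝ] ℝ) (y : Fin 3 → ℝ) :
    φ y = ∑ k, φ (Pi.single k 1) * y k := by
  have h : φ y = _ := (φ : (Fin 3 → ℝ) →ₗ[ℝ] ℝ).pi_apply_eq_sum_univ y
  rw [h]
  refine Finset.sum_congr rfl fun k _ => ?_
  rw [smul_eq_mul, mul_comm]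
  congr 1
  show φ _ = φ _
  congr 1
  funext j
  simp [Pi.single_apply, eq_comm]

/-- **[HOLE]**, functional form: at most `N` planes `{φ = c}` leave a hole of relative size
`1 / (7 N)` -/
theorem exists_hole_clm {N : ℕ} (s : Finset (((Fin 3 → ℝ) →L[ℝ] ℝ) × ℝ)) (hs : s.card ≤ N)
    (h0 : ∀ q ∈ s, q.1 ≠ 0) (z : Fin 3 → ℝ) {σ : ℝ} (hσ : 0 < σ) :
    ∃ c : Fin 3 → ℝ, ‖c - z‖ ≤ σ / 2 ∧ ∀ q ∈ s, ∀ y, q.1 y = q.2 → σ / (7 * N) < ‖y - c‖ := by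
  obtain ⟨c, hc, H⟩ := exists_hole' s hs (fun q k => q.1 (Pi.single k 1)) (fun q => q.2)
    (fun q hq hz => h0 q hq (by
      ext y
      rw [clm_eq_sum]
      rw [zero_apply]
      refine Finset.sum_eq_zero fun k _ => ?_
      have := congrFun hz k
      simp only [Pi.zero_apply] at this
      rw [this, zero_mul])) z hσ
  refine ⟨c, by rwa [← dist_eq_norm], fun q hq y hy => ?_⟩
  by_contra hcon
  push Not at hcon
  refine H q hq y (by rw [dist_eq_norm]; exact hcon) ?_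
  rw [← hy, clm_eq_sum]

/-- **[HOLE]** for at most six planes: `κ₀ = 1 / 42` -/
theorem exists_hole_six (s : Finset (((Fin 3 → ℝ) →L[ℝ] ℝ) × ℝ)) (hs : s.card ≤ 6)
    (h0 : ∀ q ∈ s, q.1 ≠ 0) (z : Fin 3 → ℝ) {σ : ℝ} (hσ : 0 < σ) :
    ∃ c : Fin 3 → ℝ, ‖c - z‖ ≤ σ / 2 ∧ ∀ q ∈ s, ∀ y, q.1 y = q.2 → 1 / 42 * σ < ‖y - c‖ := by
  obtain ⟨c, hc, H⟩ := exists_hole_clm s hs h0 z hσ
  refine ⟨c, hc, fun q hq y hy => ?_⟩
  have := H q hq y hy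
  have h2 : σ / (7 * ((6 : ℕ) : ℝ)) = 1 / 42 * σ := by norm_num; ring
  rwa [h2] at this

end Vale.Agent.P073.H716
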