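import Vale.Agent.P073.H716.Rows3

/-!
# P073 / H716: [ROWS-B], counting on a block with an exceptional set of squares
-/

open Set MeasureTheory Filter Finset

namespace Vale.Agent.P073.H716

variable {M : ℕ} {σ s c D ε lam r w h : ℝ} {X Y U ℓ v v' t δ : ℕ → ℕ → ℝ} {N : ℕ → ℕ → Prop}

/-- edges which are long before the last map -/
def Lg (r σ : ℝ) (v v' : ℕ → ℕ → ℝ) (b e : ℕ) : Prop := (1 + r) * σ < v b e + v' b e

namespace RowD

theorem long (H : RowD M σ s c D ε lam X Y U ℓ v v' t δ N) (hσ : 0 < σ)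
    (hlam : 0 < lam) (hlam1 : lam ≤ 1) (hs : s = lam ^ 2) {b : ℕ} (hb : b ≤ M)
    (hg : Gd M σ s δ b) : r * cnt M (Lg r σ v v' b) ≤ 4 * lam * M := by
  classical
  have hs0 : 0 ≤ s := by rw [hs]; positivity
  have hsl : s ≤ lam := by rw [hs]; nlinarith
  have hMσ : 0 ≤ (M : ℝ) * σ := by positivity
  have hV' := row_manh hσ hlam hlam1 hs (sum_le hσ hs0 hg) (H.ℓσ b hb) (H.fx b hb) (H.fm b hb)
    (H.net hb hg).1
  have hS := sum_le hσ hs0 hg
  have h1 : ∑ e ∈ (range M).filter (Lg r σ v v' b), r * σ ≤ ∑ e ∈ range M, (δ b e + v' b e) := by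
    refine (sum_le_sum fun e he => ?_).trans
      (sum_le_sum_of_subset_of_nonneg (filter_subset _ _) fun e he _ => ?_)
    · obtain ⟨he1, he2⟩ := Finset.mem_filter.1 he
      have heM := Finset.mem_range.1 he1
      have h2 := H.fv b hb e heM
      have h3 := H.ℓσ b hb e heM
      have h4 : (1 + r) * σ < v b e + v' b e := he2
      linarith
    · have h2 := H.δ0 b hb e (Finset.mem_range.1 he)
      have h3 := H.fv' b hb e (Finset.mem_range.1 he)
      linarith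
  rw [sum_const, nsmul_eq_mul, sum_add_distrib] at h1
  have h2 : s * (M * σ) ≤ lam * (M * σ) := by gcongr
  have h3 : (r * cnt M (Lg r σ v v' b)) * σ ≤ (4 * lam * M) * σ := by
    rw [cnt_eq]
    nlinarith
  exact le_of_mul_le_mul_right h3 hσ

/-- the sum of the long edges over all rows -/
theorem long_sum (H : RowD M σ s c D ε lam X Y U ℓ v v' t δ N) (hM : 0 < M) (hσ : 0 < σ)
    (hlam : 0 < lam) (hlam1 : lam ≤ 1) (hs : s = lam ^ 2) (hr : 0 < r) (hr1 : r ≤ 1) :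
    r * ∑ b ∈ range (M + 1), cnt M (Lg r σ v v' b) ≤ 9 * lam * (M * M) := by
  have hM' : (1:ℝ) ≤ M := by exact_mod_cast hM
  have hs0 : 0 < s := by rw [hs]; positivity
  have hsl : s ≤ lam := by rw [hs]; nlinarith
  have hbr := H.bad_rows hM hσ hs0
  have h4 := sum_rows (K := M + 1) (M := M) (p := Lg r σ v v') (g := Gd M σ s δ)
    (A := fun _ => 4 * lam * M / r)
    (fun b hb hg => by
      rw [le_div_iff₀ hr, mul_comm]
      exact H.long hσ hlam hlam1 hs (Nat.lt_succ_iff.1 hb) hg)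
    (fun b _ => by positivity)
  rw [sum_const, card_range, nsmul_eq_mul] at h4
  push_cast at h4
  have h9 : 0 ≤ cnt (M + 1) (fun b => ¬ Gd M σ s δ b) := cnt_nonneg _ _
  calc r * ∑ b ∈ range (M + 1), cnt M (Lg r σ v v' b) ≤ r *
        (((M:ℝ) + 1) * (4 * lam * M / r) + cnt (M + 1) (fun b => ¬ Gd M σ s δ b) * M) := by
        gcongr
    _ = ((M:ℝ) + 1) * (4 * lam * M) + r * (cnt (M + 1) (fun b => ¬ Gd M σ s δ b) * M) := by
        field_simp
    _ ≤ (2 * M) * (4 * lam * M) + 1 * ((s * M) * M) := by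
        gcongr
        linarith
    _ ≤ _ := by nlinarith

/-- the sum of the bad edges over all rows, `ω` larger -/
theorem bad_sumE (H : RowD M σ s c D ε lam X Y U ℓ v v' t δ N) (hM : 0 < M) (hσ : 0 < σ)
    (hc : 0 ≤ c) (hc4 : 4 * c ≤ 1) (hD : 0 ≤ D) (hlam : 0 < lam) (hlam1 : lam ≤ 1)
    (hs : s = lam ^ 2) (hε : ε ≤ s * σ) (hr : 0 < r) (hr1 : r ≤ 1) (hh : 0 < h) {ω : ℝ}
    (hω : 4 * s + 4 * c + 12 * (c * h / (M * σ)) ≤ ω) {T : ℕ → ℕ → Prop}
    (hT : ∑ b ∈ range M, cnt M (T b) ≤ (s + ω) * (M * M))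
    (hN : ∀ b ≤ M, ∀ e < M, N b e → Wz w h c X b e ∨ T (min b (M - 1)) e) :
    r * ∑ b ∈ range (M + 1), cnt M (Bd r σ Y t b) ≤
      (4 * c + (38 + 4 * D) * lam + 8 * D * ω + 6 * D * s + s) * (M * M) := by
  classical
  have hM' : (1:ℝ) ≤ M := by exact_mod_cast hM
  have hs0 : 0 < s := by rw [hs]; positivity
  have hs1 : s ≤ 1 := by rw [hs]; nlinarith
  have hκ : 0 ≤ c * h / (M * σ) := by positivity
  have hω0 : 0 ≤ ω := le_trans (by positivity) hω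
  have hbr : cnt (M + 1) (fun b => ¬ Gd M σ s δ b) * M ≤ s * (M * M) := by
    have := H.bad_rows hM hσ hs0
    calc cnt (M + 1) (fun b => ¬ Gd M σ s δ b) * M ≤ s * M * M := by gcongr
      _ = _ := by ring
  -- the zone
  have h1 : ∑ b ∈ range (M + 1), cnt M (Wz w h c X b) ≤ (2 * ω + s) * (M * M) := by
    have := sum_rows (K := M + 1) (M := M) (p := Wz w h c X) (g := Gd M σ s δ)
      (A := fun _ => ω * M)
      (fun b hb hg =>
        (H.zone hM hσ hs0 hs1 hh hc hc4 (Nat.lt_succ_iff.1 hb) hg).trans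
          (mul_le_mul_of_nonneg_right hω (by positivity)))
      (fun b _ => by positivity)
    rw [sum_const, card_range, nsmul_eq_mul] at this
    push_cast at this
    have h2 : ((M:ℝ) + 1) * (ω * M) ≤ (2 * M) * (ω * M) := by
      gcongr; linarith
    nlinarith
  -- the squares in the zone of the other walls
  have h2 : ∑ b ∈ range (M + 1), cnt M (fun e => T (min b (M - 1)) e) ≤
      2 * (s + ω) * (M * M) := by
    rw [sum_range_succ]
    have e1 : ∑ b ∈ range M, cnt M (fun e => T (min b (M - 1)) e) = ∑ b ∈ range M, cnt M (T b) := by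
      refine sum_congr rfl fun b hb => ?_
      have : min b (M - 1) = b := by
        have := Finset.mem_range.1 hb
        omega
      rw [this]
    have e2 : cnt M (fun e => T (min M (M - 1)) e) ≤ ∑ b ∈ range M, cnt M (T b) := by
      have h3 : min M (M - 1) = M - 1 := by omega
      rw [h3]
      exact single_le_sum (f := fun b => cnt M (T b)) (fun b _ => cnt_nonneg M (T b))
        (Finset.mem_range.2 (by omega))
    rw [e1]
    linarith
  have h3 : ∑ b ∈ range (M + 1), cnt M (N b) ≤ (4 * ω + 3 * s) * (M * M) := by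
    have : ∑ b ∈ range (M + 1), cnt M (N b) ≤ ∑ b ∈ range (M + 1),
        (cnt M (Wz w h c X b) + cnt M (fun e => T (min b (M - 1)) e)) := by
      refine sum_le_sum fun b hb => ?_
      exact (cnt_mono (hN b (Nat.lt_succ_iff.1 (Finset.mem_range.1 hb)))).trans (cnt_or M _ _)
    rw [sum_add_distrib] at this
    linarith
  -- the bad edges
  have h4 := sum_rows (K := M + 1) (M := M) (p := Bd r σ Y t) (g := Gd M σ s δ)
    (A := fun b => ((2 * c + (19 + 2 * D) * lam) * M + 2 * D * cnt M (N b)) / r)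
    (fun b hb hg => by
      rw [le_div_iff₀ hr, mul_comm]
      exact H.bad hσ hc (by linarith) hD hlam hlam1 hs hε hr.le (Nat.lt_succ_iff.1 hb) hg)
    (fun b _ => by
      have := cnt_nonneg M (N b)
      positivity)
  rw [← sum_div, sum_add_distrib, ← mul_sum _ (fun b => cnt M (N b)), sum_const, card_range,
    nsmul_eq_mul] at h4
  push_cast at h4
  have h5 : r * ∑ b ∈ range (M + 1), cnt M (Bd r σ Y t b) ≤
      ((M:ℝ) + 1) * ((2 * c + (19 + 2 * D) * lam) * M) +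
        2 * D * ∑ b ∈ range (M + 1), cnt M (N b) +
        r * (cnt (M + 1) (fun b => ¬ Gd M σ s δ b) * M) := by
    calc r * ∑ b ∈ range (M + 1), cnt M (Bd r σ Y t b) ≤ r *
          ((((M:ℝ) + 1) * ((2 * c + (19 + 2 * D) * lam) * M) +
            2 * D * ∑ b ∈ range (M + 1), cnt M (N b)) / r +
            cnt (M + 1) (fun b => ¬ Gd M σ s δ b) * M) := by gcongr
      _ = _ := by field_simp
  have h6 : ((M:ℝ) + 1) * ((2 * c + (19 + 2 * D) * lam) * M) ≤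
      (4 * c + (38 + 4 * D) * lam) * (M * M) := by
    have : ((M:ℝ) + 1) * ((2 * c + (19 + 2 * D) * lam) * M) ≤
        (2 * M) * ((2 * c + (19 + 2 * D) * lam) * M) := by
      gcongr; linarith
    refine this.trans (le_of_eq ?_)
    ring
  have h7 : 2 * D * ∑ b ∈ range (M + 1), cnt M (N b) ≤
      2 * D * ((4 * ω + 3 * s) * (M * M)) := by gcongr
  have h8 : r * (cnt (M + 1) (fun b => ¬ Gd M σ s δ b) * M) ≤ s * (M * M) := by
    have h9 : 0 ≤ cnt (M + 1) (fun b => ¬ Gd M σ s δ b) * M := by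
      have := cnt_nonneg (M + 1) (fun b => ¬ Gd M σ s δ b)
      positivity
    nlinarith
  calc _ ≤ _ := h5
    _ ≤ (4 * c + (38 + 4 * D) * lam) * (M * M) + 2 * D * ((4 * ω + 3 * s) * (M * M)) +
        s * (M * M) := add_le_add (add_le_add h6 h7) h8
    _ = _ := by ring

end RowD

/-- the final arithmetic -/
theorem arithE {r S A0 A1 AE B0 B0' B1 B1' L0 L0' L1 L1' ω K κ ε₂ : ℝ} (hr : 0 < r) (hr1 : r ≤ 1)
    (hK0 : 0 ≤ K) (hc : 0 ≤ c) (hD : 0 ≤ D) (hlam : 0 < lam) (hs0 : 0 < s) (hsl : s ≤ lam)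
    (hκ : 0 ≤ κ) (hε₂ : 0 ≤ ε₂) (hω : ω = 4 * s + 4 * c + 12 * κ + ε₂)
    (htot : S ≤ A0 + A1 + AE + (B0 + B0' + (B1 + B1')) + (L0 + L0' + (L1 + L1')))
    (a0 : A0 ≤ (s + ω) * K) (a1 : A1 ≤ (s + ω) * K) (aE : AE ≤ ε₂ * K)
    (b0 : r * B0 ≤ (4 * c + (38 + 4 * D) * lam + 8 * D * ω + 6 * D * s + s) * K)
    (b0' : r * B0' ≤ (4 * c + (38 + 4 * D) * lam + 8 * D * ω + 6 * D * s + s) * K)
    (b1 : r * B1 ≤ (4 * c + (38 + 4 * D) * lam + 8 * D * ω + 6 * D * s + s) * K)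
    (b1' : r * B1' ≤ (4 * c + (38 + 4 * D) * lam + 8 * D * ω + 6 * D * s + s) * K)
    (l0 : r * L0 ≤ 9 * lam * K) (l0' : r * L0' ≤ 9 * lam * K)
    (l1 : r * L1 ≤ 9 * lam * K) (l1' : r * L1' ≤ 9 * lam * K) :
    r * S ≤ 400 * (1 + D) * (lam + c + κ + ε₂) * K := by
  have hω0 : 0 ≤ ω := by rw [hω]; positivity
  have h1 := mul_le_mul_of_nonneg_left htot hr.le
  have h2 : ∀ {x : ℝ}, 0 ≤ x → r * (x * K) ≤ x * K := by
    intro x hx
    have : 0 ≤ x * K := by positivity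
    nlinarith
  have h3 : r * A0 ≤ (s + ω) * K :=
    (mul_le_mul_of_nonneg_left a0 hr.le).trans (h2 (by positivity))
  have h4 : r * A1 ≤ (s + ω) * K :=
    (mul_le_mul_of_nonneg_left a1 hr.le).trans (h2 (by positivity))
  have h5 : r * AE ≤ ε₂ * K :=
    (mul_le_mul_of_nonneg_left aE hr.le).trans (h2 (by positivity))
  have h9 : (2 * (s + ω) + ε₂ + 36 * lam +
      4 * (4 * c + (38 + 4 * D) * lam + 8 * D * ω + 6 * D * s + s)) ≤
      400 * (1 + D) * (lam + c + κ + ε₂) := by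
    rw [hω]
    have e1 : D * s ≤ D * lam := by gcongr
    have e2 : 0 ≤ D * lam := by positivity
    have e3 : 0 ≤ D * c := by positivity
    have e4 : 0 ≤ D * κ := by positivity
    have e5 : 0 ≤ D * ε₂ := by positivity
    nlinarith
  have h10 := mul_le_mul_of_nonneg_right h9 hK0
  have e5 : r * (A0 + A1 + AE + (B0 + B0' + (B1 + B1')) + (L0 + L0' + (L1 + L1'))) =
      r * A0 + r * A1 + r * AE + (r * B0 + r * B0' + (r * B1 + r * B1')) +
        (r * L0 + r * L0' + (r * L1 + r * L1')) := by ring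
  have e6 : (2 * (s + ω) + ε₂ + 36 * lam +
      4 * (4 * c + (38 + 4 * D) * lam + 8 * D * ω + 6 * D * s + s)) * K =
      (s + ω) * K + (s + ω) * K + ε₂ * K + 4 * (9 * lam * K) +
      4 * ((4 * c + (38 + 4 * D) * lam + 8 * D * ω + 6 * D * s + s) * K) := by ring
  linarith

/-- **[ROWS-B], the count**: most squares `(a, b)` of the block are not exceptional, do not touch
the zone of the walls and have four short, nearly monotone sides -/
theorem block_countE {X0 Y0 U0 ℓ0 v0 v0' t0 δ0 X1 Y1 U1 ℓ1 v1 v1' t1 δ1 : ℕ → ℕ → ℝ}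
    {N0 N1 T0 T1 E : ℕ → ℕ → Prop} {w0 w1 ε₂ : ℝ}
    (R0 : RowD M σ s c D ε lam X0 Y0 U0 ℓ0 v0 v0' t0 δ0 N0)
    (R1 : RowD M σ s c D ε lam X1 Y1 U1 ℓ1 v1 v1' t1 δ1 N1)
    (hM : 0 < M) (hσ : 0 < σ)
    (hc : 0 ≤ c) (hc4 : 4 * c ≤ 1) (hD : 0 ≤ D) (hlam : 0 < lam) (hlam1 : lam ≤ 1)
    (hs : s = lam ^ 2) (hε : ε ≤ s * σ) (hr : 0 < r) (hr1 : r ≤ 1) (hh : 0 < h)
    (hE : ∑ a ∈ range M, cnt M (E a) ≤ ε₂ * (M * M))
    (hT0 : ∀ a < M, ∀ b < M, T0 a b → Wz w0 h c X0 b a)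
    (hT1 : ∀ a < M, ∀ b < M, T1 a b → Wz w1 h c X1 a b)
    (hN0 : ∀ b ≤ M, ∀ e < M, N0 b e → Wz w0 h c X0 b e ∨
      (T1 e (min b (M - 1)) ∨ E e (min b (M - 1))))
    (hN1 : ∀ a ≤ M, ∀ e < M, N1 a e → Wz w1 h c X1 a e ∨
      (T0 (min a (M - 1)) e ∨ E (min a (M - 1)) e)) :
    r * ∑ a ∈ range M, cnt M (fun b => ((T0 a b ∨ T1 a b) ∨ E a b) ∨
      ((Bd r σ Y0 t0 b a ∨ Bd r σ Y0 t0 (b + 1) a) ∨
      (Bd r σ Y1 t1 a b ∨ Bd r σ Y1 t1 (a + 1) b)) ∨
      ((Lg r σ v0 v0' b a ∨ Lg r σ v0 v0' (b + 1) a) ∨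
      (Lg r σ v1 v1' a b ∨ Lg r σ v1 v1' (a + 1) b))) ≤
      400 * (1 + D) * (lam + c + c * h / (M * σ) + ε₂) * (M * M) := by
  have hM' : (0:ℝ) < M := by exact_mod_cast hM
  have hs0 : 0 < s := by rw [hs]; positivity
  have hs1 : s ≤ 1 := by rw [hs]; nlinarith
  have hsl : s ≤ lam := by rw [hs]; nlinarith
  have hκ : 0 ≤ c * h / (M * σ) := by positivity
  have hε₂ : 0 ≤ ε₂ := by
    have h1 : 0 ≤ ∑ a ∈ range M, cnt M (E a) := sum_nonneg fun a _ => cnt_nonneg _ _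
    by_contra hneg
    rw [not_le] at hneg
    have h2 : ε₂ * (M * M) < 0 := mul_neg_of_neg_of_pos hneg (by positivity)
    linarith
  obtain ⟨ω, hω⟩ : ∃ ω, ω = 4 * s + 4 * c + 12 * (c * h / (M * σ)) + ε₂ := ⟨_, rfl⟩
  have hω' : 4 * s + 4 * c + 12 * (c * h / (M * σ)) ≤ ω := by rw [hω]; linarith
  have a0 : ∑ b ∈ range M, cnt M (fun a => T0 a b) ≤
      (5 * s + 4 * c + 12 * (c * h / (M * σ))) * (M * M) :=
    R0.touch (T := fun b a => T0 a b) hM hσ hs0 hs1 hh hc hc4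
      fun b hb a ha => hT0 a ha b hb
  have a1 : ∑ a ∈ range M, cnt M (T1 a) ≤
      (5 * s + 4 * c + 12 * (c * h / (M * σ))) * (M * M) :=
    R1.touch (T := T1) hM hσ hs0 hs1 hh hc hc4
      fun a ha b hb => hT1 a ha b hb
  have a0' : ∑ a ∈ range M, cnt M (T0 a) ≤
      (5 * s + 4 * c + 12 * (c * h / (M * σ))) * (M * M) := by
    rw [cnt_swap]; exact a0
  have a1' : ∑ b ∈ range M, cnt M (fun a => T1 a b) ≤
      (5 * s + 4 * c + 12 * (c * h / (M * σ))) * (M * M) := by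
    rw [← cnt_swap]; exact a1
  have hE' : ∑ b ∈ range M, cnt M (fun a => E a b) ≤ ε₂ * (M * M) := by
    rw [← cnt_swap]; exact hE
  have e7 : (5 * s + 4 * c + 12 * (c * h / (M * σ))) * (M * M) + ε₂ * (M * M) =
      (s + ω) * ((M:ℝ) * M) := by rw [hω]; ring
  have hTE0 : ∑ a ∈ range M, cnt M (fun b => T0 a b ∨ E a b) ≤ (s + ω) * (M * M) := by
    refine (sum_le_sum fun a _ => cnt_or M _ _).trans ?_
    rw [sum_add_distrib, ← e7]
    exact add_le_add a0' hE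
  have hTE1 : ∑ b ∈ range M, cnt M (fun a => T1 a b ∨ E a b) ≤ (s + ω) * (M * M) := by
    refine (sum_le_sum fun a _ => cnt_or M _ _).trans ?_
    rw [sum_add_distrib, ← e7]
    exact add_le_add a1' hE'
  have b0 := R0.bad_sumE (w := w0) (T := fun b e => T1 e b ∨ E e b) hM hσ hc hc4 hD hlam hlam1 hs
    hε hr hr1 hh hω' hTE1 hN0
  have b1 := R1.bad_sumE (w := w1) (T := fun a e => T0 a e ∨ E a e) hM hσ hc hc4 hD hlam hlam1 hs
    hε hr hr1 hh hω' hTE0 hN1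
  have l0 := R0.long_sum hM hσ hlam hlam1 hs hr hr1
  have l1 := R1.long_sum hM hσ hlam hlam1 hs hr hr1
  have hsum : ∀ F : ℕ → ℝ, (∀ b, 0 ≤ F b) → ∑ b ∈ range M, F b ≤ ∑ b ∈ range (M + 1), F b :=
    fun F hF => sum_le_sum_of_subset_of_nonneg (range_mono (Nat.le_succ M)) fun b _ _ => hF b
  have hsum' : ∀ F : ℕ → ℝ, (∀ b, 0 ≤ F b) →
      ∑ b ∈ range M, F (b + 1) ≤ ∑ b ∈ range (M + 1), F b := by
    intro F hF
    rw [sum_range_succ']
    linarith [hF 0]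
  have q0 : ∀ P : ℕ → ℕ → Prop, ∑ a ∈ range M, cnt M (fun b => P b a) ≤
      ∑ b ∈ range (M + 1), cnt M (P b) := by
    intro P
    rw [cnt_swap M M fun a b => P b a]
    exact hsum (fun b => cnt M (P b)) fun b => cnt_nonneg _ _
  have q0' : ∀ P : ℕ → ℕ → Prop, ∑ a ∈ range M, cnt M (fun b => P (b + 1) a) ≤
      ∑ b ∈ range (M + 1), cnt M (P b) := by
    intro P
    rw [cnt_swap M M fun a b => P (b + 1) a]
    exact hsum' (fun b => cnt M (P b)) fun b => cnt_nonneg _ _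
  have q1 : ∀ P : ℕ → ℕ → Prop, ∑ a ∈ range M, cnt M (fun b => P a b) ≤
      ∑ a ∈ range (M + 1), cnt M (P a) := fun P =>
    hsum (fun b => cnt M (P b)) fun b => cnt_nonneg _ _
  have q1' : ∀ P : ℕ → ℕ → Prop, ∑ a ∈ range M, cnt M (fun b => P (a + 1) b) ≤
      ∑ a ∈ range (M + 1), cnt M (P a) := fun P =>
    hsum' (fun b => cnt M (P b)) fun b => cnt_nonneg _ _
  have htot : ∑ a ∈ range M, cnt M (fun b => ((T0 a b ∨ T1 a b) ∨ E a b) ∨
      ((Bd r σ Y0 t0 b a ∨ Bd r σ Y0 t0 (b + 1) a) ∨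
      (Bd r σ Y1 t1 a b ∨ Bd r σ Y1 t1 (a + 1) b)) ∨
      ((Lg r σ v0 v0' b a ∨ Lg r σ v0 v0' (b + 1) a) ∨
      (Lg r σ v1 v1' a b ∨ Lg r σ v1 v1' (a + 1) b))) ≤
      ∑ a ∈ range M, (cnt M (T0 a) + cnt M (T1 a) + cnt M (E a) +
        (cnt M (fun b => Bd r σ Y0 t0 b a) + cnt M (fun b => Bd r σ Y0 t0 (b + 1) a) +
          (cnt M (fun b => Bd r σ Y1 t1 a b) + cnt M (fun b => Bd r σ Y1 t1 (a + 1) b))) +
        (cnt M (fun b => Lg r σ v0 v0' b a) + cnt M (fun b => Lg r σ v0 v0' (b + 1) a) +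
          (cnt M (fun b => Lg r σ v1 v1' a b) + cnt M (fun b => Lg r σ v1 v1' (a + 1) b)))) := by
    refine sum_le_sum fun a _ => ?_
    have o1 := cnt_or M (fun b => (T0 a b ∨ T1 a b) ∨ E a b)
      (fun b => ((Bd r σ Y0 t0 b a ∨ Bd r σ Y0 t0 (b + 1) a) ∨
      (Bd r σ Y1 t1 a b ∨ Bd r σ Y1 t1 (a + 1) b)) ∨
      ((Lg r σ v0 v0' b a ∨ Lg r σ v0 v0' (b + 1) a) ∨
      (Lg r σ v1 v1' a b ∨ Lg r σ v1 v1' (a + 1) b)))
    have o2 := cnt_or M (fun b => T0 a b ∨ T1 a b) (E a)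
    have o3 := cnt_or M (T0 a) (T1 a)
    have o4 := cnt_or M (fun b => (Bd r σ Y0 t0 b a ∨ Bd r σ Y0 t0 (b + 1) a) ∨
      (Bd r σ Y1 t1 a b ∨ Bd r σ Y1 t1 (a + 1) b))
      (fun b => (Lg r σ v0 v0' b a ∨ Lg r σ v0 v0' (b + 1) a) ∨
      (Lg r σ v1 v1' a b ∨ Lg r σ v1 v1' (a + 1) b))
    have o5 := cnt_or M (fun b => Bd r σ Y0 t0 b a ∨ Bd r σ Y0 t0 (b + 1) a)
      (fun b => Bd r σ Y1 t1 a b ∨ Bd r σ Y1 t1 (a + 1) b)
    have o6 := cnt_or M (fun b => Bd r σ Y0 t0 b a) (fun b => Bd r σ Y0 t0 (b + 1) a)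
    have o7 := cnt_or M (fun b => Bd r σ Y1 t1 a b) (fun b => Bd r σ Y1 t1 (a + 1) b)
    have o8 := cnt_or M (fun b => Lg r σ v0 v0' b a ∨ Lg r σ v0 v0' (b + 1) a)
      (fun b => Lg r σ v1 v1' a b ∨ Lg r σ v1 v1' (a + 1) b)
    have o9 := cnt_or M (fun b => Lg r σ v0 v0' b a) (fun b => Lg r σ v0 v0' (b + 1) a)
    have o10 := cnt_or M (fun b => Lg r σ v1 v1' a b) (fun b => Lg r σ v1 v1' (a + 1) b)
    linarith
  simp only [sum_add_distrib] at htot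
  have hsω : (5 * s + 4 * c + 12 * (c * h / (M * σ))) * ((M:ℝ) * M) ≤ (s + ω) * (M * M) := by
    rw [← e7]
    have : 0 ≤ ε₂ * ((M:ℝ) * M) := by positivity
    linarith
  exact arithE hr hr1 (by positivity) hc hD hlam hs0 hsl hκ hε₂ hω htot (a0'.trans hsω)
    (a1.trans hsω) hE
    ((mul_le_mul_of_nonneg_left (q0 _) hr.le).trans b0)
    ((mul_le_mul_of_nonneg_left (q0' _) hr.le).trans b0)
    ((mul_le_mul_of_nonneg_left (q1 _) hr.le).trans b1)
    ((mul_le_mul_of_nonneg_left (q1' _) hr.le).trans b1)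
    ((mul_le_mul_of_nonneg_left (q0 _) hr.le).trans l0)
    ((mul_le_mul_of_nonneg_left (q0' _) hr.le).trans l0)
    ((mul_le_mul_of_nonneg_left (q1 _) hr.le).trans l1)
    ((mul_le_mul_of_nonneg_left (q1' _) hr.le).trans l1)

end Vale.Agent.P073.H716
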