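import Vale.Agent.P073.H716.SpecRows
import Vale.Agent.P073.H716.RB1

/-!
# P073 / H716: [ROWS-B], the rows of the middle plane in terms of lengths
-/

open Set MeasureTheory Filter Finset
open scoped ENNReal NNReal

namespace Vale.Agent.P073.H716

open Vale.Agent.P073
open Vale.Agent.P073.St (V euc)
open Vale.Agent.P073.SQ (ev)
open Vale.Agent.P073.AB
open Vale.Agent.P073.H73 (onSeg segP)
open Vale.Agent.P073.H239 (tv)
open Vale.Agent.P073.H235 (rect redge Free NearMon ShortH)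
open _root_.P073.Net (len edist_toLp euc_nonneg norm_le_euc eVariationOn_le_of_edist)

/-- the situation on the middle plane, in terms of lengths. `γ`: the map with small errors,
`h`: the map before the last one, `g`: the last map; `c`: margin -/
structure RowB (p D D₁ c ε β : ℝ) (v : V) (nS mt : ℕ) (a b : Fin 3 → ℤ)
    (G : Finset (Fin 3 → ℤ)) (f γ h g : V → V) (ℓ X : Idx × Fin 3 → ℝ≥0∞) : Prop where
  alt : a 0 < b 0
  quad : b 1 - a 1 = b 0 - a 0
  size : b 0 - a 0 ≤ 2 ^ nS ∧ (2:ℤ) ^ nS ≤ 2 * (b 0 - a 0)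
  Gsub : G ⊆ rect a b
  area : ((rect a b \ G).card : ℝ) / 4 ^ nS ≤ ε
  near : ∀ k ∈ rect a b, ∀ x ∈ squ v ((nS, k), 2), ‖γ x - f x‖ ≤ D * ε
  nearg : ∀ k ∈ rect a b, ∀ x ∈ squ v ((nS, k), 2), ‖g x - f x‖ ≤ D * ε
  osc : ∀ k ∈ rect a b, ∀ x ∈ squ v ((nS, k), 2), ∀ y ∈ squ v ((nS, k), 2),
    ‖γ x - γ y‖ ≤ c / 2 ^ mt
  lenγ : ∀ i, i ≠ 2 → ∀ k ∈ redge a b i,
    len (onSeg γ (segP v ((nS, k), i))) (Icc 0 1) ≤ ℓ ((nS, k), i)
  len : ∀ i, i ≠ 2 → ∀ k ∈ redge a b i,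
    ℓ ((nS, k), i) ≤ ENNReal.ofReal ((1 + ε) / 2 ^ nS) + 2 * X ((nS, k), i)
  disp : ∀ i, i ≠ 2 → ∀ k ∈ redge a b i,
    ENNReal.ofReal (1 / 2 ^ nS - (f (segP v ((nS, k), i)).2 i - f (segP v ((nS, k), i)).1 i)) ≤
      X ((nS, k), i)
  close : ∑ i ∈ Finset.univ.erase (2 : Fin 3), ∑ k ∈ redge a b i,
    ENNReal.ofReal (1 / 2 ^ nS) * (ENNReal.ofReal ((1 / 2 ^ nS) ^ (1 - p)) *
      X ((nS, k), i) ^ p) ≤ ENNReal.ofReal ε
  tvg : ∀ i, i ≠ 2 → ∀ k ∈ redge a b i, tv g (segP v ((nS, k), i)) Finset.univ ≤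
    ENNReal.ofReal D₁ * ℓ ((nS, k), i) + ENNReal.ofReal (β / 2 ^ nS)
  free : ∀ k ∈ G, Free c v nS mt γ k → Free c v nS mt h k ∧ ∀ e : Idx × Fin 3,
    EdgeOfSq e ((nS, k), 2) →
      tv h (segP v e) (Finset.univ.erase 2) = tv γ (segP v e) (Finset.univ.erase 2)
  tv : ∀ k ∈ G, Free c v nS mt h k → ∀ e : Idx × Fin 3, EdgeOfSq e ((nS, k), 2) →
    tv g (segP v e) Finset.univ ≤
      ENNReal.ofReal (1 + c) * tv h (segP v e) (Finset.univ.erase 2) +
        ENNReal.ofReal (β / 2 ^ nS)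

variable {p D D₁ c ε β : ℝ} {v : V} {nS mt : ℕ} {a b : Fin 3 → ℤ} {G : Finset (Fin 3 → ℤ)}
  {f γ h g : V → V} {ℓ X : Idx × Fin 3 → ℝ≥0∞} {i j : Fin 3}

namespace RowB

theorem dimM (H : RowB p D D₁ c ε β v nS mt a b G f γ h g ℓ X) (hi : i ≠ 2) :
    (b i - a i).toNat = (b 0 - a 0).toNat := by
  rcases dir_cases hi with rfl | rfl
  · rfl
  · rw [H.quad]

theorem lt (H : RowB p D D₁ c ε β v nS mt a b G f γ h g ℓ X) (hi : i ≠ 2) : a i < b i := by
  have h1 := H.alt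
  have h2 := H.quad
  rcases dir_cases hi with rfl | rfl
  · exact h1
  · omega

theorem Mpos (H : RowB p D D₁ c ε β v nS mt a b G f γ h g ℓ X) : 0 < (b 0 - a 0).toNat := by
  have h1 := H.alt
  omega

theorem Mle (H : RowB p D D₁ c ε β v nS mt a b G f γ h g ℓ X) :
    ((b 0 - a 0).toNat : ℝ) * (1 / 2 ^ nS) ≤ 1 := by
  have h1 := H.alt
  have h3 : (((b 0 - a 0).toNat : ℕ) : ℤ) ≤ 2 ^ nS := by
    rw [Int.toNat_of_nonneg (by omega)]; exact H.size.1
  have h4 : ((b 0 - a 0).toNat : ℝ) ≤ 2 ^ nS := by exact_mod_cast h3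
  rw [mul_one_div, div_le_one (by positivity)]
  exact h4

theorem Mge (H : RowB p D D₁ c ε β v nS mt a b G f γ h g ℓ X) :
    1 / 2 ≤ ((b 0 - a 0).toNat : ℝ) * (1 / 2 ^ nS) := by
  have h1 := H.alt
  have h3 : (2:ℤ) ^ nS ≤ 2 * (((b 0 - a 0).toNat : ℕ) : ℤ) := by
    rw [Int.toNat_of_nonneg (by omega)]; exact H.size.2
  have h4 : (2:ℝ) ^ nS ≤ 2 * ((b 0 - a 0).toNat : ℝ) := by exact_mod_cast h3
  rw [mul_one_div, div_le_div_iff₀ two_pos (by positivity)]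
  linarith

theorem card_le (H : RowB p D D₁ c ε β v nS mt a b G f γ h g ℓ X) (hij : i ≠ j) (hi : i ≠ 2)
    (hj : j ≠ 2) : ((redge a b i).card : ℝ) * (1 / 2 ^ nS) ^ 2 ≤ 2 := by
  have h1 := sum_redge (a := a) (b := b) (E := ℕ) hij hi hj (H.lt hj) (fun _ => 1)
  simp only [sum_const, card_range, smul_eq_mul, mul_one] at h1
  rw [H.dimM hi, H.dimM hj] at h1
  have h2 := H.Mle
  have h4 : (0:ℝ) ≤ ((b 0 - a 0).toNat : ℝ) * (1 / 2 ^ nS) := by positivity
  have h5 : (1:ℝ) / 2 ^ nS ≤ 1 := by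
    rw [div_le_one (by positivity)]
    exact one_le_pow₀ (by norm_num)
  have h3 : ((((b 0 - a 0).toNat + 1 : ℕ)) : ℝ) * (1 / 2 ^ nS) ≤ 2 := by
    push_cast
    linarith
  rw [h1, Nat.cast_mul]
  calc _ = (((((b 0 - a 0).toNat + 1 : ℕ)) : ℝ) * (1 / 2 ^ nS)) *
        (((b 0 - a 0).toNat : ℝ) * (1 / 2 ^ nS)) := by ring
    _ ≤ 2 * 1 := mul_le_mul h3 h2 h4 (by norm_num)
    _ = 2 := by norm_num

theorem sumX (H : RowB p D D₁ c ε β v nS mt a b G f γ h g ℓ X) (hp : 1 ≤ p) {la : ℝ}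
    (hl : 0 < la) (hε : ε ≤ la ^ p) (hij : i ≠ j) (hi : i ≠ 2) (hj : j ≠ 2) :
    ∑ k ∈ redge a b i, ENNReal.ofReal (1 / 2 ^ nS) * X ((nS, k), i) ≤
      ENNReal.ofReal (3 * la) := by
  have hσ : (0:ℝ) < 1 / 2 ^ nS := by positivity
  have h1 : ∑ k ∈ redge a b i, ENNReal.ofReal (1 / 2 ^ nS) *
      (ENNReal.ofReal ((1 / 2 ^ nS) ^ (1 - p)) * X ((nS, k), i) ^ p) ≤ ENNReal.ofReal (la ^ p) :=
    ((Finset.single_le_sum (f := fun i => ∑ k ∈ redge a b i, ENNReal.ofReal (1 / 2 ^ nS) *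
      (ENNReal.ofReal ((1 / 2 ^ nS) ^ (1 - p)) * X ((nS, k), i) ^ p)) (fun _ _ => zero_le)
      (Finset.mem_erase.2 ⟨hi, Finset.mem_univ i⟩)).trans H.close).trans
      (ENNReal.ofReal_le_ofReal hε)
  have h2 : ((redge a b i).card : ℝ≥0∞) * ENNReal.ofReal (la * (1 / 2 ^ nS) ^ 2) ≤
      ENNReal.ofReal (2 * la) := by
    rw [← ENNReal.ofReal_natCast, ← ENNReal.ofReal_mul (by positivity)]
    refine ENNReal.ofReal_le_ofReal ?_
    have h3 := mul_le_mul_of_nonneg_left (H.card_le hij hi hj) hl.le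
    linarith
  have h3 : ENNReal.ofReal (la ^ (1 - p)) * ENNReal.ofReal (la ^ p) = ENNReal.ofReal la := by
    rw [← ENNReal.ofReal_mul (by positivity), ← Real.rpow_add hl]
    simp
  calc _ ≤ ∑ k ∈ redge a b i, (ENNReal.ofReal (la * (1 / 2 ^ nS) ^ 2) +
        ENNReal.ofReal (la ^ (1 - p)) * (ENNReal.ofReal (1 / 2 ^ nS) *
          (ENNReal.ofReal ((1 / 2 ^ nS) ^ (1 - p)) * X ((nS, k), i) ^ p))) :=
        sum_le_sum fun k _ => lin_le hp hσ hl _
    _ = (redge a b i).card * ENNReal.ofReal (la * (1 / 2 ^ nS) ^ 2) +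
        ENNReal.ofReal (la ^ (1 - p)) * ∑ k ∈ redge a b i, ENNReal.ofReal (1 / 2 ^ nS) *
          (ENNReal.ofReal ((1 / 2 ^ nS) ^ (1 - p)) * X ((nS, k), i) ^ p) := by
        rw [sum_add_distrib, sum_const, nsmul_eq_mul, ← mul_sum]
    _ ≤ ENNReal.ofReal (2 * la) + ENNReal.ofReal (la ^ (1 - p)) * ENNReal.ofReal (la ^ p) := by
        gcongr
    _ = ENNReal.ofReal (3 * la) := by
        rw [h3, ← ENNReal.ofReal_add (by positivity) hl.le]
        congr 1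
        ring

theorem Xfin (H : RowB p D D₁ c ε β v nS mt a b G f γ h g ℓ X) (hp : 1 ≤ p) {la : ℝ}
    (hl : 0 < la) (hε : ε ≤ la ^ p) (hij : i ≠ j) (hi : i ≠ 2) (hj : j ≠ 2)
    {k : Fin 3 → ℤ} (hk : k ∈ redge a b i) : X ((nS, k), i) ≠ ⊤ := by
  intro hcon
  have h1 := (single_le_sum (f := fun k => ENNReal.ofReal (1 / 2 ^ nS) * X ((nS, k), i))
    (fun _ _ => zero_le) hk).trans (H.sumX hp hl hε hij hi hj)
  have h2 : ENNReal.ofReal (1 / 2 ^ nS) ≠ 0 := by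
    simp only [ne_eq, ENNReal.ofReal_eq_zero, not_le]; positivity
  simp only [hcon, ENNReal.mul_top h2, top_le_iff] at h1
  exact ENNReal.ofReal_ne_top h1

theorem eta (H : RowB p D D₁ c ε β v nS mt a b G f γ h g ℓ X) (hp : 1 ≤ p) {la : ℝ}
    (hl : 0 < la) (hε : ε ≤ la ^ p) (hij : i ≠ j) (hi : i ≠ 2) (hj : j ≠ 2) :
    ∑ k ∈ redge a b i, (1 / 2 ^ nS) * (X ((nS, k), i)).toReal ≤ 3 * la := by
  have h1 := H.sumX hp hl hε hij hi hj
  have h2 : ∑ k ∈ redge a b i, (1 / 2 ^ nS) * (X ((nS, k), i)).toReal =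
      (∑ k ∈ redge a b i, ENNReal.ofReal (1 / 2 ^ nS) * X ((nS, k), i)).toReal := by
    rw [ENNReal.toReal_sum fun k hk => ENNReal.mul_ne_top ENNReal.ofReal_ne_top
      (H.Xfin hp hl hε hij hi hj hk)]
    refine sum_congr rfl fun k _ => ?_
    rw [ENNReal.toReal_mul, ENNReal.toReal_ofReal (by positivity)]
  rw [h2]
  exact ENNReal.toReal_le_of_le_ofReal (by positivity) h1

end RowB

/-! ### one edge -/

theorem evar_le_len (q : ℝ → V) (s : Set ℝ) (l : Fin 3) :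
    eVariationOn (fun t => q t l) s ≤ len q s := by
  have := eVariationOn_le_of_edist (f := fun t => q t l)
    (g := fun t => (WithLp.toLp 2 (q t) : EuclideanSpace ℝ (Fin 3))) (s := s) (C := 1)
    (fun x _ y _ => by
      rw [edist_toLp, one_mul, edist_dist, Real.dist_eq]
      refine ENNReal.ofReal_le_ofReal (le_trans ?_ (norm_le_euc _))
      have := norm_le_pi_norm (q x - q y) l
      rwa [Real.norm_eq_abs, Pi.sub_apply] at this)
  rwa [one_mul] at this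

theorem tv_le_len (q : V → V) (e : V × V) (A : Finset (Fin 3)) :
    tv q e A ≤ 3 * len (onSeg q e) (Icc 0 1) := by
  unfold H239.tv
  refine (sum_le_sum fun l _ => evar_le_len (onSeg q e) (Icc 0 1) l).trans ?_
  rw [sum_const, nsmul_eq_mul]
  gcongr
  have := Finset.card_le_card (Finset.subset_univ A)
  simp only [Finset.card_univ, Fintype.card_fin] at this
  exact_mod_cast this

theorem tv_erase (hij : i ≠ j) (hi : i ≠ 2) (hj : j ≠ 2) (q : V → V) (e : V × V) :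
    tv q e (Finset.univ.erase 2) = eVariationOn (fun t => onSeg q e t i) (Icc 0 1) +
      eVariationOn (fun t => onSeg q e t j) (Icc 0 1) := by
  have e1 : (Finset.univ.erase (2 : Fin 3)) = {i, j} := by revert i j; decide
  unfold H239.tv
  rw [e1, Finset.sum_pair hij]

theorem disp_le_evar (g : V → V) (e : V × V) (i : Fin 3) :
    ENNReal.ofReal |g e.2 i - g e.1 i| ≤ eVariationOn (fun t => onSeg g e t i) (Icc 0 1) := by
  have h1 := eVariationOn.edist_le (fun t => onSeg g e t i)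
    (Set.right_mem_Icc.2 (zero_le_one' ℝ)) (Set.left_mem_Icc.2 (zero_le_one' ℝ))
  have e2 : edist (onSeg g e 1 i) (onSeg g e 0 i) = ENNReal.ofReal |g e.2 i - g e.1 i| := by
    rw [edist_dist, Real.dist_eq]
    simp only [onSeg, one_smul, zero_smul, add_zero, add_sub_cancel]
  rw [e2] at h1
  exact h1

/-! ### the rows -/

/-- values at the vertices -/
noncomputable def qX (F : V → V) (v : V) (nS : ℕ) (a : Fin 3 → ℤ) (i j : Fin 3) (b e : ℕ) : ℝ :=
  F (pt v nS (pos i j a e b)) i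

/-- quantities of the edges -/
noncomputable def qE (F : Idx × Fin 3 → ℝ≥0∞) (nS : ℕ) (a : Fin 3 → ℤ) (i j : Fin 3)
    (b e : ℕ) : ℝ := (F ((nS, pos i j a e b), i)).toReal

/-- variations on the edges -/
noncomputable def eV (γ : V → V) (v : V) (l : Fin 3) (e : Idx × Fin 3) : ℝ≥0∞ :=
  eVariationOn (fun t => onSeg γ (segP v e) t l) (Icc 0 1)

namespace RowB

variable (H : RowB p D D₁ c ε β v nS mt a b G f γ h g ℓ X)

include H

theorem posR (hij : i ≠ j) (hi : i ≠ 2) (hj : j ≠ 2) {n m : ℕ}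
    (hn : n < (b 0 - a 0).toNat) (hm : m < (b 0 - a 0).toNat) : pos i j a n m ∈ rect a b := by
  refine pos_mem_rect hij hi hj ?_ ?_
  · rw [H.dimM hi]; exact hn
  · rw [H.dimM hj]; exact hm

theorem posE (hij : i ≠ j) (hi : i ≠ 2) (hj : j ≠ 2) {n m : ℕ}
    (hn : n < (b 0 - a 0).toNat) (hm : m ≤ (b 0 - a 0).toNat) : pos i j a n m ∈ redge a b i := by
  refine pos_mem_redge hij hi hj (H.lt hj) ?_ ?_
  · rw [H.dimM hi]; exact hn
  · rw [H.dimM hj]; exact hm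

/-- every vertex is in a square -/
theorem vert (hij : i ≠ j) (hi : i ≠ 2) (hj : j ≠ 2) {n m : ℕ}
    (hn : n ≤ (b 0 - a 0).toNat) (hm : m ≤ (b 0 - a 0).toNat) :
    ∃ k ∈ rect a b, pt v nS (pos i j a n m) ∈ squ v ((nS, k), 2) := by
  have hM := H.Mpos
  rcases Nat.lt_or_ge n (b 0 - a 0).toNat with hn' | hn'
  · have hs := side_pos (nS := nS) (n := n) (a := a) hij hi hj hM hm
    have h1 := S308.edge_sub_squ (v := v) hs (left_mem_edge v _)
    rw [segP_pos hij] at h1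
    exact ⟨_, H.posR hij hi hj hn' (by omega), h1⟩
  · obtain ⟨n', rfl⟩ : ∃ n', n = n' + 1 := ⟨n - 1, by omega⟩
    have hs := side_pos (nS := nS) (n := n') (a := a) hij hi hj hM hm
    have h1 := S308.edge_sub_squ (v := v) hs (right_mem_edge v _)
    rw [segP_pos hij] at h1
    exact ⟨_, H.posR hij hi hj (by omega) (by omega), h1⟩

theorem lfin (hX : ∀ k ∈ redge a b i, X ((nS, k), i) ≠ ⊤) (hi : i ≠ 2) {k : Fin 3 → ℤ}
    (hk : k ∈ redge a b i) : ℓ ((nS, k), i) ≠ ⊤ :=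
  ne_top_of_le_ne_top (ENNReal.add_ne_top.2 ⟨ENNReal.ofReal_ne_top,
    ENNReal.mul_ne_top (by norm_num) (hX k hk)⟩) (H.len i hi k hk)

theorem vfin (hX : ∀ k ∈ redge a b i, X ((nS, k), i) ≠ ⊤) (hi : i ≠ 2) {k : Fin 3 → ℤ}
    (hk : k ∈ redge a b i) (l : Fin 3) : eV γ v l ((nS, k), i) ≠ ⊤ :=
  ne_top_of_le_ne_top (H.lfin hX hi hk) ((evar_le_len _ _ l).trans (H.lenγ i hi k hk))

theorem tfin (hX : ∀ k ∈ redge a b i, X ((nS, k), i) ≠ ⊤) (hi : i ≠ 2) {k : Fin 3 → ℤ}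
    (hk : k ∈ redge a b i) : H239.tv g (segP v ((nS, k), i)) Finset.univ ≠ ⊤ :=
  ne_top_of_le_ne_top (ENNReal.add_ne_top.2 ⟨ENNReal.mul_ne_top ENNReal.ofReal_ne_top
    (H.lfin hX hi hk), ENNReal.ofReal_ne_top⟩) (H.tvg i hi k hk)

/-- **the data of the rows of direction `i`** -/
theorem rowD (hij : i ≠ j) (hi : i ≠ 2) (hj : j ≠ 2) (hc : 0 ≤ c) (hε : 0 ≤ ε) (hβ : 0 ≤ β)
    (hD₁ : 0 ≤ D₁)
    (hX : ∀ k ∈ redge a b i, X ((nS, k), i) ≠ ⊤) {η s lam : ℝ} (hs : 0 < s) (hlam : 0 < lam)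
    (hlam1 : lam ≤ 1)
    (hη : ∑ k ∈ redge a b i, (1 / 2 ^ nS) * (X ((nS, k), i)).toReal ≤ η)
    (hη' : 32 * η ≤ s ^ 2) (hε' : 8 * ε ≤ s ^ 2) (hDε : D * ε ≤ s / 8) :
    RowD (b 0 - a 0).toNat (1 / 2 ^ nS) s c D₁ (β / 2 ^ nS) lam (qX γ v nS a i j)
      (qX g v nS a i j) (qX f v nS a i j) (qE ℓ nS a i j) (qE (eV γ v i) nS a i j)
      (qE (eV γ v j) nS a i j)
      (qE (fun e => H239.tv g (segP v e) Finset.univ) nS a i j)
      (fun b e => 2 * qE X nS a i j b e + ε / 2 ^ nS)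
      (fun b e => ¬ GoodE c v nS mt γ G i (pos i j a e b)) := by
  have hσ : (0:ℝ) < 1 / 2 ^ nS := by positivity
  have hM := H.Mpos
  have hM0 : (1:ℝ) ≤ (b 0 - a 0).toNat := by exact_mod_cast hM
  have hMge := H.Mge
  have hq : ∀ (F : Idx × Fin 3 → ℝ≥0∞) (b e : ℕ), 0 ≤ qE F nS a i j b e :=
    fun F b e => ENNReal.toReal_nonneg
  have hC : 0 ≤ 1 / (2 * lam) - lam / 2 := by
    rw [sub_nonneg, div_le_div_iff₀ two_pos (by positivity)]
    nlinarith
  constructor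
  · intro m _ n _
    have := hq X m n
    positivity
  · -- the sum
    set M := (b 0 - a 0).toNat with hMd
    have e1 : ∑ m ∈ range (M + 1), ∑ n ∈ range M, (2 * qE X nS a i j m n + ε / 2 ^ nS) =
        2 * ∑ k ∈ redge a b i, (X ((nS, k), i)).toReal + (M + 1) * M * (ε / 2 ^ nS) := by
      rw [sum_redge hij hi hj (H.lt hj), H.dimM hi, H.dimM hj]
      simp only [sum_add_distrib, ← mul_sum, sum_const, card_range, nsmul_eq_mul]
      rw [← hMd]
      push_cast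
      simp only [qE]
      ring
    rw [e1]
    have h1 : ∑ k ∈ redge a b i, (1 / 2 ^ nS) * (X ((nS, k), i)).toReal =
        (1 / 2 ^ nS) * ∑ k ∈ redge a b i, (X ((nS, k), i)).toReal := by rw [mul_sum]
    rw [h1] at hη
    have hMσ : 1 / 4 ≤ ((M:ℝ) * (1 / 2 ^ nS)) ^ 2 := by nlinarith
    have h2 : 2 * ∑ k ∈ redge a b i, (X ((nS, k), i)).toReal ≤ s ^ 2 / 4 * (M * M * (1 / 2 ^ nS)) := by
      have h3 : (1 / 2 ^ nS) * (2 * ∑ k ∈ redge a b i, (X ((nS, k), i)).toReal) ≤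
          (1 / 2 ^ nS) * (s ^ 2 / 4 * (M * M * (1 / 2 ^ nS))) := by
        calc _ = 2 * ((1 / 2 ^ nS) * ∑ k ∈ redge a b i, (X ((nS, k), i)).toReal) := by ring
          _ ≤ 2 * η := by linarith
          _ ≤ s ^ 2 / 4 * (1 / 4) := by linarith
          _ ≤ s ^ 2 / 4 * ((M:ℝ) * (1 / 2 ^ nS)) ^ 2 := by gcongr
          _ = _ := by ring
      exact le_of_mul_le_mul_left h3 hσ
    have h3 : ((M:ℝ) + 1) * M * (ε / 2 ^ nS) ≤ s ^ 2 / 4 * (M * M * (1 / 2 ^ nS)) := by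
      calc ((M:ℝ) + 1) * M * (ε / 2 ^ nS) ≤ (2 * M) * M * (ε / 2 ^ nS) := by
            gcongr; linarith
        _ = 2 * ε * (M * M * (1 / 2 ^ nS)) := by ring
        _ ≤ s ^ 2 / 4 * (M * M * (1 / 2 ^ nS)) := by gcongr; linarith
    linarith
  · intro m hm n hn
    have hk := H.posE hij hi hj hn hm
    have h1 := H.len i hi _ hk
    have h2 : ENNReal.ofReal ((1 + ε) / 2 ^ nS) + 2 * X ((nS, pos i j a n m), i) =
        ENNReal.ofReal ((1 + ε) / 2 ^ nS + 2 * (X ((nS, pos i j a n m), i)).toReal) := by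
      rw [ENNReal.ofReal_add (by positivity) (by positivity), ENNReal.ofReal_mul (by norm_num),
        ENNReal.ofReal_toReal (hX _ hk)]
      norm_num
    rw [h2] at h1
    have h3 := ENNReal.toReal_le_of_le_ofReal (by positivity) h1
    have e : (1 + ε) / 2 ^ nS = 1 / 2 ^ nS + ε / 2 ^ nS := by ring
    rw [e] at h3
    show (ℓ ((nS, pos i j a n m), i)).toReal ≤
      1 / 2 ^ nS + (2 * (X ((nS, pos i j a n m), i)).toReal + ε / 2 ^ nS)
    linarith
  · intro m hm n hn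
    have hk := H.posE hij hi hj hn hm
    have h1 := H.disp i hi _ hk
    rw [segP_pos hij, ENNReal.ofReal_le_iff_le_toReal (hX _ hk)] at h1
    have h2 : 0 ≤ (X ((nS, pos i j a n m), i)).toReal := ENNReal.toReal_nonneg
    have h3 : 0 ≤ ε / 2 ^ nS := by positivity
    show 1 / 2 ^ nS - (2 * (X ((nS, pos i j a n m), i)).toReal + ε / 2 ^ nS) ≤
      f (pt v nS (pos i j a (n + 1) m)) i - f (pt v nS (pos i j a n m)) i
    linarith
  · intro m hm n hn
    obtain ⟨k, hk, hx⟩ := H.vert (i := i) (j := j) hij hi hj hn hm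
    have h1 := H.near k hk _ hx
    have h2 := norm_le_pi_norm (γ (pt v nS (pos i j a n m)) - f (pt v nS (pos i j a n m))) i
    rw [Real.norm_eq_abs, Pi.sub_apply] at h2
    have h3 : s * (1 / 2) ≤ s * (((b 0 - a 0).toNat : ℝ) * (1 / 2 ^ nS)) := by gcongr
    show |γ (pt v nS (pos i j a n m)) i - f (pt v nS (pos i j a n m)) i| ≤ _
    linarith
  · intro m hm n hn
    obtain ⟨k, hk, hx⟩ := H.vert (i := i) (j := j) hij hi hj hn hm
    have h1 := H.nearg k hk _ hx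
    have h2 := norm_le_pi_norm (g (pt v nS (pos i j a n m)) - f (pt v nS (pos i j a n m))) i
    rw [Real.norm_eq_abs, Pi.sub_apply] at h2
    have h3 : s * (1 / 2) ≤ s * (((b 0 - a 0).toNat : ℝ) * (1 / 2 ^ nS)) := by gcongr
    show |g (pt v nS (pos i j a n m)) i - f (pt v nS (pos i j a n m)) i| ≤ _
    linarith
  · intro m hm n hn
    have hk := H.posE hij hi hj hn hm
    have h1 := disp_le_evar γ (segP v ((nS, pos i j a n m), i)) i
    have h2 := H.vfin hX hi hk i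
    unfold eV at h2
    rw [ENNReal.ofReal_le_iff_le_toReal h2] at h1
    show |γ (pt v nS (pos i j a (n + 1) m)) i - γ (pt v nS (pos i j a n m)) i| ≤
      (eV γ v i ((nS, pos i j a n m), i)).toReal
    unfold eV
    rw [segP_pos hij] at h1 ⊢
    exact h1
  · intro m hm n hn
    have hk := H.posE hij hi hj hn hm
    exact ENNReal.toReal_mono (H.lfin hX hi hk) ((evar_le_len _ _ i).trans (H.lenγ i hi _ hk))
  · intro m _ n _
    exact hq _ m n
  · intro m hm n hn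
    have hk := H.posE hij hi hj hn hm
    have h1 := manhattan (q := onSeg γ (segP v ((nS, pos i j a n m), i))) zero_le_one hij hlam hlam1
    have h2 := h1.trans (mul_le_mul_right (H.lenγ i hi _ hk) _)
    have h3 := ENNReal.toReal_mono (ENNReal.mul_ne_top ENNReal.ofReal_ne_top (H.lfin hX hi hk)) h2
    have v1 := H.vfin hX hi hk i
    have v2 := H.vfin hX hi hk j
    unfold eV at v1 v2
    rw [ENNReal.toReal_mul, ENNReal.toReal_ofReal (by positivity),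
      ENNReal.toReal_add v2 (ENNReal.mul_ne_top ENNReal.ofReal_ne_top v1), ENNReal.toReal_mul,
      ENNReal.toReal_ofReal hC] at h3
    exact h3
  · intro m hm n hn
    have hk := H.posE hij hi hj hn hm
    have h1 := disp_le_tv g (segP v ((nS, pos i j a n m), i)) i
    rw [ENNReal.ofReal_le_iff_le_toReal (H.tfin hX hi hk)] at h1
    have h2 := (le_abs_self _).trans h1
    show g (pt v nS (pos i j a (n + 1) m)) i - g (pt v nS (pos i j a n m)) i ≤
      (H239.tv g (segP v ((nS, pos i j a n m), i)) Finset.univ).toReal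
    rw [segP_pos hij] at h2 ⊢
    exact h2
  · intro m hm n hn
    have hk := H.posE hij hi hj hn hm
    have h1 := ENNReal.toReal_mono (ENNReal.add_ne_top.2 ⟨ENNReal.mul_ne_top ENNReal.ofReal_ne_top
      (H.lfin hX hi hk), ENNReal.ofReal_ne_top⟩) (H.tvg i hi _ hk)
    rw [ENNReal.toReal_add (ENNReal.mul_ne_top ENNReal.ofReal_ne_top (H.lfin hX hi hk))
      ENNReal.ofReal_ne_top, ENNReal.toReal_mul, ENNReal.toReal_ofReal hD₁,
      ENNReal.toReal_ofReal (by positivity)] at h1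
    exact h1
  · intro m hm n hn hN
    have hk := H.posE hij hi hj hn hm
    rw [not_not] at hN
    obtain ⟨k', hk', hF, he⟩ := hN
    obtain ⟨hF', htv⟩ := H.free k' hk' hF
    have h1 := H.tv k' hk' hF' _ he
    rw [htv _ he, tv_erase hij hi hj] at h1
    have v1 := H.vfin hX hi hk i
    have v2 := H.vfin hX hi hk j
    unfold eV at v1 v2
    have h2 := ENNReal.toReal_mono (ENNReal.add_ne_top.2 ⟨ENNReal.mul_ne_top ENNReal.ofReal_ne_top
      (ENNReal.add_ne_top.2 ⟨v1, v2⟩), ENNReal.ofReal_ne_top⟩) h1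
    rw [ENNReal.toReal_add (ENNReal.mul_ne_top ENNReal.ofReal_ne_top
      (ENNReal.add_ne_top.2 ⟨v1, v2⟩)) ENNReal.ofReal_ne_top, ENNReal.toReal_mul,
      ENNReal.toReal_ofReal (by positivity), ENNReal.toReal_add v1 v2,
      ENNReal.toReal_ofReal (by positivity)] at h2
    exact h2

end RowB

end Vale.Agent.P073.H716
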