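import Vale.Agent.P073.H716.RB2

/-!
# P073 / H716: [ROWS-B], the count
-/

open Set MeasureTheory Filter Finset
open scoped ENNReal NNReal

namespace Vale.Agent.P073.H716

open Vale.Agent.P073
open Vale.Agent.P073.St (V euc)
open Vale.Agent.P073.SQ (ev)
open Vale.Agent.P073.AB
open Vale.Agent.P073.H73 (onSeg segP)
open Vale.Agent.P073.H239 (tv)
open Vale.Agent.P073.H235 (rect redge Free NearMon ShortH)
open _root_.P073.Net (len)

variable {p D D₁ c ε β : ℝ} {v : V} {nS mt : ℕ} {a b : Fin 3 → ℤ} {G : Finset (Fin 3 → ℤ)}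
  {f γ h g : V → V} {ℓ X : Idx × Fin 3 → ℝ≥0∞} {i j : Fin 3}

/-- the whole square is near one wall -/
def Zs (c : ℝ) (v : V) (nS mt : ℕ) (γ : V → V) (i : Fin 3) (k : Fin 3 → ℤ) : Prop :=
  ∃ z : ℤ, ∀ y ∈ squ v ((nS, k), 2), |γ y i - z / 2 ^ mt| ≤ 2 * c / 2 ^ mt

theorem zs_of_not_free (hc : 0 ≤ c) {k : Fin 3 → ℤ}
    (hO : ∀ x ∈ squ v ((nS, k), 2), ∀ y ∈ squ v ((nS, k), 2), ‖γ x - γ y‖ ≤ c / 2 ^ mt)
    (hF : ¬ Free c v nS mt γ k) : ∃ i : Fin 3, i ≠ 2 ∧ Zs c v nS mt γ i k := by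
  by_contra hcon
  push Not at hcon
  apply hF
  have h2 : (0:ℝ) < 2 ^ mt := by positivity
  have hch : 0 ≤ c / 2 ^ mt := by positivity
  have s1 : pt v nS k ∈ squ v ((nS, k), 2) := by
    have he : EdgeOfSq ((nS, k), 0) ((nS, k), 2) :=
      ⟨rfl, (by decide : (0 : Fin 3) ≠ 2), rfl, rfl, fun l _ _ => Or.inl rfl⟩
    exact S308.edge_sub_squ he (left_mem_edge v _)
  refine ⟨fun i => ⌊γ (pt v nS k) i * 2 ^ mt⌋, fun x hx i hi => ?_⟩
  have hno := hcon i hi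
  set z := ⌊γ (pt v nS k) i * 2 ^ mt⌋ with hz
  have z1 : (z : ℝ) / 2 ^ mt ≤ γ (pt v nS k) i := by
    rw [div_le_iff₀ h2]; exact Int.floor_le _
  have z2 : γ (pt v nS k) i < ((z : ℝ) + 1) / 2 ^ mt := by
    rw [lt_div_iff₀ h2]; exact Int.lt_floor_add_one _
  have hosc : ∀ y ∈ squ v ((nS, k), 2), ∀ y' ∈ squ v ((nS, k), 2),
      |γ y i - γ y' i| ≤ c / 2 ^ mt := by
    intro y hy y' hy'
    have h3 := norm_le_pi_norm (γ y - γ y') i
    rw [Real.norm_eq_abs, Pi.sub_apply] at h3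
    exact h3.trans (hO y hy y' hy')
  have hx0 : ∀ y ∈ squ v ((nS, k), 2), |γ y i - γ (pt v nS k) i| ≤ c / 2 ^ mt :=
    fun y hy => hosc y hy _ s1
  have e1 : ((z : ℝ) + c) / 2 ^ mt = z / 2 ^ mt + c / 2 ^ mt := by ring
  have e2 : ((z : ℝ) + 1 - c) / 2 ^ mt = (z + 1) / 2 ^ mt - c / 2 ^ mt := by ring
  have e3 : 2 * c / 2 ^ mt = c / 2 ^ mt + c / 2 ^ mt := by ring
  constructor
  · by_contra hlt
    push Not at hlt
    rw [e1] at hlt
    apply hno
    refine ⟨z, fun y hy => ?_⟩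
    have h3 := abs_le.1 (hosc y hy x hx)
    have h4 := abs_le.1 (hx0 y hy)
    rw [e3, abs_le]
    constructor <;> linarith [h3.1, h3.2, h4.1, h4.2]
  · by_contra hlt
    push Not at hlt
    rw [e2] at hlt
    apply hno
    refine ⟨z + 1, fun y hy => ?_⟩
    have h3 := abs_le.1 (hosc y hy x hx)
    have h4 := abs_le.1 (hx0 y hy)
    push_cast
    rw [e3, abs_le]
    constructor <;> linarith [h3.1, h3.2, h4.1, h4.2]

/-- the two ends of a side of a square near a wall are in the zone -/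
theorem wz_of_zs (hij : i ≠ j) {k : Fin 3 → ℤ} {m n : ℕ} (hZ : Zs c v nS mt γ i k)
    (he : EdgeOfSq ((nS, pos i j a n m), i) ((nS, k), 2)) :
    Wz 0 (1 / 2 ^ mt) c (qX γ v nS a i j) m n := by
  obtain ⟨z, hz⟩ := hZ
  have h1 := hz _ (S308.edge_sub_squ he (left_mem_edge v _))
  have h2 := hz _ (S308.edge_sub_squ he (right_mem_edge v _))
  rw [segP_pos hij] at h1 h2
  refine ⟨z, ?_, ?_⟩
  · rw [zero_add, mul_one_div, mul_one_div]; exact h1
  · rw [zero_add, mul_one_div, mul_one_div]; exact h2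

theorem pos_comm (hij : i ≠ j) (n m : ℕ) : pos i j a n m = pos j i a m n := by
  unfold pos
  rw [Function.update_comm hij]

theorem self_side (hij : i ≠ j) (hi : i ≠ 2) (hj : j ≠ 2) (k : Fin 3 → ℤ) :
    EdgeOfSq ((nS, k), i) ((nS, k), 2) := (edgeOfSq_iff hij hi hj).2 (Or.inl rfl)

namespace RowB

variable (H : RowB p D D₁ c ε β v nS mt a b G f γ h g ℓ X)

include H

theorem notGood (hc : 0 ≤ c) (hij : i ≠ j) (hi : i ≠ 2) (hj : j ≠ 2) {m n : ℕ}
    (hm : m ≤ (b 0 - a 0).toNat)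
    (hN : ¬ GoodE c v nS mt γ G i (pos i j a n m)) :
    Wz 0 (1 / 2 ^ mt) c (qX γ v nS a i j) m n ∨
      (Zs c v nS mt γ j (pos i j a n (min m ((b 0 - a 0).toNat - 1))) ∨
        pos i j a n (min m ((b 0 - a 0).toNat - 1)) ∉ G) := by
  have hs := side_pos (nS := nS) (n := n) (a := a) hij hi hj H.Mpos hm
  by_cases hG : pos i j a n (min m ((b 0 - a 0).toNat - 1)) ∈ G
  · have hF : ¬ Free c v nS mt γ (pos i j a n (min m ((b 0 - a 0).toNat - 1))) :=
      fun hF => hN ⟨_, hG, hF, hs⟩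
    obtain ⟨l, hl, hZ⟩ := zs_of_not_free hc (H.osc _ (H.Gsub hG)) hF
    rcases cs3 hij hi hj l with rfl | rfl | rfl
    · exact Or.inl (wz_of_zs hij hZ hs)
    · exact Or.inr (Or.inl hZ)
    · exact absurd rfl hl
  · exact Or.inr (Or.inr hG)

/-- a side which is not bad -/
theorem side_ok (hij : i ≠ j) (hi : i ≠ 2) (hj : j ≠ 2) {r : ℝ} (hr : 0 ≤ r)
    (hX : ∀ k ∈ redge a b i, X ((nS, k), i) ≠ ⊤) {m n : ℕ}
    (hm : m ≤ (b 0 - a 0).toNat) (hn : n < (b 0 - a 0).toNat)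
    (h1 : ¬ Bd r (1 / 2 ^ nS) (qX g v nS a i j)
      (qE (fun e => H239.tv g (segP v e) Finset.univ) nS a i j) m n)
    (h2 : ¬ Lg r (1 / 2 ^ nS) (qE (eV γ v i) nS a i j) (qE (eV γ v j) nS a i j) m n) :
    ((1 - r) / 2 ^ nS ≤ g (segP v ((nS, pos i j a n m), i)).2 i -
        g (segP v ((nS, pos i j a n m), i)).1 i ∧
      H239.tv g (segP v ((nS, pos i j a n m), i)) Finset.univ ≤
        ENNReal.ofReal ((1 + r) / 2 ^ nS)) ∧
      H239.tv γ (segP v ((nS, pos i j a n m), i)) (Finset.univ.erase 2) ≤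
        ENNReal.ofReal ((1 + r) / 2 ^ nS) := by
  have hk := H.posE hij hi hj hn hm
  have v1 := H.vfin hX hi hk i
  have v2 := H.vfin hX hi hk j
  unfold eV at v1 v2
  unfold Bd at h1
  unfold Lg at h2
  rw [not_or, not_lt, not_lt, mul_one_div, mul_one_div] at h1
  rw [not_lt, mul_one_div] at h2
  refine ⟨⟨?_, ?_⟩, ?_⟩
  · have h3 := h1.1
    unfold qX at h3
    rw [segP_pos hij]
    exact h3
  · rw [ENNReal.le_ofReal_iff_toReal_le (H.tfin hX hi hk) (by positivity)]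
    exact h1.2
  · rw [tv_erase hij hi hj, ENNReal.le_ofReal_iff_toReal_le (ENNReal.add_ne_top.2 ⟨v1, v2⟩)
      (by positivity), ENNReal.toReal_add v1 v2]
    exact h2

open Classical in
/-- **the count** -/
theorem count (hp : 1 ≤ p) (hc : 0 ≤ c) (hc4 : 4 * c ≤ 1) (hε : 0 ≤ ε) (hβ : 0 ≤ β)
    (hD₁ : 0 ≤ D₁) {r s lam la : ℝ} (hr : 0 < r) (hr1 : r ≤ 1) (hlam : 0 < lam)
    (hlam1 : lam ≤ 1) (hs : s = lam ^ 2) (hla : 0 < la) (hla' : ε ≤ la ^ p)
    (hη : 96 * la ≤ s ^ 2) (hε' : 8 * ε ≤ s ^ 2) (hDε : D * ε ≤ s / 8) (hβ' : β ≤ s) :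
    (((rect a b).filter fun k => ¬ (k ∈ G ∧ Free c v nS mt h k ∧ NearMon r v nS g k ∧
      ShortH r v nS h k)).card : ℝ) / 4 ^ nS ≤
      400 * (1 + D₁) * (lam + 3 * c + 4 * ε) / r := by
  have hs0 : 0 < s := by rw [hs]; positivity
  have h01 : (0 : Fin 3) ≠ 1 := by decide
  have h02 : (0 : Fin 3) ≠ 2 := by decide
  have h12 : (1 : Fin 3) ≠ 2 := by decide
  set M := (b 0 - a 0).toNat with hMd
  have hM : 0 < M := H.Mpos
  have hMge := H.Mge
  have hMle := H.Mle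
  rw [← hMd] at hMge hMle
  have hσ : (0:ℝ) < 1 / 2 ^ nS := by positivity
  have hX0 : ∀ k ∈ redge a b 0, X ((nS, k), 0) ≠ ⊤ :=
    fun k hk => H.Xfin hp hla hla' h01 h02 h12 hk
  have hX1 : ∀ k ∈ redge a b 1, X ((nS, k), 1) ≠ ⊤ :=
    fun k hk => H.Xfin hp hla hla' h01.symm h12 h02 hk
  have hη' : 32 * (3 * la) ≤ s ^ 2 := by linarith
  have R0 := H.rowD (i := 0) (j := 1) h01 h02 h12 hc hε hβ hD₁ hX0 hs0 hlam hlam1
    (H.eta hp hla hla' h01 h02 h12) hη' hε' hDε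
  have R1 := H.rowD (i := 1) (j := 0) h01.symm h12 h02 hc hε hβ hD₁ hX1 hs0 hlam hlam1
    (H.eta hp hla hla' h01.symm h12 h02) hη' hε' hDε
  have e5 : (1 / 2 ^ nS : ℝ) ^ 2 = 1 / 4 ^ nS := by
    rw [div_pow, one_pow, ← pow_mul, mul_comm nS 2, pow_mul]; norm_num
  -- the exceptional squares
  have hE : ∑ n ∈ range M, cnt M (fun m => pos 0 1 a n m ∉ G) ≤ (4 * ε) * (M * M) := by
    have e1 : ∑ n ∈ range M, cnt M (fun m => pos 0 1 a n m ∉ G) = ((rect a b \ G).card : ℝ) := by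
      have h1 := sum_rect (a := a) (b := b) (E := ℝ) h01.symm h12 h02
        (fun k => if k ∉ G then (1:ℝ) else 0)
      rw [H.dimM h12, ← hMd] at h1
      have e2 : rect a b \ G = (rect a b).filter fun k => k ∉ G := by
        ext k; simp [Finset.mem_sdiff, Finset.mem_filter]
      rw [e2, card_filter]
      push_cast
      rw [h1]
      refine sum_congr rfl fun n _ => ?_
      rw [cnt_eq, card_filter]
      push_cast
      refine sum_congr rfl fun m _ => ?_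
      rw [pos_comm h01]
    rw [e1]
    have h1 := H.area
    rw [div_le_iff₀ (by positivity)] at h1
    have h2 : (4:ℝ) ^ nS ≤ 4 * (M * M) := by
      have h3 : (2:ℝ) ^ nS ≤ 2 * M := by
        rw [mul_one_div, div_le_div_iff₀ two_pos (by positivity)] at hMge
        linarith
      have h4 : (4:ℝ) ^ nS = 2 ^ nS * 2 ^ nS := by
        rw [← mul_pow]; norm_num
      rw [h4]
      have h5 : (0:ℝ) < 2 ^ nS := by positivity
      nlinarith
    calc _ ≤ ε * 4 ^ nS := h1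
      _ ≤ ε * (4 * (M * M)) := by gcongr
      _ = _ := by ring
  have hN0 : ∀ m ≤ M, ∀ n < M, ¬ GoodE c v nS mt γ G 0 (pos 0 1 a n m) →
      Wz 0 (1 / 2 ^ mt) c (qX γ v nS a 0 1) m n ∨
        (Zs c v nS mt γ 1 (pos 0 1 a n (min m (M - 1))) ∨
          pos 0 1 a n (min m (M - 1)) ∉ G) :=
    fun m hm n _ hN => H.notGood hc h01 h02 h12 hm hN
  have hN1 : ∀ m ≤ M, ∀ n < M, ¬ GoodE c v nS mt γ G 1 (pos 1 0 a n m) →
      Wz 0 (1 / 2 ^ mt) c (qX γ v nS a 1 0) m n ∨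
        (Zs c v nS mt γ 0 (pos 0 1 a (min m (M - 1)) n) ∨
          pos 0 1 a (min m (M - 1)) n ∉ G) := by
    intro m hm n _ hN
    have h1 := H.notGood hc h01.symm h12 h02 hm hN
    rw [pos_comm h01.symm n (min m ((b 0 - a 0).toNat - 1))] at h1
    exact h1
  have hcount := block_countE (E := fun n m => pos 0 1 a n m ∉ G)
    (T0 := fun n m => Zs c v nS mt γ 0 (pos 0 1 a n m))
    (T1 := fun n m => Zs c v nS mt γ 1 (pos 0 1 a n m)) (w0 := 0) (w1 := 0)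
    (h := 1 / 2 ^ mt) (r := r) (ε₂ := 4 * ε) R0 R1 hM hσ hc hc4 hD₁ hlam hlam1 hs
    (by rw [mul_one_div]; gcongr) hr hr1 (by positivity) hE
    (fun n _ m _ hT => wz_of_zs h01 hT (self_side h01 h02 h12 _))
    (fun n _ m _ hT => wz_of_zs h01.symm hT (by
      rw [pos_comm h01.symm]; exact self_side h01.symm h12 h02 _)) hN0 hN1
  -- the bad squares
  have hB : (((rect a b).filter fun k => ¬ (k ∈ G ∧ Free c v nS mt h k ∧ NearMon r v nS g k ∧
      ShortH r v nS h k)).card : ℝ) ≤ ∑ n ∈ range M, cnt M (fun m =>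
      ((Zs c v nS mt γ 0 (pos 0 1 a n m) ∨ Zs c v nS mt γ 1 (pos 0 1 a n m)) ∨
        pos 0 1 a n m ∉ G) ∨
      ((Bd r (1 / 2 ^ nS) (qX g v nS a 0 1)
        (qE (fun e => H239.tv g (segP v e) Finset.univ) nS a 0 1) m n ∨
        Bd r (1 / 2 ^ nS) (qX g v nS a 0 1)
        (qE (fun e => H239.tv g (segP v e) Finset.univ) nS a 0 1) (m + 1) n) ∨
      (Bd r (1 / 2 ^ nS) (qX g v nS a 1 0)
        (qE (fun e => H239.tv g (segP v e) Finset.univ) nS a 1 0) n m ∨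
        Bd r (1 / 2 ^ nS) (qX g v nS a 1 0)
        (qE (fun e => H239.tv g (segP v e) Finset.univ) nS a 1 0) (n + 1) m)) ∨
      ((Lg r (1 / 2 ^ nS) (qE (eV γ v 0) nS a 0 1) (qE (eV γ v 1) nS a 0 1) m n ∨
        Lg r (1 / 2 ^ nS) (qE (eV γ v 0) nS a 0 1) (qE (eV γ v 1) nS a 0 1) (m + 1) n) ∨
      (Lg r (1 / 2 ^ nS) (qE (eV γ v 1) nS a 1 0) (qE (eV γ v 0) nS a 1 0) n m ∨
        Lg r (1 / 2 ^ nS) (qE (eV γ v 1) nS a 1 0) (qE (eV γ v 0) nS a 1 0) (n + 1) m))) := by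
    have h1 := sum_rect (a := a) (b := b) (E := ℝ) h01.symm h12 h02
      (fun k => if ¬ (k ∈ G ∧ Free c v nS mt h k ∧ NearMon r v nS g k ∧
        ShortH r v nS h k) then (1:ℝ) else 0)
    rw [H.dimM h12, ← hMd] at h1
    rw [card_filter]
    push_cast
    rw [h1]
    refine sum_le_sum fun n hn => ?_
    have hn' := Finset.mem_range.1 hn
    have e1 : ∑ m ∈ range M, (if ¬ (pos 1 0 a m n ∈ G ∧ Free c v nS mt h (pos 1 0 a m n) ∧
        NearMon r v nS g (pos 1 0 a m n) ∧ ShortH r v nS h (pos 1 0 a m n)) then (1:ℝ) else 0) =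
        cnt M (fun m => ¬ (pos 1 0 a m n ∈ G ∧ Free c v nS mt h (pos 1 0 a m n) ∧
        NearMon r v nS g (pos 1 0 a m n) ∧ ShortH r v nS h (pos 1 0 a m n))) := by
      rw [cnt_eq, card_filter]
      push_cast
      rfl
    rw [e1]
    refine cnt_mono fun m hm hbad => ?_
    by_contra hcon
    simp only [not_or, not_not] at hcon
    obtain ⟨⟨⟨hz0, hz1⟩, hG⟩, ⟨⟨b1, b2⟩, b3, b4⟩, ⟨l1, l2⟩, l3, l4⟩ := hcon
    apply hbad
    rw [pos_comm h01.symm]
    have hF : Free c v nS mt γ (pos 0 1 a n m) := by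
      by_contra hF
      obtain ⟨l, hl, hZ⟩ := zs_of_not_free hc (H.osc _ (H.Gsub hG)) hF
      rcases dir_cases hl with rfl | rfl
      · exact hz0 hZ
      · exact hz1 hZ
    obtain ⟨hF', htv⟩ := H.free _ hG hF
    have c1 := H.side_ok h01 h02 h12 hr.le hX0 (m := m) (n := n) hm.le hn' b1 l1
    have c2 := H.side_ok h01 h02 h12 hr.le hX0 (m := m + 1) (n := n) hm hn' b2 l2
    have c3 := H.side_ok h01.symm h12 h02 hr.le hX1 (m := n) (n := m) hn'.le hm b3 l3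
    have c4 := H.side_ok h01.symm h12 h02 hr.le hX1 (m := n + 1) (n := m) hn' hm b4 l4
    have hall : ∀ e : Idx × Fin 3, EdgeOfSq e ((nS, pos 0 1 a n m), 2) →
        ((1 - r) / 2 ^ nS ≤ g (segP v e).2 e.2 - g (segP v e).1 e.2 ∧
        H239.tv g (segP v e) Finset.univ ≤ ENNReal.ofReal ((1 + r) / 2 ^ nS)) ∧
        H239.tv γ (segP v e) (Finset.univ.erase 2) ≤ ENNReal.ofReal ((1 + r) / 2 ^ nS) := by
      rintro ⟨⟨n', k'⟩, i⟩ he
      have hn'' : n' = nS := he.1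
      subst hn''
      have hi : i ≠ 2 := he.2.1
      rcases dir_cases hi with rfl | rfl
      · rcases (edgeOfSq_iff h01 h02 h12).1 he with rfl | rfl
        · exact c1
        · rw [update_pos]; exact c2
      · rcases (edgeOfSq_iff h01.symm h12 h02).1 he with rfl | rfl
        · rw [pos_comm h01]; exact c3
        · rw [pos_comm h01, update_pos]; exact c4
    refine ⟨hG, hF', fun e he => (hall e he).1, fun e he => ?_⟩
    rw [htv e he]
    exact (hall e he).2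
  have h4 : (0:ℝ) < 4 ^ nS := by positivity
  have h5 : c * (1 / 2 ^ mt) / (M * (1 / 2 ^ nS)) ≤ 2 * c := by
    rw [div_le_iff₀ (by positivity)]
    have h6 : (1:ℝ) / 2 ^ mt ≤ 1 := by
      rw [div_le_one (by positivity)]
      exact one_le_pow₀ (by norm_num)
    calc c * (1 / 2 ^ mt) ≤ c * 1 := by gcongr
      _ = 2 * c * (1 / 2) := by ring
      _ ≤ _ := by gcongr
  have h6 : r * (((rect a b).filter fun k => ¬ (k ∈ G ∧ Free c v nS mt h k ∧
      NearMon r v nS g k ∧ ShortH r v nS h k)).card : ℝ) ≤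
      400 * (1 + D₁) * (lam + 3 * c + 4 * ε) * (M * M) := by
    refine (mul_le_mul_of_nonneg_left hB hr.le).trans (hcount.trans ?_)
    rw [← hMd]
    have h7 : lam + c + c * (1 / 2 ^ mt) / (M * (1 / 2 ^ nS)) + 4 * ε ≤
        lam + 3 * c + 4 * ε := by linarith
    exact mul_le_mul_of_nonneg_right (mul_le_mul_of_nonneg_left h7 (by positivity))
      (by positivity)
  have h7 : (M:ℝ) * M ≤ 4 ^ nS := by
    have h3 : (M:ℝ) ≤ 2 ^ nS := by
      rw [mul_one_div, div_le_one (by positivity)] at hMle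
      exact hMle
    have h4 : (4:ℝ) ^ nS = 2 ^ nS * 2 ^ nS := by
      rw [← mul_pow]; norm_num
    rw [h4]
    gcongr
  rw [div_le_div_iff₀ h4 hr, mul_comm]
  refine h6.trans ?_
  gcongr

end RowB

end Vale.Agent.P073.H716
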