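import Mathlib

/-!
# P073 / H716: [R2e], one row of edges (real numbers only)
-/

open Set MeasureTheory Filter Finset

namespace Vale.Agent.P073.H716

/-! ### the zone of the walls -/

/-- the points within `2 c h` of the walls `w + k h` -/
def Zn (w h c : ℝ) : Set ℝ := {t | ∃ k : ℤ, |t - (w + k * h)| ≤ 2 * c * h}

theorem measurableSet_Zn (w h c : ℝ) : MeasurableSet (Zn w h c) := by
  have e : Zn w h c = ⋃ k : ℤ, {t | |t - (w + k * h)| ≤ 2 * c * h} := by
    ext t; simp [Zn]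
  rw [e]
  refine MeasurableSet.iUnion fun k => ?_
  exact measurableSet_le (by fun_prop) measurable_const

/-- length of an interval outside of the zone -/
theorem length_off_zone {w h c a b : ℝ} (hh : 0 < h) (hc : 0 ≤ c) (hc4 : 4 * c ≤ 1) (hab : a ≤ b) :
    (1 - 4 * c) * (b - a) - 12 * c * h ≤ ∫ t in a..b, (Zn w h c)ᶜ.indicator (fun _ => (1:ℝ)) t := by
  have hZ := measurableSet_Zn w h c
  have e1 : ∫ t in a..b, (Zn w h c)ᶜ.indicator (fun _ => (1:ℝ)) t =
      (b - a) - (volume (Zn w h c ∩ Set.Ioc a b)).toReal := by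
    rw [intervalIntegral.integral_of_le hab, integral_indicator hZ.compl,
      Measure.restrict_restrict hZ.compl]
    simp only [integral_const, MeasurableSet.univ, smul_eq_mul, mul_one, Measure.real,
      Measure.restrict_apply, Set.univ_inter]
    have h1 : volume (Set.Ioc a b) = volume (Zn w h c ∩ Set.Ioc a b) +
        volume ((Zn w h c)ᶜ ∩ Set.Ioc a b) := by
      rw [Set.inter_comm (Zn w h c), Set.inter_comm (Zn w h c)ᶜ]
      exact (measure_inter_add_sdiff _ hZ).symm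
    have h2 : (volume (Set.Ioc a b)).toReal = b - a := by
      rw [Real.volume_Ioc, ENNReal.toReal_ofReal (by linarith)]
    have hf1 : volume (Zn w h c ∩ Set.Ioc a b) ≠ ⊤ :=
      ne_top_of_le_ne_top (by rw [Real.volume_Ioc]; exact ENNReal.ofReal_ne_top)
        (measure_mono Set.inter_subset_right)
    have hf2 : volume ((Zn w h c)ᶜ ∩ Set.Ioc a b) ≠ ⊤ :=
      ne_top_of_le_ne_top (by rw [Real.volume_Ioc]; exact ENNReal.ofReal_ne_top)
        (measure_mono Set.inter_subset_right)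
    rw [h1, ENNReal.toReal_add hf1 hf2] at h2
    linarith
  rw [e1]
  set k0 := ⌊(a - w) / h⌋ with hk0
  set k1 := ⌊(b - w) / h⌋ + 1 with hk1
  have hsub : Zn w h c ∩ Set.Ioc a b ⊆ ⋃ k ∈ Finset.Icc k0 k1,
      Set.Icc (w + k * h - 2 * c * h) (w + k * h + 2 * c * h) := by
    rintro t ⟨⟨k, hk⟩, ht1, ht2⟩
    have hk' := abs_le.1 hk
    have h3 : a - w < t - w := by linarith
    have h4 : t - w ≤ b - w := by linarith
    have h5 : (k0 : ℝ) ≤ (a - w) / h := Int.floor_le _
    have h6 : (b - w) / h < (k1 : ℝ) := by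
      rw [hk1]; push_cast; exact Int.lt_floor_add_one _
    have h7 : (k0 : ℝ) * h ≤ a - w := (le_div_iff₀ hh).1 h5
    have h8 : b - w < (k1 : ℝ) * h := (div_lt_iff₀ hh).1 h6
    have h9 : k0 ≤ k := by
      have : (k0 : ℝ) < k + 1 := by
        have : (k0 : ℝ) * h < (k + 1) * h := by nlinarith
        exact lt_of_mul_lt_mul_right this hh.le
      exact_mod_cast Int.lt_add_one_iff.1 (by exact_mod_cast this)
    have h10 : k ≤ k1 := by
      have : (k : ℝ) < k1 + 1 := by
        have : (k : ℝ) * h < (k1 + 1) * h := by nlinarith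
        exact lt_of_mul_lt_mul_right this hh.le
      exact_mod_cast Int.lt_add_one_iff.1 (by exact_mod_cast this)
    refine mem_iUnion₂.2 ⟨k, Finset.mem_Icc.2 ⟨h9, h10⟩, ?_⟩
    constructor <;> linarith
  have h1 : (volume (Zn w h c ∩ Set.Ioc a b)).toReal ≤ ((k1 + 1 - k0 : ℤ) : ℝ) * (4 * c * h) := by
    have h2 : volume (Zn w h c ∩ Set.Ioc a b) ≤
        ENNReal.ofReal (((k1 + 1 - k0 : ℤ) : ℝ) * (4 * c * h)) := by
      refine (measure_mono hsub).trans ((measure_biUnion_finset_le _ _).trans ?_)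
      have h3 : ∀ k ∈ Finset.Icc k0 k1,
          volume (Set.Icc (w + (k : ℝ) * h - 2 * c * h) (w + (k : ℝ) * h + 2 * c * h)) =
            ENNReal.ofReal (4 * c * h) := by
        intro k _
        rw [Real.volume_Icc]; congr 1; ring
      have h4 : k0 ≤ k1 + 1 := by
        have : (a - w) / h ≤ (b - w) / h := by gcongr
        have := Int.floor_mono this
        omega
      have h5 : (((k1 + 1 - k0).toNat : ℕ) : ℝ) = ((k1 + 1 - k0 : ℤ) : ℝ) := by
        have : (((k1 + 1 - k0).toNat : ℕ) : ℤ) = k1 + 1 - k0 := Int.toNat_of_nonneg (by omega)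
        exact_mod_cast this
      rw [Finset.sum_congr rfl h3, Finset.sum_const, Int.card_Icc, nsmul_eq_mul,
        ← h5, ENNReal.ofReal_mul (Nat.cast_nonneg _), ENNReal.ofReal_natCast]
    have h3 := ENNReal.toReal_mono ENNReal.ofReal_ne_top h2
    rwa [ENNReal.toReal_ofReal] at h3
    have h4 : (0:ℝ) ≤ ((k1 + 1 - k0 : ℤ) : ℝ) := by
      have : (a - w) / h ≤ (b - w) / h := by gcongr
      have := Int.floor_mono this
      have : 0 ≤ k1 + 1 - k0 := by omega
      exact_mod_cast this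
    positivity
  have h2 : ((k1 + 1 - k0 : ℤ) : ℝ) ≤ (b - a) / h + 3 := by
    rw [hk1, hk0]
    push_cast
    have h3 : (⌊(b - w) / h⌋ : ℝ) ≤ (b - w) / h := Int.floor_le _
    have h4 : (a - w) / h < (⌊(a - w) / h⌋ : ℝ) + 1 := Int.lt_floor_add_one _
    have h5 : (b - a) / h = (b - w) / h - (a - w) / h := by ring
    linarith
  have h3 : ((k1 + 1 - k0 : ℤ) : ℝ) * (4 * c * h) ≤ ((b - a) / h + 3) * (4 * c * h) := by
    gcongr
  have h4 : ((b - a) / h + 3) * (4 * c * h) = 4 * c * (b - a) + 12 * c * h := by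
    field_simp
    ring
  linarith

/-- **time in the zone**: the edges `W` of a row whose images lie in the zone -/
theorem zone_count {M : ℕ} {σ s w h c : ℝ} (hσ : 0 < σ) (hh : 0 < h) (hc : 0 ≤ c)
    (hc4 : 4 * c ≤ 1) (hs : 0 ≤ s) (hs1 : s ≤ 1) {x ℓ δ : ℕ → ℝ} {W : Finset ℕ}
    (hW : W ⊆ range M) (hδ0 : ∀ e < M, 0 ≤ δ e) (hδ : ∑ e ∈ range M, δ e ≤ s * (M * σ))
    (hℓ : ∀ e < M, ℓ e ≤ σ + δ e) (hx : ∀ e < M, |x (e + 1) - x e| ≤ ℓ e)
    (hnet : (1 - s) * (M * σ) ≤ x M - x 0)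
    (hz : ∀ e ∈ W, ∃ k : ℤ, |x e - (w + k * h)| ≤ 2 * c * h ∧
      |x (e + 1) - (w + k * h)| ≤ 2 * c * h) :
    σ * W.card ≤ (4 * s + 4 * c) * (M * σ) + 12 * c * h := by
  set φ : ℝ → ℝ := (Zn w h c)ᶜ.indicator fun _ => (1:ℝ) with hφ
  have hφ1 : ∀ t, ‖φ t‖ ≤ 1 := by
    intro t
    rw [hφ]
    by_cases ht : t ∈ (Zn w h c)ᶜ
    · rw [indicator_of_mem ht]; simp
    · rw [indicator_of_notMem ht]; simp
  have hφm : Measurable φ := measurable_const.indicator (measurableSet_Zn w h c).compl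
  have hφi : ∀ a b : ℝ, IntervalIntegrable φ volume a b := by
    intro a b
    refine (intervalIntegrable_const (c := (1:ℝ))).mono_fun hφm.aestronglyMeasurable ?_
    exact Eventually.of_forall fun t => (hφ1 t).trans (by simp)
  -- telescoping
  have htel : ∫ t in x 0..x M, φ t = ∑ e ∈ range M, ∫ t in x e..x (e + 1), φ t :=
    (intervalIntegral.sum_integral_adjacent_intervals fun e _ => hφi _ _).symm
  have hMσ : 0 ≤ (M : ℝ) * σ := by positivity
  have h0M : x 0 ≤ x M := by nlinarith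
  have hlow := length_off_zone (w := w) hh hc hc4 h0M
  rw [htel] at hlow
  -- each edge
  have hedge : ∀ e < M, ∫ t in x e..x (e + 1), φ t ≤ |x (e + 1) - x e| := by
    intro e _
    have := intervalIntegral.norm_integral_le_of_norm_le_const (a := x e) (b := x (e + 1))
      (f := φ) (C := 1) fun t _ => hφ1 t
    rw [one_mul] at this
    exact (Real.le_norm_self _).trans this
  have hzone : ∀ e ∈ W, ∫ t in x e..x (e + 1), φ t = 0 := by
    intro e he
    obtain ⟨k, h1, h2⟩ := hz e he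
    refine intervalIntegral.integral_zero_ae (Eventually.of_forall fun t ht => ?_)
    have ht' : t ∈ Set.uIcc (x e) (x (e + 1)) := Set.uIoc_subset_uIcc ht
    have h3 : |t - (w + k * h)| ≤ 2 * c * h := by
      rw [abs_le] at h1 h2 ⊢
      rcases Set.mem_uIcc.1 ht' with h4 | h4
      · constructor <;> linarith [h1.1, h1.2, h2.1, h2.2, h4.1, h4.2]
      · constructor <;> linarith [h1.1, h1.2, h2.1, h2.2, h4.1, h4.2]
    have h4 : t ∉ (Zn w h c)ᶜ := fun hcon => hcon ⟨k, h3⟩
    rw [hφ, indicator_of_notMem h4]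
  -- sums
  have hsplit : ∀ F : ℕ → ℝ, ∑ e ∈ range M, F e = ∑ e ∈ range M \ W, F e + ∑ e ∈ W, F e :=
    fun F => (sum_sdiff hW).symm
  have hA : ∑ e ∈ range M, ∫ t in x e..x (e + 1), φ t ≤
      ∑ e ∈ range M \ W, |x (e + 1) - x e| := by
    rw [hsplit, sum_eq_zero hzone, add_zero]
    exact sum_le_sum fun e he => hedge e (mem_range.1 (mem_sdiff.1 he).1)
  have hB : ∑ e ∈ range M, |x (e + 1) - x e| ≤ (1 + s) * (M * σ) := by
    calc ∑ e ∈ range M, |x (e + 1) - x e| ≤ ∑ e ∈ range M, (σ + δ e) :=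
          sum_le_sum fun e he => (hx e (mem_range.1 he)).trans (hℓ e (mem_range.1 he))
      _ = M * σ + ∑ e ∈ range M, δ e := by rw [sum_add_distrib]; simp
      _ ≤ _ := by linarith
  have hC : ∑ e ∈ W, |x (e + 1) - x e| ≤ (2 * s + 4 * c) * (M * σ) + 12 * c * h := by
    have h1 := hsplit fun e => |x (e + 1) - x e|
    have h2 : (1 - 4 * c) * ((1 - s) * (M * σ)) ≤ (1 - 4 * c) * (x M - x 0) :=
      mul_le_mul_of_nonneg_left hnet (by linarith)
    have h3 : (1 - 4 * c) * ((1 - s) * (M * σ)) ≥ (M * σ) - s * (M * σ) - 4 * c * (M * σ) := by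
      have : 0 ≤ 4 * c * s * (M * σ) := by positivity
      nlinarith
    nlinarith
  -- slow edges
  have hD : ∑ e ∈ W, (σ - |x (e + 1) - x e|) ≤ 2 * s * (M * σ) := by
    have h1 : ∀ e ∈ range M, σ - |x (e + 1) - x e| ≤
        (σ - (x (e + 1) - x e)) + δ e := by
      intro e he
      have := hδ0 e (mem_range.1 he)
      have := le_abs_self (x (e + 1) - x e)
      linarith
    have h2 : ∀ e ∈ range M, 0 ≤ (σ - (x (e + 1) - x e)) + δ e := by
      intro e he
      have h3 := hx e (mem_range.1 he)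
      have h4 := hℓ e (mem_range.1 he)
      have := le_abs_self (x (e + 1) - x e)
      linarith
    calc ∑ e ∈ W, (σ - |x (e + 1) - x e|) ≤ ∑ e ∈ W, ((σ - (x (e + 1) - x e)) + δ e) :=
          sum_le_sum fun e he => h1 e (hW he)
      _ ≤ ∑ e ∈ range M, ((σ - (x (e + 1) - x e)) + δ e) :=
          sum_le_sum_of_subset_of_nonneg hW fun e he _ => h2 e he
      _ = M * σ - (x M - x 0) + ∑ e ∈ range M, δ e := by
        rw [sum_add_distrib, sum_sub_distrib, sum_range_sub]; simp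
      _ ≤ 2 * s * (M * σ) := by nlinarith
  have hE : ∑ e ∈ W, σ = σ * W.card := by rw [sum_const, nsmul_eq_mul, mul_comm]
  rw [sum_sub_distrib, hE] at hD
  nlinarith

/-- variation of the other tangential component on one row -/
theorem row_manh {M : ℕ} {σ s lam : ℝ} (hσ : 0 < σ) (hlam : 0 < lam) (hlam1 : lam ≤ 1)
    (hs : s = lam ^ 2) {x ℓ v v' δ : ℕ → ℝ} (hδ : ∑ e ∈ range M, δ e ≤ s * (M * σ))
    (hℓ : ∀ e < M, ℓ e ≤ σ + δ e) (hx : ∀ e < M, |x (e + 1) - x e| ≤ v e)
    (hman : ∀ e < M, v' e + (1 / (2 * lam) - lam / 2) * v e ≤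
      (1 / (2 * lam) + lam / 2) * ℓ e)
    (hnet : (1 - s) * (M * σ) ≤ x M - x 0) :
    ∑ e ∈ range M, v' e ≤ 3 * lam * (M * σ) := by
  have hs0 : 0 ≤ s := by rw [hs]; positivity
  have hsl : s ≤ lam := by rw [hs]; nlinarith
  have hMσ : 0 ≤ (M : ℝ) * σ := by positivity
  -- sum of the lengths
  have hL : ∑ e ∈ range M, ℓ e ≤ (1 + s) * (M * σ) := by
    calc ∑ e ∈ range M, ℓ e ≤ ∑ e ∈ range M, (σ + δ e) :=
          sum_le_sum fun e he => hℓ e (mem_range.1 he)
      _ = M * σ + ∑ e ∈ range M, δ e := by rw [sum_add_distrib]; simp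
      _ ≤ _ := by linarith
  have hV : (1 - s) * (M * σ) ≤ ∑ e ∈ range M, v e := by
    calc (1 - s) * (M * σ) ≤ x M - x 0 := hnet
      _ = ∑ e ∈ range M, (x (e + 1) - x e) := (sum_range_sub _ _).symm
      _ ≤ ∑ e ∈ range M, v e :=
        sum_le_sum fun e he => (le_abs_self _).trans (hx e (mem_range.1 he))
  show ∑ e ∈ range M, v' e ≤ 3 * lam * (M * σ)
  have h1 : ∑ e ∈ range M, v' e ≤ ∑ e ∈ range M,
      ((1 / (2 * lam) + lam / 2) * ℓ e - (1 / (2 * lam) - lam / 2) * v e) :=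
    sum_le_sum fun e he => by linarith [hman e (mem_range.1 he)]
  rw [sum_sub_distrib, ← mul_sum, ← mul_sum] at h1
  have h2 : 0 ≤ 1 / (2 * lam) - lam / 2 := by
    rw [sub_nonneg, div_le_div_iff₀ two_pos (by positivity)]
    nlinarith
  have h3 : (1 / (2 * lam) + lam / 2) * ∑ e ∈ range M, ℓ e ≤
      (1 / (2 * lam) + lam / 2) * ((1 + s) * (M * σ)) := by gcongr
  have h4 : (1 / (2 * lam) - lam / 2) * ((1 - s) * (M * σ)) ≤
      (1 / (2 * lam) - lam / 2) * ∑ e ∈ range M, v e := mul_le_mul_of_nonneg_left hV h2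
  have h5 : (1 / (2 * lam) + lam / 2) * ((1 + s) * (M * σ)) -
      (1 / (2 * lam) - lam / 2) * ((1 - s) * (M * σ)) = (s / lam + lam) * (M * σ) := by
    field_simp
    ring
  have h6 : s / lam = lam := by rw [hs]; field_simp
  rw [h6] at h5
  nlinarith

/-- **the final map on one row**: most edges are nearly monotone -/
theorem row_count {M : ℕ} {σ s c D ε r lam : ℝ} (hσ : 0 < σ) (hc : 0 ≤ c) (hc1 : c ≤ 1)
    (hD : 0 ≤ D) (hlam : 0 < lam) (hlam1 : lam ≤ 1) (hs : s = lam ^ 2)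
    (hε : ε ≤ s * σ) (hr : 0 ≤ r) {x y ℓ v v' t δ : ℕ → ℝ} {N B : Finset ℕ}
    (hN : N ⊆ range M) (hB : B ⊆ range M)
    (hδ0 : ∀ e < M, 0 ≤ δ e) (hδ : ∑ e ∈ range M, δ e ≤ s * (M * σ))
    (hℓ : ∀ e < M, ℓ e ≤ σ + δ e) (hx : ∀ e < M, |x (e + 1) - x e| ≤ v e)
    (hv : ∀ e < M, v e ≤ ℓ e) (hv' : ∀ e < M, 0 ≤ v' e)
    (hman : ∀ e < M, v' e + (1 / (2 * lam) - lam / 2) * v e ≤
      (1 / (2 * lam) + lam / 2) * ℓ e)
    (hnet : (1 - s) * (M * σ) ≤ x M - x 0) (hnety : (1 - s) * (M * σ) ≤ y M - y 0)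
    (ht : ∀ e < M, y (e + 1) - y e ≤ t e) (htN : ∀ e < M, t e ≤ D * ℓ e + ε)
    (htd : ∀ e < M, e ∉ N → t e ≤ (1 + c) * (v e + v' e) + ε)
    (hbad : ∀ e ∈ B, y (e + 1) - y e < (1 - r) * σ ∨ (1 + r) * σ < t e) :
    r * B.card ≤ (2 * c + (19 + 2 * D) * lam) * M + 2 * D * N.card := by
  have hs0 : 0 ≤ s := by rw [hs]; positivity
  have hsl : s ≤ lam := by rw [hs]; nlinarith
  have hMσ : 0 ≤ (M : ℝ) * σ := by positivity
  have hV' := row_manh hσ hlam hlam1 hs hδ hℓ hx hman hnet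
  -- the positive parts
  set T : ℕ → ℝ := fun e => c * σ + (2 + D) * δ e + 2 * v' e + s * σ +
    (if e ∈ N then D * σ else 0) with hT
  have hDσ : 0 ≤ D * σ := by positivity
  have hif : ∀ e, 0 ≤ (if e ∈ N then D * σ else 0) := by
    intro e; split_ifs <;> simp [hDσ]
  have hT0 : ∀ e < M, 0 ≤ T e := by
    intro e he
    have h1 := hδ0 e he
    have h2 := hv' e he
    have h3 := hif e
    have h4 : 0 ≤ (2 + D) * δ e := by positivity
    have h5 : 0 ≤ c * σ := by positivity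
    have h6 : 0 ≤ s * σ := by positivity
    simp only [hT]
    linarith
  have htT : ∀ e < M, t e ≤ σ + T e := by
    intro e he
    have h1 := hδ0 e he
    have h2 := hv' e he
    have h3 := hv e he
    have h4 := hℓ e he
    have h5 : 0 ≤ D * δ e := by positivity
    simp only [hT]
    by_cases heN : e ∈ N
    · rw [if_pos heN]
      have h6 := htN e he
      have h7 : D * ℓ e ≤ D * (σ + δ e) := by gcongr
      have h8 : 0 ≤ c * σ := by positivity
      nlinarith
    · rw [if_neg heN]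
      have h6 := htd e he heN
      have h7 : (1 + c) * (v e + v' e) ≤ (1 + c) * (σ + δ e + v' e) := by
        gcongr
        linarith
      have h8 : c * δ e ≤ δ e := by nlinarith
      have h9 : c * v' e ≤ v' e := by nlinarith
      nlinarith
  have hTs : ∑ e ∈ range M, T e ≤ (c + (9 + D) * lam) * (M * σ) + D * σ * N.card := by
    have e1 : ∑ e ∈ range M, T e = c * (M * σ) + (2 + D) * ∑ e ∈ range M, δ e +
        2 * ∑ e ∈ range M, v' e + s * (M * σ) + D * σ * N.card := by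
      simp only [hT]
      rw [sum_add_distrib, sum_add_distrib, sum_add_distrib, sum_add_distrib, ← mul_sum _ δ,
        ← mul_sum _ v', ← sum_filter, Finset.filter_mem_eq_inter, Finset.inter_eq_right.2 hN]
      simp only [sum_const, card_range, nsmul_eq_mul]
      ring
    rw [e1]
    have h1 : (2 + D) * ∑ e ∈ range M, δ e ≤ (2 + D) * (s * (M * σ)) := by gcongr
    have h2 : (2 + D) * (s * (M * σ)) ≤ (2 + D) * (lam * (M * σ)) := by gcongr
    have h3 : s * (M * σ) ≤ lam * (M * σ) := by gcongr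
    nlinarith
  -- the bad edges
  have hyT : ∀ e < M, 0 ≤ (σ - (y (e + 1) - y e)) + T e := by
    intro e he
    have := ht e he
    have := htT e he
    linarith
  have hsum : ∑ e ∈ B, r * σ ≤ ∑ e ∈ range M, ((σ - (y (e + 1) - y e)) + T e + T e) := by
    refine (sum_le_sum fun e he => ?_).trans (sum_le_sum_of_subset_of_nonneg hB fun e he _ => ?_)
    · have heM := mem_range.1 (hB he)
      have h1 := hyT e heM
      have h2 := hT0 e heM
      have h3 := htT e heM
      have e3 : (1 - r) * σ = σ - r * σ := by ring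
      have e4 : (1 + r) * σ = σ + r * σ := by ring
      rcases hbad e he with h4 | h4
      · rw [e3] at h4; linarith
      · rw [e4] at h4; linarith
    · have h1 := hyT e (mem_range.1 he)
      have h2 := hT0 e (mem_range.1 he)
      linarith
  have e2 : ∑ e ∈ range M, ((σ - (y (e + 1) - y e)) + T e + T e) =
      M * σ - (y M - y 0) + 2 * ∑ e ∈ range M, T e := by
    rw [sum_add_distrib, sum_add_distrib, sum_sub_distrib, sum_range_sub]
    simp only [sum_const, card_range, nsmul_eq_mul]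
    ring
  rw [e2, sum_const, nsmul_eq_mul] at hsum
  have h3 : s * (M * σ) ≤ lam * (M * σ) := by gcongr
  have h4 : (r * B.card) * σ ≤ ((2 * c + (19 + 2 * D) * lam) * M + 2 * D * N.card) * σ := by
    nlinarith
  exact le_of_mul_le_mul_right h4 hσ

end Vale.Agent.P073.H716
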