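import Vale.Agent.P073.H716.Rows2

/-!
# P073 / H716: [R2e], counting on a block of `M × M` squares (real numbers only)
-/

open Set MeasureTheory Filter Finset

namespace Vale.Agent.P073.H716

open Classical in
/-- number of `e < M` with the property `p` -/
noncomputable def cnt (M : ℕ) (p : ℕ → Prop) : ℝ := (((range M).filter p).card : ℝ)

theorem cnt_eq (M : ℕ) (p : ℕ → Prop) [DecidablePred p] :
    cnt M p = (((range M).filter p).card : ℝ) := by
  unfold cnt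
  congr 2
  exact Finset.filter_congr_decidable _ _ _

theorem cnt_nonneg (M : ℕ) (p : ℕ → Prop) : 0 ≤ cnt M p := by unfold cnt; positivity

theorem cnt_le (M : ℕ) (p : ℕ → Prop) : cnt M p ≤ M := by
  classical
  unfold cnt
  have := card_filter_le (range M) p
  rw [card_range] at this
  exact_mod_cast this

theorem cnt_mono {M : ℕ} {p q : ℕ → Prop} (h : ∀ e < M, p e → q e) : cnt M p ≤ cnt M q := by
  classical
  unfold cnt
  have : (range M).filter p ⊆ (range M).filter q := by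
    intro e he
    rw [Finset.mem_filter] at he ⊢
    exact ⟨he.1, h e (Finset.mem_range.1 he.1) he.2⟩
  exact_mod_cast Finset.card_le_card this

theorem cnt_or (M : ℕ) (p q : ℕ → Prop) : cnt M (fun e => p e ∨ q e) ≤ cnt M p + cnt M q := by
  classical
  rw [cnt_eq M p, cnt_eq M q, cnt_eq M fun e => p e ∨ q e]
  have h1 : (range M).filter (fun e => p e ∨ q e) ⊆
      (range M).filter p ∪ (range M).filter q := by
    intro e he
    rw [Finset.mem_filter] at he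
    rcases he.2 with h | h
    · exact Finset.mem_union_left _ (Finset.mem_filter.2 ⟨he.1, h⟩)
    · exact Finset.mem_union_right _ (Finset.mem_filter.2 ⟨he.1, h⟩)
  exact_mod_cast (Finset.card_le_card h1).trans (Finset.card_union_le _ _)

/-- exchanging rows and columns -/
theorem cnt_swap (K M : ℕ) (p : ℕ → ℕ → Prop) :
    ∑ b ∈ range K, cnt M (p b) = ∑ e ∈ range M, cnt K (fun b => p b e) := by
  classical
  unfold cnt
  simp only [card_filter]
  push_cast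
  exact sum_comm

/-- a sum over rows with few bad rows -/
theorem sum_rows {K M : ℕ} {p : ℕ → ℕ → Prop} {g : ℕ → Prop} {A : ℕ → ℝ}
    (hA : ∀ b < K, g b → cnt M (p b) ≤ A b) (hA0 : ∀ b < K, 0 ≤ A b) :
    ∑ b ∈ range K, cnt M (p b) ≤ ∑ b ∈ range K, A b + cnt K (fun b => ¬ g b) * M := by
  classical
  have h1 : ∀ b ∈ range K, cnt M (p b) ≤ A b + (if ¬ g b then (1:ℝ) else 0) * M := by
    intro b hb
    have hb := Finset.mem_range.1 hb
    by_cases h : g b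
    · have h2 : ¬ ¬ g b := fun h' => h' h
      rw [if_neg h2, zero_mul, add_zero]; exact hA b hb h
    · rw [if_pos h, one_mul]
      have := cnt_le M (p b)
      have := hA0 b hb
      linarith
  refine (sum_le_sum h1).trans (le_of_eq ?_)
  rw [sum_add_distrib, ← sum_mul]
  congr 2
  unfold cnt
  rw [card_filter]
  push_cast
  rfl

/-- the data in one direction: row `b ≤ M`, edge `e < M` -/
structure RowD (M : ℕ) (σ s c D ε lam : ℝ) (X Y U ℓ v v' t δ : ℕ → ℕ → ℝ)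
    (N : ℕ → ℕ → Prop) : Prop where
  δ0 : ∀ b ≤ M, ∀ e < M, 0 ≤ δ b e
  δs : ∑ b ∈ range (M + 1), ∑ e ∈ range M, δ b e ≤ s ^ 2 / 2 * (M * M * σ)
  ℓσ : ∀ b ≤ M, ∀ e < M, ℓ b e ≤ σ + δ b e
  u : ∀ b ≤ M, ∀ e < M, σ - δ b e ≤ U b (e + 1) - U b e
  xu : ∀ b ≤ M, ∀ e ≤ M, |X b e - U b e| ≤ s * (M * σ) / 4
  yu : ∀ b ≤ M, ∀ e ≤ M, |Y b e - U b e| ≤ s * (M * σ) / 4
  fx : ∀ b ≤ M, ∀ e < M, |X b (e + 1) - X b e| ≤ v b e
  fv : ∀ b ≤ M, ∀ e < M, v b e ≤ ℓ b e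
  fv' : ∀ b ≤ M, ∀ e < M, 0 ≤ v' b e
  fm : ∀ b ≤ M, ∀ e < M, v' b e + (1 / (2 * lam) - lam / 2) * v b e ≤
    (1 / (2 * lam) + lam / 2) * ℓ b e
  ft : ∀ b ≤ M, ∀ e < M, Y b (e + 1) - Y b e ≤ t b e
  tN : ∀ b ≤ M, ∀ e < M, t b e ≤ D * ℓ b e + ε
  td : ∀ b ≤ M, ∀ e < M, ¬ N b e → t b e ≤ (1 + c) * (v b e + v' b e) + ε

variable {M : ℕ} {σ s c D ε lam r w h : ℝ} {X Y U ℓ v v' t δ : ℕ → ℕ → ℝ} {N : ℕ → ℕ → Prop}

/-- good rows -/
def Gd (M : ℕ) (σ s : ℝ) (δ : ℕ → ℕ → ℝ) (b : ℕ) : Prop :=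
  ∑ e ∈ range M, δ b e ≤ s / 2 * (M * σ)

/-- edges in the zone -/
def Wz (w h c : ℝ) (X : ℕ → ℕ → ℝ) (b e : ℕ) : Prop :=
  ∃ k : ℤ, |X b e - (w + k * h)| ≤ 2 * c * h ∧ |X b (e + 1) - (w + k * h)| ≤ 2 * c * h

/-- edges which are not nearly monotone -/
def Bd (r σ : ℝ) (Y t : ℕ → ℕ → ℝ) (b e : ℕ) : Prop :=
  Y b (e + 1) - Y b e < (1 - r) * σ ∨ (1 + r) * σ < t b e

namespace RowD

theorem bad_rows (H : RowD M σ s c D ε lam X Y U ℓ v v' t δ N) (hM : 0 < M) (hσ : 0 < σ)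
    (hs : 0 < s) : cnt (M + 1) (fun b => ¬ Gd M σ s δ b) ≤ s * M := by
  classical
  have hM' : (0:ℝ) < M := by exact_mod_cast hM
  have h1 : ∑ b ∈ (range (M + 1)).filter (fun b => ¬ Gd M σ s δ b), s / 2 * (M * σ) ≤
      ∑ b ∈ range (M + 1), ∑ e ∈ range M, δ b e := by
    refine (sum_le_sum fun b hb => ?_).trans (sum_le_sum_of_subset_of_nonneg
      (filter_subset _ _) fun b hb _ => ?_)
    · exact (not_le.1 (Finset.mem_filter.1 hb).2).le
    · exact sum_nonneg fun e he => H.δ0 b (Nat.lt_succ_iff.1 (Finset.mem_range.1 hb)) e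
        (Finset.mem_range.1 he)
  have h2 := h1.trans H.δs
  rw [sum_const, nsmul_eq_mul] at h2
  have h3 : cnt (M + 1) (fun b => ¬ Gd M σ s δ b) * (s / 2 * (M * σ)) ≤
      (s * M) * (s / 2 * (M * σ)) := by
    refine le_trans (le_of_eq ?_) (h2.trans (le_of_eq ?_))
    · rw [cnt_eq]
    · ring
  exact le_of_mul_le_mul_right h3 (by positivity)

theorem net (H : RowD M σ s c D ε lam X Y U ℓ v v' t δ N) {b : ℕ} (hb : b ≤ M)
    (hg : Gd M σ s δ b) : (1 - s) * (M * σ) ≤ X b M - X b 0 ∧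
      (1 - s) * (M * σ) ≤ Y b M - Y b 0 := by
  have h1 : M * σ - ∑ e ∈ range M, δ b e ≤ U b M - U b 0 := by
    rw [← sum_range_sub (fun e => U b e)]
    have : ∑ e ∈ range M, (σ - δ b e) ≤ ∑ e ∈ range M, (U b (e + 1) - U b e) :=
      sum_le_sum fun e he => H.u b hb e (Finset.mem_range.1 he)
    rw [sum_sub_distrib, sum_const, card_range, nsmul_eq_mul] at this
    exact this
  have h2 : ∑ e ∈ range M, δ b e ≤ s / 2 * (M * σ) := hg
  have x0 := abs_le.1 (H.xu b hb 0 (Nat.zero_le _))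
  have x1 := abs_le.1 (H.xu b hb M le_rfl)
  have y0 := abs_le.1 (H.yu b hb 0 (Nat.zero_le _))
  have y1 := abs_le.1 (H.yu b hb M le_rfl)
  constructor <;> nlinarith [x0.1, x0.2, x1.1, x1.2, y0.1, y0.2, y1.1, y1.2]

theorem sum_le (hσ : 0 < σ) (hs : 0 ≤ s) {b : ℕ}
    (hg : Gd M σ s δ b) : ∑ e ∈ range M, δ b e ≤ s * (M * σ) := by
  have h2 : ∑ e ∈ range M, δ b e ≤ s / 2 * (M * σ) := hg
  have : 0 ≤ s * (M * σ) := by positivity
  linarith

theorem zone (H : RowD M σ s c D ε lam X Y U ℓ v v' t δ N) (hM : 0 < M) (hσ : 0 < σ)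
    (hs : 0 < s) (hs1 : s ≤ 1) (hh : 0 < h) (hc : 0 ≤ c) (hc4 : 4 * c ≤ 1) {b : ℕ} (hb : b ≤ M)
    (hg : Gd M σ s δ b) :
    cnt M (Wz w h c X b) ≤ (4 * s + 4 * c + 12 * (c * h / (M * σ))) * M := by
  classical
  have hM' : (0:ℝ) < M := by exact_mod_cast hM
  have h1 := zone_count (M := M) (σ := σ) (s := s) (w := w) (h := h) (c := c) (x := X b)
    (ℓ := v b) (δ := δ b) (W := (range M).filter (Wz w h c X b)) hσ hh hc hc4 hs.le hs1
    (filter_subset _ _) (H.δ0 b hb) (sum_le hσ hs.le hg)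
    (fun e he => (H.fv b hb e he).trans (H.ℓσ b hb e he)) (H.fx b hb) (H.net hb hg).1
    fun e he => (Finset.mem_filter.1 he).2
  have h2 : cnt M (Wz w h c X b) * σ ≤
      ((4 * s + 4 * c + 12 * (c * h / (M * σ))) * M) * σ := by
    refine le_trans (le_of_eq ?_) (h1.trans (le_of_eq ?_))
    · unfold cnt; ring
    · field_simp
  exact le_of_mul_le_mul_right h2 hσ

theorem bad (H : RowD M σ s c D ε lam X Y U ℓ v v' t δ N) (hσ : 0 < σ) (hc : 0 ≤ c)
    (hc1 : c ≤ 1) (hD : 0 ≤ D) (hlam : 0 < lam) (hlam1 : lam ≤ 1) (hs : s = lam ^ 2)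
    (hε : ε ≤ s * σ) (hr : 0 ≤ r) {b : ℕ} (hb : b ≤ M) (hg : Gd M σ s δ b) :
    r * cnt M (Bd r σ Y t b) ≤ (2 * c + (19 + 2 * D) * lam) * M + 2 * D * cnt M (N b) := by
  classical
  have hs0 : 0 ≤ s := by rw [hs]; positivity
  exact row_count (M := M) (N := (range M).filter (N b)) (B := (range M).filter (Bd r σ Y t b))
    hσ hc hc1 hD hlam hlam1 hs hε hr (filter_subset _ _) (filter_subset _ _) (H.δ0 b hb)
    (sum_le hσ hs0 hg) (H.ℓσ b hb) (H.fx b hb) (H.fv b hb) (H.fv' b hb) (H.fm b hb)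
    (H.net hb hg).1 (H.net hb hg).2 (H.ft b hb) (H.tN b hb)
    (fun e he heN => H.td b hb e he fun hN => heN (Finset.mem_filter.2 ⟨Finset.mem_range.2 he, hN⟩))
    fun e he => (Finset.mem_filter.1 he).2

/-- squares which touch the zone of the walls perpendicular to the rows -/
theorem touch (H : RowD M σ s c D ε lam X Y U ℓ v v' t δ N) (hM : 0 < M) (hσ : 0 < σ)
    (hs : 0 < s) (hs1 : s ≤ 1) (hh : 0 < h) (hc : 0 ≤ c) (hc4 : 4 * c ≤ 1)
    {T : ℕ → ℕ → Prop} (hT : ∀ b < M, ∀ e < M, T b e → Wz w h c X b e) :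
    ∑ b ∈ range M, cnt M (T b) ≤
      (5 * s + 4 * c + 12 * (c * h / (M * σ))) * (M * M) := by
  have hM' : (0:ℝ) < M := by exact_mod_cast hM
  have h1 := sum_rows (K := M) (M := M) (p := T) (g := Gd M σ s δ)
    (A := fun _ => (4 * s + 4 * c + 12 * (c * h / (M * σ))) * M)
    (fun b hb hg => (cnt_mono (hT b hb)).trans
      (H.zone (w := w) hM hσ hs hs1 hh hc hc4 hb.le hg)) (fun b _ => by positivity)
  refine h1.trans ?_
  rw [sum_const, card_range, nsmul_eq_mul]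
  have h2 : cnt M (fun b => ¬ Gd M σ s δ b) ≤ s * M := by
    refine le_trans ?_ (H.bad_rows hM hσ hs)
    classical
    rw [cnt_eq, cnt_eq]
    exact_mod_cast Finset.card_le_card (filter_subset_filter _ (range_mono (Nat.le_succ M)))
  have h3 : cnt M (fun b => ¬ Gd M σ s δ b) * M ≤ s * M * M := by gcongr
  nlinarith

/-- the sum of the bad edges over all rows -/
theorem bad_sum (H : RowD M σ s c D ε lam X Y U ℓ v v' t δ N) (hM : 0 < M) (hσ : 0 < σ)
    (hc : 0 ≤ c) (hc4 : 4 * c ≤ 1) (hD : 0 ≤ D) (hlam : 0 < lam) (hlam1 : lam ≤ 1)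
    (hs : s = lam ^ 2) (hε : ε ≤ s * σ) (hr : 0 < r) (hr1 : r ≤ 1) (hh : 0 < h) {ω : ℝ}
    (hω : ω = 4 * s + 4 * c + 12 * (c * h / (M * σ))) {T : ℕ → ℕ → Prop}
    (hT : ∑ b ∈ range M, cnt M (T b) ≤ (s + ω) * (M * M))
    (hN : ∀ b ≤ M, ∀ e < M, N b e → Wz w h c X b e ∨ T (min b (M - 1)) e) :
    r * ∑ b ∈ range (M + 1), cnt M (Bd r σ Y t b) ≤
      (4 * c + (38 + 4 * D) * lam + 8 * D * ω + 6 * D * s + s) * (M * M) := by
  classical
  have hM' : (1:ℝ) ≤ M := by exact_mod_cast hM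
  have hs0 : 0 < s := by rw [hs]; positivity
  have hs1 : s ≤ 1 := by rw [hs]; nlinarith
  have hκ : 0 ≤ c * h / (M * σ) := by positivity
  have hω0 : 0 ≤ ω := by rw [hω]; positivity
  have hbr : cnt (M + 1) (fun b => ¬ Gd M σ s δ b) * M ≤ s * (M * M) := by
    have := H.bad_rows hM hσ hs0
    calc cnt (M + 1) (fun b => ¬ Gd M σ s δ b) * M ≤ s * M * M := by gcongr
      _ = _ := by ring
  -- the zone
  have h1 : ∑ b ∈ range (M + 1), cnt M (Wz w h c X b) ≤ (2 * ω + s) * (M * M) := by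
    have := sum_rows (K := M + 1) (M := M) (p := Wz w h c X) (g := Gd M σ s δ)
      (A := fun _ => ω * M)
      (fun b hb hg => by
        rw [hω]
        exact H.zone hM hσ hs0 hs1 hh hc hc4 (Nat.lt_succ_iff.1 hb) hg)
      (fun b _ => by positivity)
    rw [sum_const, card_range, nsmul_eq_mul] at this
    push_cast at this
    have h2 : ((M:ℝ) + 1) * (ω * M) ≤ (2 * M) * (ω * M) := by
      gcongr; linarith
    nlinarith
  -- the squares in the zone of the other walls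
  have h2 : ∑ b ∈ range (M + 1), cnt M (fun e => T (min b (M - 1)) e) ≤
      2 * (s + ω) * (M * M) := by
    rw [sum_range_succ]
    have e1 : ∑ b ∈ range M, cnt M (fun e => T (min b (M - 1)) e) = ∑ b ∈ range M, cnt M (T b) := by
      refine sum_congr rfl fun b hb => ?_
      have : min b (M - 1) = b := by
        have := Finset.mem_range.1 hb
        omega
      rw [this]
    have e2 : cnt M (fun e => T (min M (M - 1)) e) ≤ ∑ b ∈ range M, cnt M (T b) := by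
      have h3 : min M (M - 1) = M - 1 := by omega
      rw [h3]
      exact single_le_sum (f := fun b => cnt M (T b)) (fun b _ => cnt_nonneg M (T b))
        (Finset.mem_range.2 (by omega))
    rw [e1]
    linarith
  have h3 : ∑ b ∈ range (M + 1), cnt M (N b) ≤ (4 * ω + 3 * s) * (M * M) := by
    have : ∑ b ∈ range (M + 1), cnt M (N b) ≤ ∑ b ∈ range (M + 1),
        (cnt M (Wz w h c X b) + cnt M (fun e => T (min b (M - 1)) e)) := by
      refine sum_le_sum fun b hb => ?_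
      exact (cnt_mono (hN b (Nat.lt_succ_iff.1 (Finset.mem_range.1 hb)))).trans (cnt_or M _ _)
    rw [sum_add_distrib] at this
    linarith
  -- the bad edges
  have h4 := sum_rows (K := M + 1) (M := M) (p := Bd r σ Y t) (g := Gd M σ s δ)
    (A := fun b => ((2 * c + (19 + 2 * D) * lam) * M + 2 * D * cnt M (N b)) / r)
    (fun b hb hg => by
      rw [le_div_iff₀ hr, mul_comm]
      exact H.bad hσ hc (by linarith) hD hlam hlam1 hs hε hr.le (Nat.lt_succ_iff.1 hb) hg)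
    (fun b _ => by
      have := cnt_nonneg M (N b)
      positivity)
  rw [← sum_div, sum_add_distrib, ← mul_sum _ (fun b => cnt M (N b)), sum_const, card_range,
    nsmul_eq_mul] at h4
  push_cast at h4
  have h5 : r * ∑ b ∈ range (M + 1), cnt M (Bd r σ Y t b) ≤
      ((M:ℝ) + 1) * ((2 * c + (19 + 2 * D) * lam) * M) +
        2 * D * ∑ b ∈ range (M + 1), cnt M (N b) +
        r * (cnt (M + 1) (fun b => ¬ Gd M σ s δ b) * M) := by
    calc r * ∑ b ∈ range (M + 1), cnt M (Bd r σ Y t b) ≤ r *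
          ((((M:ℝ) + 1) * ((2 * c + (19 + 2 * D) * lam) * M) +
            2 * D * ∑ b ∈ range (M + 1), cnt M (N b)) / r +
            cnt (M + 1) (fun b => ¬ Gd M σ s δ b) * M) := by gcongr
      _ = _ := by field_simp
  have h6 : ((M:ℝ) + 1) * ((2 * c + (19 + 2 * D) * lam) * M) ≤
      (4 * c + (38 + 4 * D) * lam) * (M * M) := by
    have : ((M:ℝ) + 1) * ((2 * c + (19 + 2 * D) * lam) * M) ≤
        (2 * M) * ((2 * c + (19 + 2 * D) * lam) * M) := by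
      gcongr; linarith
    refine this.trans (le_of_eq ?_)
    ring
  have h7 : 2 * D * ∑ b ∈ range (M + 1), cnt M (N b) ≤
      2 * D * ((4 * ω + 3 * s) * (M * M)) := by gcongr
  have h8 : r * (cnt (M + 1) (fun b => ¬ Gd M σ s δ b) * M) ≤ s * (M * M) := by
    have h9 : 0 ≤ cnt (M + 1) (fun b => ¬ Gd M σ s δ b) * M := by
      have := cnt_nonneg (M + 1) (fun b => ¬ Gd M σ s δ b)
      positivity
    nlinarith
  calc _ ≤ _ := h5
    _ ≤ (4 * c + (38 + 4 * D) * lam) * (M * M) + 2 * D * ((4 * ω + 3 * s) * (M * M)) +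
        s * (M * M) := add_le_add (add_le_add h6 h7) h8
    _ = _ := by ring

end RowD

/-- the final arithmetic -/
theorem arith {r S A0 A1 B0 B0' B1 B1' ω K κ : ℝ} (hr : 0 < r) (hr1 : r ≤ 1) (hK0 : 0 ≤ K)
    (hc : 0 ≤ c) (hD : 0 ≤ D) (hlam : 0 < lam) (hs0 : 0 < s) (hsl : s ≤ lam) (hκ : 0 ≤ κ)
    (hω : ω = 4 * s + 4 * c + 12 * κ) (htot : S ≤ A0 + A1 + (B0 + B0' + (B1 + B1')))
    (a0 : A0 ≤ (s + ω) * K) (a1 : A1 ≤ (s + ω) * K)
    (b0 : r * B0 ≤ (4 * c + (38 + 4 * D) * lam + 8 * D * ω + 6 * D * s + s) * K)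
    (b0' : r * B0' ≤ (4 * c + (38 + 4 * D) * lam + 8 * D * ω + 6 * D * s + s) * K)
    (b1 : r * B1 ≤ (4 * c + (38 + 4 * D) * lam + 8 * D * ω + 6 * D * s + s) * K)
    (b1' : r * B1' ≤ (4 * c + (38 + 4 * D) * lam + 8 * D * ω + 6 * D * s + s) * K) :
    r * S ≤ 400 * (1 + D) * (lam + c + κ) * K := by
  have hω0 : 0 ≤ ω := by rw [hω]; positivity
  have h1 := mul_le_mul_of_nonneg_left htot hr.le
  have h2 : r * ((s + ω) * K) ≤ (s + ω) * K := by
    have : 0 ≤ (s + ω) * K := by positivity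
    nlinarith
  have h3 : r * A0 ≤ (s + ω) * K := (mul_le_mul_of_nonneg_left a0 hr.le).trans h2
  have h4 : r * A1 ≤ (s + ω) * K := (mul_le_mul_of_nonneg_left a1 hr.le).trans h2
  have h9 : (2 * (s + ω) + 4 * (4 * c + (38 + 4 * D) * lam + 8 * D * ω + 6 * D * s + s)) ≤
      400 * (1 + D) * (lam + c + κ) := by
    rw [hω]
    have e1 : D * s ≤ D * lam := by gcongr
    have e2 : 0 ≤ D * lam := by positivity
    have e3 : 0 ≤ D * c := by positivity
    have e4 : 0 ≤ D * κ := by positivity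
    nlinarith
  have h10 := mul_le_mul_of_nonneg_right h9 hK0
  have e5 : r * (A0 + A1 + (B0 + B0' + (B1 + B1'))) =
      r * A0 + r * A1 + (r * B0 + r * B0' + (r * B1 + r * B1')) := by ring
  have e6 : (2 * (s + ω) + 4 * (4 * c + (38 + 4 * D) * lam + 8 * D * ω + 6 * D * s + s)) * K =
      (s + ω) * K + (s + ω) * K + 4 * ((4 * c + (38 + 4 * D) * lam + 8 * D * ω + 6 * D * s + s) *
        K) := by ring
  linarith

/-- **[R2e], the count**: most squares `(a, b)` of the block do not touch the zone of the walls and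
have four nearly monotone sides -/
theorem block_count {X0 Y0 U0 ℓ0 v0 v0' t0 δ0 X1 Y1 U1 ℓ1 v1 v1' t1 δ1 : ℕ → ℕ → ℝ}
    {N0 N1 T0 T1 : ℕ → ℕ → Prop} {w0 w1 : ℝ}
    (R0 : RowD M σ s c D ε lam X0 Y0 U0 ℓ0 v0 v0' t0 δ0 N0)
    (R1 : RowD M σ s c D ε lam X1 Y1 U1 ℓ1 v1 v1' t1 δ1 N1)
    (hM : 0 < M) (hσ : 0 < σ)
    (hc : 0 ≤ c) (hc4 : 4 * c ≤ 1) (hD : 0 ≤ D) (hlam : 0 < lam) (hlam1 : lam ≤ 1)
    (hs : s = lam ^ 2) (hε : ε ≤ s * σ) (hr : 0 < r) (hr1 : r ≤ 1) (hh : 0 < h)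
    (hT0 : ∀ a < M, ∀ b < M, T0 a b → Wz w0 h c X0 b a)
    (hT1 : ∀ a < M, ∀ b < M, T1 a b → Wz w1 h c X1 a b)
    (hN0 : ∀ b ≤ M, ∀ e < M, N0 b e → Wz w0 h c X0 b e ∨ T1 e (min b (M - 1)))
    (hN1 : ∀ a ≤ M, ∀ e < M, N1 a e → Wz w1 h c X1 a e ∨ T0 (min a (M - 1)) e) :
    r * ∑ a ∈ range M, cnt M (fun b => (T0 a b ∨ T1 a b) ∨
      (Bd r σ Y0 t0 b a ∨ Bd r σ Y0 t0 (b + 1) a) ∨
      (Bd r σ Y1 t1 a b ∨ Bd r σ Y1 t1 (a + 1) b)) ≤
      400 * (1 + D) * (lam + c + c * h / (M * σ)) * (M * M) := by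
  have hs0 : 0 < s := by rw [hs]; positivity
  have hs1 : s ≤ 1 := by rw [hs]; nlinarith
  have hsl : s ≤ lam := by rw [hs]; nlinarith
  have hκ : 0 ≤ c * h / (M * σ) := by positivity
  obtain ⟨ω, hω⟩ : ∃ ω, ω = 4 * s + 4 * c + 12 * (c * h / (M * σ)) := ⟨_, rfl⟩
  have a0 : ∑ b ∈ range M, cnt M (fun a => T0 a b) ≤ (s + ω) * (M * M) := by
    refine (R0.touch (T := fun b a => T0 a b) hM hσ hs0 hs1 hh hc hc4
      fun b hb a ha => hT0 a ha b hb).trans (le_of_eq ?_)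
    rw [hω]; ring
  have a1 : ∑ a ∈ range M, cnt M (T1 a) ≤ (s + ω) * (M * M) := by
    refine (R1.touch (T := T1) hM hσ hs0 hs1 hh hc hc4
      fun a ha b hb => hT1 a ha b hb).trans (le_of_eq ?_)
    rw [hω]; ring
  have a0' : ∑ a ∈ range M, cnt M (T0 a) ≤ (s + ω) * (M * M) := by
    rw [cnt_swap]; exact a0
  have a1' : ∑ b ∈ range M, cnt M (fun a => T1 a b) ≤ (s + ω) * (M * M) := by
    rw [← cnt_swap]; exact a1
  have b0 := R0.bad_sum (w := w0) (T := fun b e => T1 e b) hM hσ hc hc4 hD hlam hlam1 hs hε hr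
    hr1 hh hω a1' hN0
  have b1 := R1.bad_sum (w := w1) (T := T0) hM hσ hc hc4 hD hlam hlam1 hs hε hr
    hr1 hh hω a0' hN1
  have hsum : ∀ F : ℕ → ℝ, (∀ b, 0 ≤ F b) → ∑ b ∈ range M, F b ≤ ∑ b ∈ range (M + 1), F b :=
    fun F hF => sum_le_sum_of_subset_of_nonneg (range_mono (Nat.le_succ M)) fun b _ _ => hF b
  have hsum' : ∀ F : ℕ → ℝ, (∀ b, 0 ≤ F b) →
      ∑ b ∈ range M, F (b + 1) ≤ ∑ b ∈ range (M + 1), F b := by
    intro F hF
    rw [sum_range_succ']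
    linarith [hF 0]
  have c0 : ∑ a ∈ range M, cnt M (fun b => Bd r σ Y0 t0 b a) ≤
      ∑ b ∈ range (M + 1), cnt M (Bd r σ Y0 t0 b) := by
    rw [cnt_swap]
    exact hsum (fun b => cnt M (Bd r σ Y0 t0 b)) fun b => cnt_nonneg _ _
  have c0' : ∑ a ∈ range M, cnt M (fun b => Bd r σ Y0 t0 (b + 1) a) ≤
      ∑ b ∈ range (M + 1), cnt M (Bd r σ Y0 t0 b) := by
    rw [cnt_swap M M fun a b => Bd r σ Y0 t0 (b + 1) a]
    exact hsum' (fun b => cnt M (Bd r σ Y0 t0 b)) fun b => cnt_nonneg _ _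
  have c1 : ∑ a ∈ range M, cnt M (fun b => Bd r σ Y1 t1 a b) ≤
      ∑ a ∈ range (M + 1), cnt M (Bd r σ Y1 t1 a) :=
    hsum (fun b => cnt M (Bd r σ Y1 t1 b)) fun b => cnt_nonneg _ _
  have c1' : ∑ a ∈ range M, cnt M (fun b => Bd r σ Y1 t1 (a + 1) b) ≤
      ∑ a ∈ range (M + 1), cnt M (Bd r σ Y1 t1 a) :=
    hsum' (fun b => cnt M (Bd r σ Y1 t1 b)) fun b => cnt_nonneg _ _
  have htot : ∑ a ∈ range M, cnt M (fun b => (T0 a b ∨ T1 a b) ∨
      (Bd r σ Y0 t0 b a ∨ Bd r σ Y0 t0 (b + 1) a) ∨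
      (Bd r σ Y1 t1 a b ∨ Bd r σ Y1 t1 (a + 1) b)) ≤
      ∑ a ∈ range M, (cnt M (T0 a) + cnt M (T1 a) + (cnt M (fun b => Bd r σ Y0 t0 b a) +
        cnt M (fun b => Bd r σ Y0 t0 (b + 1) a) + (cnt M (fun b => Bd r σ Y1 t1 a b) +
        cnt M (fun b => Bd r σ Y1 t1 (a + 1) b)))) := by
    refine sum_le_sum fun a _ => ?_
    refine (cnt_or M _ _).trans (add_le_add (cnt_or M _ _) ?_)
    refine (cnt_or M _ _).trans (add_le_add (cnt_or M _ _) (cnt_or M _ _))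
  simp only [sum_add_distrib] at htot
  exact arith hr hr1 (by positivity) hc hD hlam hs0 hsl hκ hω htot a0' a1
    ((mul_le_mul_of_nonneg_left c0 hr.le).trans b0)
    ((mul_le_mul_of_nonneg_left c0' hr.le).trans b0)
    ((mul_le_mul_of_nonneg_left c1 hr.le).trans b1)
    ((mul_le_mul_of_nonneg_left c1' hr.le).trans b1)

end Vale.Agent.P073.H716
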