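import Vale.Agent.P073.H716.Rows2

/-!
# P073 / H716: [ROWS], one row with absolute errors (real numbers only)
-/

open Set MeasureTheory Filter Finset

namespace Vale.Agent.P073.H716

/-- time in the zone, absolute errors -/
theorem zone_abs {M : ℕ} {σ w h c : ℝ} (hσ : 0 < σ) (hh : 0 < h) (hc : 0 ≤ c)
    (hc4 : 4 * c ≤ 1) {x δ : ℕ → ℝ} {W : Finset ℕ} (hW : W ⊆ range M)
    (hδ0 : ∀ e < M, 0 ≤ δ e) (hx : ∀ e < M, |x (e + 1) - x e - σ| ≤ δ e)
    (hz : ∀ e ∈ W, ∃ k : ℤ, |x e - (w + k * h)| ≤ 2 * c * h ∧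
      |x (e + 1) - (w + k * h)| ≤ 2 * c * h) :
    σ * W.card ≤ 4 * c * (M * σ) + 3 * ∑ e ∈ range M, δ e + 12 * c * h := by
  set φ : ℝ → ℝ := (Zn w h c)ᶜ.indicator fun _ => (1:ℝ) with hφ
  have hφ1 : ∀ t, ‖φ t‖ ≤ 1 := by
    intro t
    rw [hφ]
    by_cases ht : t ∈ (Zn w h c)ᶜ
    · rw [indicator_of_mem ht]; simp
    · rw [indicator_of_notMem ht]; simp
  have hφm : Measurable φ := measurable_const.indicator (measurableSet_Zn w h c).compl
  have hφi : ∀ a b : ℝ, IntervalIntegrable φ volume a b := by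
    intro a b
    refine (intervalIntegrable_const (c := (1:ℝ))).mono_fun hφm.aestronglyMeasurable ?_
    exact Eventually.of_forall fun t => (hφ1 t).trans (by simp)
  have hMσ : 0 ≤ (M : ℝ) * σ := by positivity
  have hS0 : 0 ≤ ∑ e ∈ range M, δ e := sum_nonneg fun e he => hδ0 e (Finset.mem_range.1 he)
  have hch : 0 ≤ c * h := by positivity
  -- each edge
  have hedge : ∀ e < M, ∫ t in x e..x (e + 1), φ t ≤ |x (e + 1) - x e| := by
    intro e _
    have := intervalIntegral.norm_integral_le_of_norm_le_const (a := x e) (b := x (e + 1))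
      (f := φ) (C := 1) fun t _ => hφ1 t
    rw [one_mul] at this
    exact (Real.le_norm_self _).trans this
  have hzone : ∀ e ∈ W, ∫ t in x e..x (e + 1), φ t = 0 := by
    intro e he
    obtain ⟨k, h1, h2⟩ := hz e he
    refine intervalIntegral.integral_zero_ae (Eventually.of_forall fun t ht => ?_)
    have ht' : t ∈ Set.uIcc (x e) (x (e + 1)) := Set.uIoc_subset_uIcc ht
    have h3 : |t - (w + k * h)| ≤ 2 * c * h := by
      rw [abs_le] at h1 h2 ⊢
      rcases Set.mem_uIcc.1 ht' with h4 | h4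
      · constructor <;> linarith [h1.1, h1.2, h2.1, h2.2, h4.1, h4.2]
      · constructor <;> linarith [h1.1, h1.2, h2.1, h2.2, h4.1, h4.2]
    have h4 : t ∉ (Zn w h c)ᶜ := fun hcon => hcon ⟨k, h3⟩
    rw [hφ, indicator_of_notMem h4]
  have hsplit : ∀ F : ℕ → ℝ, ∑ e ∈ range M, F e = ∑ e ∈ range M \ W, F e + ∑ e ∈ W, F e :=
    fun F => (sum_sdiff hW).symm
  have hB : ∑ e ∈ range M, |x (e + 1) - x e| ≤ M * σ + ∑ e ∈ range M, δ e := by
    calc ∑ e ∈ range M, |x (e + 1) - x e| ≤ ∑ e ∈ range M, (σ + δ e) := by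
          refine sum_le_sum fun e he => ?_
          have h1 := abs_le.1 (hx e (Finset.mem_range.1 he))
          rw [abs_le]
          constructor <;> linarith [h1.1, h1.2]
      _ = _ := by rw [sum_add_distrib]; simp
  have hnet : M * σ - ∑ e ∈ range M, δ e ≤ x M - x 0 := by
    rw [← sum_range_sub x]
    have : ∑ e ∈ range M, (σ - δ e) ≤ ∑ e ∈ range M, (x (e + 1) - x e) := by
      refine sum_le_sum fun e he => ?_
      have h1 := abs_le.1 (hx e (Finset.mem_range.1 he))
      linarith [h1.1]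
    rw [sum_sub_distrib, sum_const, card_range, nsmul_eq_mul] at this
    exact this
  have hC : ∑ e ∈ W, |x (e + 1) - x e| ≤ 4 * c * (M * σ) + 2 * ∑ e ∈ range M, δ e +
      12 * c * h := by
    rcases le_or_gt (x 0) (x M) with h0M | h0M
    · have htel : ∫ t in x 0..x M, φ t = ∑ e ∈ range M, ∫ t in x e..x (e + 1), φ t :=
        (intervalIntegral.sum_integral_adjacent_intervals fun e _ => hφi _ _).symm
      have hlow := length_off_zone (w := w) hh hc hc4 h0M
      rw [htel] at hlow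
      have hA : ∑ e ∈ range M, ∫ t in x e..x (e + 1), φ t ≤
          ∑ e ∈ range M \ W, |x (e + 1) - x e| := by
        rw [hsplit, sum_eq_zero hzone, add_zero]
        exact sum_le_sum fun e he => hedge e (Finset.mem_range.1 (Finset.mem_sdiff.1 he).1)
      have h1 := hsplit fun e => |x (e + 1) - x e|
      have h2 : (1 - 4 * c) * (M * σ - ∑ e ∈ range M, δ e) ≤ (1 - 4 * c) * (x M - x 0) :=
        mul_le_mul_of_nonneg_left hnet (by linarith)
      have h3 : 0 ≤ c * ∑ e ∈ range M, δ e := by positivity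
      nlinarith
    · have h1 := sum_le_sum_of_subset_of_nonneg (f := fun e => |x (e + 1) - x e|) hW
        fun e _ _ => abs_nonneg _
      have h3 : 0 ≤ c * (M * σ) := by positivity
      linarith
  have hD : ∑ e ∈ W, σ ≤ ∑ e ∈ W, |x (e + 1) - x e| + ∑ e ∈ range M, δ e := by
    have h1 : ∑ e ∈ W, σ ≤ ∑ e ∈ W, (|x (e + 1) - x e| + δ e) := by
      refine sum_le_sum fun e he => ?_
      have h2 := abs_le.1 (hx e (Finset.mem_range.1 (hW he)))
      have h3 := le_abs_self (x (e + 1) - x e)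
      linarith [h2.1]
    rw [sum_add_distrib] at h1
    have h2 := sum_le_sum_of_subset_of_nonneg (f := δ) hW
      fun e he _ => hδ0 e (Finset.mem_range.1 he)
    linarith
  rw [sum_const, nsmul_eq_mul] at hD
  linarith

/-- the final map on one row, absolute errors -/
theorem row_abs {M : ℕ} {σ c ε r κ : ℝ} (hσ : 0 < σ) (hc : 0 ≤ c) (hc1 : c ≤ 1)
    (hε : 0 ≤ ε) {x y δ t u : ℕ → ℝ} {A B : Finset ℕ} (hA : A ⊆ range M) (hB : B ⊆ A)
    (hδ0 : ∀ e < M, 0 ≤ δ e) (hx : ∀ e < M, |x (e + 1) - x e - σ| ≤ δ e)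
    (hnet : x M - x 0 - 2 * κ ≤ y M - y 0)
    (ht : ∀ e ∈ A, y (e + 1) - y e ≤ t e)
    (htd : ∀ e ∈ A, t e ≤ (1 + c) * (σ + δ e) + ε * σ)
    (hu : ∀ e ∈ range M \ A, |y (e + 1) - y e| ≤ u e)
    (hbad : ∀ e ∈ B, y (e + 1) - y e < (1 - r) * σ ∨ (1 + r) * σ < t e) :
    r * σ * B.card ≤ 5 * ∑ e ∈ range M, δ e + 2 * κ + ∑ e ∈ range M \ A, u e +
      2 * (c + ε) * (M * σ) := by
  set T : ℕ → ℝ := fun e => (c + ε) * σ + 2 * δ e with hT
  have hT0 : ∀ e < M, 0 ≤ T e := by
    intro e he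
    have := hδ0 e he
    simp only [hT]; positivity
  have htT : ∀ e ∈ A, t e ≤ σ + T e := by
    intro e he
    have h1 := hδ0 e (Finset.mem_range.1 (hA he))
    have h2 := htd e he
    have h3 : c * δ e ≤ δ e := by nlinarith
    simp only [hT]
    nlinarith
  have hnet' : M * σ - ∑ e ∈ range M, δ e ≤ x M - x 0 := by
    rw [← sum_range_sub x]
    have : ∑ e ∈ range M, (σ - δ e) ≤ ∑ e ∈ range M, (x (e + 1) - x e) := by
      refine sum_le_sum fun e he => ?_
      have h1 := abs_le.1 (hx e (Finset.mem_range.1 he))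
      linarith [h1.1]
    rw [sum_sub_distrib, sum_const, card_range, nsmul_eq_mul] at this
    exact this
  have hall : ∑ e ∈ range M, (σ - (y (e + 1) - y e)) ≤ ∑ e ∈ range M, δ e + 2 * κ := by
    rw [sum_sub_distrib, sum_range_sub, sum_const, card_range, nsmul_eq_mul]
    linarith
  have hsplit : ∀ F : ℕ → ℝ, ∑ e ∈ range M, F e = ∑ e ∈ range M \ A, F e + ∑ e ∈ A, F e :=
    fun F => (sum_sdiff hA).symm
  have hgood : ∑ e ∈ A, (σ - (y (e + 1) - y e)) ≤ ∑ e ∈ range M, δ e + 2 * κ +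
      ∑ e ∈ range M \ A, u e := by
    have h1 := hsplit fun e => σ - (y (e + 1) - y e)
    have h2 : ∑ e ∈ range M \ A, (-u e) ≤ ∑ e ∈ range M \ A, (σ - (y (e + 1) - y e)) := by
      refine sum_le_sum fun e he => ?_
      have h3 := abs_le.1 (hu e he)
      linarith [h3.2]
    rw [sum_neg_distrib] at h2
    linarith
  have hTs : ∑ e ∈ A, T e ≤ (c + ε) * (M * σ) + 2 * ∑ e ∈ range M, δ e := by
    calc ∑ e ∈ A, T e ≤ ∑ e ∈ range M, T e :=
          sum_le_sum_of_subset_of_nonneg hA fun e he _ => hT0 e (Finset.mem_range.1 he)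
      _ = _ := by
        simp only [hT]
        rw [sum_add_distrib, ← mul_sum _ δ, sum_const, card_range, nsmul_eq_mul]
        ring
  have hsum : ∑ _e ∈ B, r * σ ≤ ∑ e ∈ A, ((σ - (y (e + 1) - y e)) + T e + T e) := by
    refine (sum_le_sum fun e he => ?_).trans (sum_le_sum_of_subset_of_nonneg hB fun e he _ => ?_)
    · have heA := hB he
      have h1 := ht e heA
      have h2 := htT e heA
      have h3 := hT0 e (Finset.mem_range.1 (hA heA))
      have e3 : (1 - r) * σ = σ - r * σ := by ring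
      have e4 : (1 + r) * σ = σ + r * σ := by ring
      rcases hbad e he with h4 | h4
      · rw [e3] at h4; linarith
      · rw [e4] at h4; linarith
    · have h1 := ht e he
      have h2 := htT e he
      have h3 := hT0 e (Finset.mem_range.1 (hA he))
      linarith
  rw [sum_add_distrib, sum_add_distrib, sum_const, nsmul_eq_mul] at hsum
  linarith

end Vale.Agent.P073.H716
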