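import Vale.Agent.P073.H716.RowsE
import Vale.Agent.P073.H716.RowsR
import Vale.Agent.P073.H687.MinSum

/-!
# P073 / H716: [ROWS], positions of squares and edges
-/

open Set MeasureTheory Filter Finset
open scoped ENNReal NNReal

namespace Vale.Agent.P073.H716

open Vale.Agent.P073.St (V euc)
open Vale.Agent.P073.SQ (ev)
open Vale.Agent.P073.AB
open Vale.Agent.P073.H73 (onSeg segP)
open Vale.Agent.P073.H239 (tv)
open Vale.Agent.P073.H235 (xE rect redge)

/-- the position with coordinates `a i + n`, `a j + m` -/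
def pos (i j : Fin 3) (a : Fin 3 → ℤ) (n m : ℕ) : Fin 3 → ℤ :=
  Function.update (Function.update a i (a i + n)) j (a j + m)

variable {i j : Fin 3} {a b : Fin 3 → ℤ}

theorem cs3 (hij : i ≠ j) (hi : i ≠ 2) (hj : j ≠ 2) (l : Fin 3) : l = i ∨ l = j ∨ l = 2 := by
  revert i j l; decide

theorem pos_i (hij : i ≠ j) (n m : ℕ) : pos i j a n m i = a i + n := by simp [pos, hij]

theorem pos_j (n m : ℕ) : pos i j a n m j = a j + m := by simp [pos]

theorem pos_2 (hi : i ≠ 2) (hj : j ≠ 2) (n m : ℕ) : pos i j a n m 2 = a 2 := by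
  simp [pos, hi.symm, hj.symm]

theorem mem_redge (hij : i ≠ j) (hi : i ≠ 2) (hj : j ≠ 2) {k : Fin 3 → ℤ} :
    k ∈ redge a b i ↔ k 2 = a 2 ∧ (a i ≤ k i ∧ k i < b i) ∧ (a j ≤ k j ∧ k j ≤ b j) := by
  rw [redge, Fintype.mem_piFinset]
  constructor
  · intro h
    have h1 := h 2
    have h2 := h i
    have h3 := h j
    rw [if_pos rfl, Finset.mem_singleton] at h1
    rw [if_neg hi, if_pos rfl, Finset.mem_Ico] at h2
    rw [if_neg hj, if_neg hij.symm, Finset.mem_Icc] at h3
    exact ⟨h1, h2, h3⟩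
  · rintro ⟨h1, h2, h3⟩ l
    rcases cs3 hij hi hj l with rfl | rfl | rfl
    · rw [if_neg hi, if_pos rfl, Finset.mem_Ico]; exact h2
    · rw [if_neg hj, if_neg hij.symm, Finset.mem_Icc]; exact h3
    · rw [if_pos rfl, Finset.mem_singleton]; exact h1

theorem mem_rect (hij : i ≠ j) (hi : i ≠ 2) (hj : j ≠ 2) {k : Fin 3 → ℤ} :
    k ∈ rect a b ↔ k 2 = a 2 ∧ (a i ≤ k i ∧ k i < b i) ∧ (a j ≤ k j ∧ k j < b j) := by
  rw [rect, Fintype.mem_piFinset]
  constructor
  · intro h
    have h1 := h 2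
    have h2 := h i
    have h3 := h j
    rw [if_pos rfl, Finset.mem_singleton] at h1
    rw [if_neg hi, Finset.mem_Ico] at h2
    rw [if_neg hj, Finset.mem_Ico] at h3
    exact ⟨h1, h2, h3⟩
  · rintro ⟨h1, h2, h3⟩ l
    rcases cs3 hij hi hj l with rfl | rfl | rfl
    · rw [if_neg hi, Finset.mem_Ico]; exact h2
    · rw [if_neg hj, Finset.mem_Ico]; exact h3
    · rw [if_pos rfl, Finset.mem_singleton]; exact h1

theorem rect_sub_redge (hij : i ≠ j) (hi : i ≠ 2) (hj : j ≠ 2) {k : Fin 3 → ℤ}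
    (h : k ∈ rect a b) : k ∈ redge a b i := by
  rw [mem_rect hij hi hj] at h
  rw [mem_redge hij hi hj]
  exact ⟨h.1, h.2.1, h.2.2.1, h.2.2.2.le⟩

theorem pos_eq (hij : i ≠ j) (hi : i ≠ 2) (hj : j ≠ 2) {k : Fin 3 → ℤ} (h2 : k 2 = a 2)
    (h3 : a i ≤ k i) (h4 : a j ≤ k j) :
    pos i j a (k i - a i).toNat (k j - a j).toNat = k := by
  funext l
  rcases cs3 hij hi hj l with rfl | rfl | rfl
  · rw [pos_i hij, Int.toNat_of_nonneg (by omega)]; omega
  · rw [pos_j, Int.toNat_of_nonneg (by omega)]; omega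
  · rw [pos_2 hi hj, h2]

theorem pos_mem_rect (hij : i ≠ j) (hi : i ≠ 2) (hj : j ≠ 2) {n m : ℕ}
    (hn : n < (b i - a i).toNat) (hm : m < (b j - a j).toNat) : pos i j a n m ∈ rect a b := by
  rw [mem_rect hij hi hj, pos_2 hi hj, pos_i hij, pos_j]
  omega

theorem pos_mem_redge (hij : i ≠ j) (hi : i ≠ 2) (hj : j ≠ 2) (hab : a j < b j) {n m : ℕ}
    (hn : n < (b i - a i).toNat) (hm : m ≤ (b j - a j).toNat) : pos i j a n m ∈ redge a b i := by
  rw [mem_redge hij hi hj, pos_2 hi hj, pos_i hij, pos_j]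
  omega

/-- the edges of direction `i`, row by row -/
theorem sum_redge {E : Type*} [AddCommMonoid E] (hij : i ≠ j) (hi : i ≠ 2) (hj : j ≠ 2)
    (hab : a j < b j) (F : (Fin 3 → ℤ) → E) :
    ∑ k ∈ redge a b i, F k = ∑ m ∈ range ((b j - a j).toNat + 1),
      ∑ n ∈ range (b i - a i).toNat, F (pos i j a n m) := by
  rw [← sum_product']
  symm
  refine sum_nbij' (fun q => pos i j a q.2 q.1)
    (fun k => ((k j - a j).toNat, (k i - a i).toNat)) ?_ ?_ ?_ ?_ ?_
  · rintro ⟨m, n⟩ hq
    rw [Finset.mem_product, Finset.mem_range, Finset.mem_range] at hq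
    exact pos_mem_redge hij hi hj hab hq.2 (Nat.lt_succ_iff.1 hq.1)
  · intro k hk
    rw [mem_redge hij hi hj] at hk
    rw [Finset.mem_product, Finset.mem_range, Finset.mem_range]
    simp only
    omega
  · rintro ⟨m, n⟩ hq
    rw [Finset.mem_product, Finset.mem_range, Finset.mem_range] at hq
    simp only [pos_i hij, pos_j]
    simp
  · intro k hk
    rw [mem_redge hij hi hj] at hk
    exact pos_eq hij hi hj hk.1 hk.2.1.1 hk.2.2.1
  · rintro ⟨m, n⟩ hq
    rfl

/-- the squares, row by row -/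
theorem sum_rect {E : Type*} [AddCommMonoid E] (hij : i ≠ j) (hi : i ≠ 2) (hj : j ≠ 2)
    (F : (Fin 3 → ℤ) → E) :
    ∑ k ∈ rect a b, F k = ∑ m ∈ range (b j - a j).toNat,
      ∑ n ∈ range (b i - a i).toNat, F (pos i j a n m) := by
  rw [← sum_product']
  symm
  refine sum_nbij' (fun q => pos i j a q.2 q.1)
    (fun k => ((k j - a j).toNat, (k i - a i).toNat)) ?_ ?_ ?_ ?_ ?_
  · rintro ⟨m, n⟩ hq
    rw [Finset.mem_product, Finset.mem_range, Finset.mem_range] at hq
    exact pos_mem_rect hij hi hj hq.2 hq.1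
  · intro k hk
    rw [mem_rect hij hi hj] at hk
    rw [Finset.mem_product, Finset.mem_range, Finset.mem_range]
    simp only
    omega
  · rintro ⟨m, n⟩ hq
    rw [Finset.mem_product, Finset.mem_range, Finset.mem_range] at hq
    simp only [pos_i hij, pos_j]
    simp
  · intro k hk
    rw [mem_rect hij hi hj] at hk
    exact pos_eq hij hi hj hk.1 hk.2.1.1 hk.2.2.1
  · rintro ⟨m, n⟩ hq
    rfl

/-- the edges of direction `i` of the square `k` -/
theorem edgeOfSq_iff (hij : i ≠ j) (hi : i ≠ 2) (hj : j ≠ 2) {nS : ℕ} {k k' : Fin 3 → ℤ} :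
    EdgeOfSq ((nS, k'), i) ((nS, k), 2) ↔ k' = k ∨ k' = Function.update k j (k j + 1) := by
  constructor
  · rintro ⟨_, _, h3, h4, h5⟩
    simp only at h3 h4 h5
    rcases h5 j hij.symm hj with h6 | h6
    · left
      funext l
      rcases cs3 hij hi hj l with rfl | rfl | rfl
      · exact h3
      · exact h6
      · exact h4
    · right
      funext l
      rcases cs3 hij hi hj l with rfl | rfl | rfl
      · rw [Function.update_of_ne hij]; exact h3
      · rw [Function.update_self]; exact h6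
      · rw [Function.update_of_ne hj.symm]; exact h4
  · rintro (rfl | rfl)
    · exact ⟨rfl, hi, rfl, rfl, fun l _ _ => Or.inl rfl⟩
    · refine ⟨rfl, hi, ?_, ?_, fun l h1 h2 => ?_⟩
      · simp only [Function.update_of_ne hij]
      · simp only [Function.update_of_ne hj.symm]
      · right
        simp only at h1 h2
        rcases cs3 hij hi hj l with rfl | rfl | rfl
        · exact absurd rfl h1
        · simp
        · exact absurd rfl h2

theorem update_pos (n m : ℕ) : Function.update (pos i j a n m) j (pos i j a n m j + 1) =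
    pos i j a n (m + 1) := by
  rw [pos_j]
  unfold pos
  rw [Function.update_idem]
  push_cast
  rw [add_assoc]

/-- every edge is a side of a square of the rectangle -/
theorem side_pos (hij : i ≠ j) (hi : i ≠ 2) (hj : j ≠ 2) {nS n m : ℕ} {M : ℕ} (hM : 0 < M)
    (hm : m ≤ M) :
    EdgeOfSq ((nS, pos i j a n m), i) ((nS, pos i j a n (min m (M - 1))), 2) := by
  rw [edgeOfSq_iff hij hi hj, update_pos]
  rcases Nat.lt_or_ge m M with h | h
  · left
    have : min m (M - 1) = m := by omega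
    rw [this]
  · right
    have : min m (M - 1) + 1 = m := by omega
    rw [this]

/-- the next vertex -/
theorem pt_pos_succ (hij : i ≠ j) (v : V) (nS n m : ℕ) :
    pt v nS (pos i j a n m) + (1 / 2 ^ nS : ℝ) • (ev i : V) = pt v nS (pos i j a (n + 1) m) := by
  funext l
  by_cases hl : l = i
  · subst hl
    simp only [Pi.add_apply, Pi.smul_apply, pt, pos_i hij, ev, Pi.single_eq_same, smul_eq_mul]
    push_cast
    ring
  · have e1 : pos i j a (n + 1) m l = pos i j a n m l := by
      unfold pos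
      by_cases hj : l = j
      · subst hj; simp
      · rw [Function.update_of_ne hj, Function.update_of_ne hj, Function.update_of_ne hl,
          Function.update_of_ne hl]
    simp only [Pi.add_apply, Pi.smul_apply, pt, e1, ev, Pi.single_eq_of_ne hl, smul_eq_mul,
      mul_zero, add_zero]

end Vale.Agent.P073.H716
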