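import Vale.Agent.P073.H716.RowsP
import Vale.Agent.P073.AB.Sum308b

/-!
# P073 / H716: [ROWS], the two counts for one direction
-/

open Set MeasureTheory Filter Finset
open scoped ENNReal NNReal

namespace Vale.Agent.P073.H716

open Vale.Agent.P073
open Vale.Agent.P073.St (V euc)
open Vale.Agent.P073.SQ (ev)
open Vale.Agent.P073.AB
open Vale.Agent.P073.H73 (onSeg segP)
open Vale.Agent.P073.H239 (tv)
open Vale.Agent.P073.H235 (xE rect redge Free NearMon RowData)
open _root_.P073 (ConHomeo)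

/-- a linear bound by the `p`-th power -/
theorem lin_le {p σ lam : ℝ} (hp : 1 ≤ p) (hσ : 0 < σ) (hlam : 0 < lam) (y : ℝ≥0∞) :
    ENNReal.ofReal σ * y ≤ ENNReal.ofReal (lam * σ ^ 2) + ENNReal.ofReal (lam ^ (1 - p)) *
      (ENNReal.ofReal σ * (ENNReal.ofReal (σ ^ (1 - p)) * y ^ p)) := by
  rcases eq_or_ne y ⊤ with rfl | hy
  · have h1 : (⊤ : ℝ≥0∞) ^ p = ⊤ := ENNReal.top_rpow_of_pos (by linarith)
    have h2 : ENNReal.ofReal (σ ^ (1 - p)) ≠ 0 := by
      simp only [ne_eq, ENNReal.ofReal_eq_zero, not_le]; positivity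
    have h3 : ENNReal.ofReal σ ≠ 0 := by simp [hσ]
    have h4 : ENNReal.ofReal (lam ^ (1 - p)) ≠ 0 := by
      simp only [ne_eq, ENNReal.ofReal_eq_zero, not_le]; positivity
    rw [h1, ENNReal.mul_top h2, ENNReal.mul_top h3, ENNReal.mul_top h4, add_top]
  obtain ⟨t, ht0, rfl⟩ : ∃ t : ℝ, 0 ≤ t ∧ y = ENNReal.ofReal t :=
    ⟨y.toReal, ENNReal.toReal_nonneg, (ENNReal.ofReal_toReal hy).symm⟩
  rcases le_or_gt t (lam * σ) with h | h
  · refine le_trans ?_ le_self_add
    rw [← ENNReal.ofReal_mul hσ.le]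
    refine ENNReal.ofReal_le_ofReal ?_
    nlinarith
  · refine le_trans ?_ le_add_self
    have ht : 0 < t := lt_trans (by positivity) h
    have e0 : ENNReal.ofReal (σ ^ (1 - p)) * ENNReal.ofReal t ^ p =
        ENNReal.ofReal (σ ^ (1 - p) * t ^ p) := by
      rw [ENNReal.ofReal_rpow_of_pos ht, ENNReal.ofReal_mul (by positivity)]
    rw [e0, ← ENNReal.ofReal_mul hσ.le, ← ENNReal.ofReal_mul hσ.le,
      ← ENNReal.ofReal_mul (by positivity)]
    refine ENNReal.ofReal_le_ofReal ?_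
    have h1 : 1 ≤ (lam * σ) ^ (1 - p) * t ^ (p - 1) := by
      have h2 : (lam * σ) ^ (1 - p) = ((lam * σ) ^ (p - 1))⁻¹ := by
        rw [← Real.rpow_neg (by positivity)]; congr 1; ring
      rw [h2, ← div_eq_inv_mul, one_le_div (by positivity)]
      exact Real.rpow_le_rpow (by positivity) h.le (by linarith)
    have h3 : t ^ p = t ^ (p - 1) * t := by
      rw [← Real.rpow_add_one ht.ne']; congr 1; ring
    rw [h3, Real.mul_rpow hlam.le hσ.le] at *
    have h4 : lam ^ (1 - p) * (σ * (σ ^ (1 - p) * (t ^ (p - 1) * t))) =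
        (lam ^ (1 - p) * σ ^ (1 - p) * t ^ (p - 1)) * (σ * t) := by ring
    rw [h4]
    have h5 : 0 ≤ σ * t := by positivity
    nlinarith

variable {Ω Λ : Set V} {p C D c ε : ℝ} {v : V} {nS mt : ℕ} {a b : Fin 3 → ℤ}
  {G : Finset (Fin 3 → ℤ)} {h g : ConHomeo Ω Λ} {ℓ X : Idx × Fin 3 → ℝ≥0∞} {i j : Fin 3}

/-- both ends of the edge are near the same wall -/
def Zo (c : ℝ) (v : V) (nS mt : ℕ) (h : V → V) (i : Fin 3) (k : Fin 3 → ℤ) : Prop :=
  ∃ z : ℤ, |h (segP v ((nS, k), i)).1 i - z / 2 ^ mt| ≤ 2 * c / 2 ^ mt ∧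
    |h (segP v ((nS, k), i)).2 i - z / 2 ^ mt| ≤ 2 * c / 2 ^ mt

/-- the edge is a side of a good free square -/
def GoodE (c : ℝ) (v : V) (nS mt : ℕ) (h : V → V) (G : Finset (Fin 3 → ℤ)) (i : Fin 3)
    (k : Fin 3 → ℤ) : Prop :=
  ∃ k' ∈ G, Free c v nS mt h k' ∧ EdgeOfSq ((nS, k), i) ((nS, k'), 2)

/-- the edge is not nearly monotone -/
def NotMon (r : ℝ) (v : V) (nS : ℕ) (g : V → V) (i : Fin 3) (k : Fin 3 → ℤ) : Prop :=
  g (segP v ((nS, k), i)).2 i - g (segP v ((nS, k), i)).1 i < (1 - r) / 2 ^ nS ∨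
    ENNReal.ofReal ((1 + r) / 2 ^ nS) < tv g (segP v ((nS, k), i)) Finset.univ

/-- the bound of the displacement on the sides of a square -/
noncomputable def Qr (ε : ℝ) (nS : ℕ) (ℓ : Idx × Fin 3 → ℝ≥0∞) (k : Fin 3 → ℤ) : ℝ≥0∞ :=
  ∑' e' : {e' : Idx × Fin 3 // EdgeOfSq e' ((nS, k), 2)}, (ℓ e'.1 + ENNReal.ofReal (ε / 2 ^ nS))

theorem segP_pos (hij : i ≠ j) (n m : ℕ) : segP v ((nS, pos i j a n m), i) =
    (pt v nS (pos i j a n m), pt v nS (pos i j a (n + 1) m)) := by
  unfold segP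
  rw [pt_pos_succ hij]

theorem edge_sub_Ω (H : RowData p C D c ε v nS mt a b G h g ℓ X) (hij : i ≠ j) (hi : i ≠ 2)
    (hj : j ≠ 2) {k : Fin 3 → ℤ} (hk : k ∈ redge a b i) : edge v ((nS, k), i) ⊆ Ω := by
  have hab := (H.size j hj).1
  have hk' := (mem_redge hij hi hj).1 hk
  obtain ⟨n, m, hn, hm, rfl⟩ : ∃ n m : ℕ, n < (b i - a i).toNat ∧ m ≤ (b j - a j).toNat ∧
      k = pos i j a n m :=
    ⟨(k i - a i).toNat, (k j - a j).toNat, by omega, by omega,
      (pos_eq hij hi hj hk'.1 hk'.2.1.1 hk'.2.2.1).symm⟩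
  have hM : 0 < (b j - a j).toNat := by omega
  have hs := side_pos (nS := nS) (n := n) (a := a) hij hi hj hM hm
  exact (S308.edge_sub_squ hs).trans
    (H.sub _ (pos_mem_rect hij hi hj hn (by omega)))

theorem size_le (H : RowData p C D c ε v nS mt a b G h g ℓ X) (hi : i ≠ 2) :
    ((b i - a i).toNat : ℝ) * (1 / 2 ^ nS) ≤ 1 := by
  obtain ⟨h1, h2⟩ := H.size i hi
  have h3 : (((b i - a i).toNat : ℕ) : ℤ) ≤ 2 ^ nS := by
    rw [Int.toNat_of_nonneg (by omega)]; exact h2
  have h4 : ((b i - a i).toNat : ℝ) ≤ 2 ^ nS := by exact_mod_cast h3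
  rw [mul_one_div, div_le_one (by positivity)]
  exact h4

theorem rows_le (H : RowData p C D c ε v nS mt a b G h g ℓ X) (hj : j ≠ 2) :
    ((((b j - a j).toNat + 1 : ℕ)) : ℝ) * (1 / 2 ^ nS) ≤ 2 := by
  have h1 := size_le H hj
  have h2 : (1:ℝ) / 2 ^ nS ≤ 1 := by
    rw [div_le_one (by positivity)]
    exact one_le_pow₀ (by norm_num)
  push_cast
  linarith

theorem net_h (H : RowData p C D c ε v nS mt a b G h g ℓ X) (hij : i ≠ j) (hi : i ≠ 2)
    (hj : j ≠ 2) (hX : ∀ k ∈ redge a b i, X ((nS, k), i) ≠ ⊤) {n m : ℕ}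
    (hn : n < (b i - a i).toNat) (hm : m ≤ (b j - a j).toNat) :
    |h.toFun (pt v nS (pos i j a (n + 1) m)) i - h.toFun (pt v nS (pos i j a n m)) i -
      1 / 2 ^ nS| ≤ (X ((nS, pos i j a n m), i)).toReal := by
  have hk := pos_mem_redge (a := a) (b := b) hij hi hj (H.size j hj).1 hn hm
  have h1 := (net_edge_le h (edge_sub_Ω H hij hi hj hk) hi).trans (H.near i hi _ hk)
  rw [segP_pos hij] at h1
  exact (ENNReal.ofReal_le_iff_le_toReal (hX _ hk)).1 h1

open Classical in
/-- **the zone**: the edges of direction `i` with both ends near a wall perpendicular to `i` -/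
theorem dir_zone (H : RowData p C D c ε v nS mt a b G h g ℓ X) (hij : i ≠ j) (hi : i ≠ 2)
    (hj : j ≠ 2) (hc : 0 ≤ c) (hc4 : 4 * c ≤ 1) (hX : ∀ k ∈ redge a b i, X ((nS, k), i) ≠ ⊤) :
    (1 / 2 ^ nS : ℝ) ^ 2 * (((redge a b i).filter (Zo c v nS mt h.toFun i)).card : ℝ) ≤
      8 * c + 3 * ∑ k ∈ redge a b i, (1 / 2 ^ nS) * (X ((nS, k), i)).toReal +
        24 * c * (1 / 2 ^ mt) := by
  have hab := (H.size j hj).1
  have hσ : (0:ℝ) < 1 / 2 ^ nS := by positivity
  have e1 : (((redge a b i).filter (Zo c v nS mt h.toFun i)).card : ℝ) =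
      ∑ m ∈ range ((b j - a j).toNat + 1),
        (((range (b i - a i).toNat).filter
          (fun n => Zo c v nS mt h.toFun i (pos i j a n m))).card : ℝ) := by
    simp only [card_filter]
    push_cast
    rw [sum_redge hij hi hj hab]
  have hrow : ∀ m ∈ range ((b j - a j).toNat + 1), (1 / 2 ^ nS : ℝ) ^ 2 *
      (((range (b i - a i).toNat).filter
          (fun n => Zo c v nS mt h.toFun i (pos i j a n m))).card : ℝ) ≤
      (1 / 2 ^ nS) * (4 * c + 12 * c * (1 / 2 ^ mt)) +
        3 * ∑ n ∈ range (b i - a i).toNat,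
          (1 / 2 ^ nS) * (X ((nS, pos i j a n m), i)).toReal := by
    intro m hm
    have hm' : m ≤ (b j - a j).toNat := Nat.lt_succ_iff.1 (Finset.mem_range.1 hm)
    have h1 := zone_abs (M := (b i - a i).toNat) (σ := 1 / 2 ^ nS) (w := 0) (h := 1 / 2 ^ mt)
      (c := c) (x := fun n => h.toFun (pt v nS (pos i j a n m)) i)
      (δ := fun n => (X ((nS, pos i j a n m), i)).toReal)
      (W := (range (b i - a i).toNat).filter
          (fun n => Zo c v nS mt h.toFun i (pos i j a n m)))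
      hσ (by positivity) hc hc4 (filter_subset _ _) (fun _ _ => ENNReal.toReal_nonneg)
      (fun n hn => net_h H hij hi hj hX hn hm') (by
        intro n hn
        obtain ⟨z, hz1, hz2⟩ := (Finset.mem_filter.1 hn).2
        rw [segP_pos hij] at hz1 hz2
        refine ⟨z, ?_, ?_⟩
        · rw [zero_add, mul_one_div, mul_one_div]; exact hz1
        · rw [zero_add, mul_one_div, mul_one_div]; exact hz2)
    have h2 := size_le H hi
    have h3 : 4 * c * (((b i - a i).toNat : ℝ) * (1 / 2 ^ nS)) ≤ 4 * c * 1 := by gcongr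
    have h4 := mul_le_mul_of_nonneg_left (h1.trans (add_le_add_left (add_le_add_left h3 _) _)) hσ.le
    calc _ = (1 / 2 ^ nS : ℝ) * ((1 / 2 ^ nS) * (((range (b i - a i).toNat).filter
          (fun n => Zo c v nS mt h.toFun i (pos i j a n m))).card : ℝ)) := by ring
      _ ≤ _ := h4
      _ = _ := by rw [← mul_sum]; ring
  rw [e1, mul_sum]
  refine (sum_le_sum hrow).trans ?_
  rw [sum_add_distrib, sum_const, card_range, nsmul_eq_mul, ← mul_sum, sum_redge hij hi hj hab]
  have h5 := rows_le H hj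
  have h6 : ((((b j - a j).toNat + 1 : ℕ)) : ℝ) * (1 / 2 ^ nS * (4 * c + 12 * c * (1 / 2 ^ mt))) ≤
      2 * (4 * c + 12 * c * (1 / 2 ^ mt)) := by
    rw [← mul_assoc]
    gcongr
  linarith

theorem left_mem_edge (v : V) (e : Idx × Fin 3) : (segP v e).1 ∈ edge v e :=
  left_mem_segment ℝ _ _

theorem right_mem_edge (v : V) (e : Idx × Fin 3) : (segP v e).2 ∈ edge v e :=
  right_mem_segment ℝ _ _

/-- displacement of one component -/
theorem disp_le_tv (g : V → V) (e : V × V) (i : Fin 3) :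
    ENNReal.ofReal |g e.2 i - g e.1 i| ≤ tv g e Finset.univ := by
  have h1 := eVariationOn.edist_le (fun t => onSeg g e t i)
    (Set.right_mem_Icc.2 (zero_le_one' ℝ)) (Set.left_mem_Icc.2 (zero_le_one' ℝ))
  have e2 : edist (onSeg g e 1 i) (onSeg g e 0 i) = ENNReal.ofReal |g e.2 i - g e.1 i| := by
    rw [edist_dist, Real.dist_eq]
    simp only [onSeg, one_smul, zero_smul, add_zero, add_sub_cancel]
  rw [e2] at h1
  exact h1.trans (Finset.single_le_sum (f := fun i => eVariationOn (fun t => onSeg g e t i)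
    (Icc 0 1)) (fun _ _ => zero_le) (Finset.mem_univ i))

theorem ofReal_lt_toReal {x : ℝ} {y : ℝ≥0∞} (hy : y ≠ ⊤) (h : ENNReal.ofReal x < y) :
    x < y.toReal := by
  by_contra hcon
  have h1 := ENNReal.ofReal_le_ofReal (not_lt.1 hcon)
  rw [ENNReal.ofReal_toReal hy] at h1
  exact absurd h (not_lt.2 h1)

/-- the variation of `g` on a side of a good free square -/
theorem tv_good (H : RowData p C D c ε v nS mt a b G h g ℓ X) (hij : i ≠ j) (hi : i ≠ 2)
    (hj : j ≠ 2) {k : Fin 3 → ℤ} (hk : k ∈ redge a b i)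
    (hG : GoodE c v nS mt h.toFun G i k) :
    tv g.toFun (segP v ((nS, k), i)) Finset.univ ≤
      ENNReal.ofReal (1 + c) * (ENNReal.ofReal (1 / 2 ^ nS) + X ((nS, k), i)) +
        ENNReal.ofReal (ε / 2 ^ nS) := by
  obtain ⟨k', hk', hF, he⟩ := hG
  refine (H.tv k' hk' hF _ he).trans ?_
  gcongr
  refine (tv_edge_le h (edge_sub_Ω H hij hi hj hk)).trans ?_
  gcongr
  exact H.near i hi k hk

/-- a sum over all rows, each edge belongs to a square -/
theorem sum_min_le {M : ℕ} (hM : 0 < M) {S : ℕ → ℝ} (hS : ∀ m, 0 ≤ S m) :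
    ∑ m ∈ range (M + 1), S (min m (M - 1)) ≤ 2 * ∑ m ∈ range M, S m := by
  rw [sum_range_succ]
  have e1 : ∑ m ∈ range M, S (min m (M - 1)) = ∑ m ∈ range M, S m := by
    refine sum_congr rfl fun m hm => ?_
    have : min m (M - 1) = m := by
      have := Finset.mem_range.1 hm
      omega
    rw [this]
  have e2 : S (min M (M - 1)) ≤ ∑ m ∈ range M, S m := by
    have h3 : min M (M - 1) = M - 1 := by omega
    rw [h3]
    exact single_le_sum (f := S) (fun m _ => hS m) (Finset.mem_range.2 (by omega))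
  rw [e1]
  linarith

open Classical in
/-- **the bad edges** of direction `i` -/
theorem dir_bad (H : RowData p C D c ε v nS mt a b G h g ℓ X) (hij : i ≠ j) (hi : i ≠ 2)
    (hj : j ≠ 2) (hc : 0 ≤ c) (hc1 : c ≤ 1) (hε : 0 ≤ ε) (hD : 0 ≤ D) {r : ℝ}
    (hX : ∀ k ∈ redge a b i, X ((nS, k), i) ≠ ⊤) (hQ : ∀ k ∈ rect a b, Qr ε nS ℓ k ≠ ⊤) :
    r * ((1 / 2 ^ nS : ℝ) ^ 2 * (((redge a b i).filter (fun k =>
      GoodE c v nS mt h.toFun G i k ∧ NotMon r v nS g.toFun i k)).card : ℝ)) ≤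
      5 * ∑ k ∈ redge a b i, (1 / 2 ^ nS) * (X ((nS, k), i)).toReal + 4 * (D / 2 ^ mt) +
        2 * ∑ k ∈ (rect a b).filter (fun k => ¬ (k ∈ G ∧ Free c v nS mt h.toFun k)),
          (1 / 2 ^ nS) * (D * (Qr ε nS ℓ k).toReal) + 4 * (c + ε) := by
  have hab := (H.size j hj).1
  have habi := (H.size i hi).1
  have hMi : 0 < (b i - a i).toNat := by omega
  have hMj : 0 < (b j - a j).toNat := by omega
  have hσ : (0:ℝ) < 1 / 2 ^ nS := by positivity
  set Mi := (b i - a i).toNat with hMid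
  set Mj := (b j - a j).toNat with hMjd
  -- facts about edges
  have htvt : ∀ k ∈ redge a b i, GoodE c v nS mt h.toFun G i k →
      tv g.toFun (segP v ((nS, k), i)) Finset.univ ≠ ⊤ ∧
      (tv g.toFun (segP v ((nS, k), i)) Finset.univ).toReal ≤
        (1 + c) * (1 / 2 ^ nS + (X ((nS, k), i)).toReal) + ε * (1 / 2 ^ nS) := by
    intro k hk hG
    have h1 := tv_good H hij hi hj hk hG
    have h2 : ENNReal.ofReal (1 + c) * (ENNReal.ofReal (1 / 2 ^ nS) + X ((nS, k), i)) +
        ENNReal.ofReal (ε / 2 ^ nS) = ENNReal.ofReal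
          ((1 + c) * (1 / 2 ^ nS + (X ((nS, k), i)).toReal) + ε * (1 / 2 ^ nS)) := by
      have h3 : (0:ℝ) ≤ (1 + c) * (1 / 2 ^ nS + (X ((nS, k), i)).toReal) := by positivity
      have h4 : (0:ℝ) ≤ 1 + c := by positivity
      rw [ENNReal.ofReal_add h3 (by positivity), ENNReal.ofReal_mul h4,
        ENNReal.ofReal_add (p := (1:ℝ) / 2 ^ nS) (by positivity) ENNReal.toReal_nonneg,
        ENNReal.ofReal_toReal (hX k hk), mul_one_div]
    rw [h2] at h1
    exact ⟨ne_top_of_le_ne_top ENNReal.ofReal_ne_top h1,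
      ENNReal.toReal_le_of_le_ofReal (by positivity) h1⟩
  have hvert : ∀ n m : ℕ, n < Mi → m ≤ Mj →
      |g.toFun (pt v nS (pos i j a n m)) i - h.toFun (pt v nS (pos i j a n m)) i| ≤ D / 2 ^ mt ∧
      |g.toFun (pt v nS (pos i j a (n + 1) m)) i - h.toFun (pt v nS (pos i j a (n + 1) m)) i| ≤
        D / 2 ^ mt := by
    intro n m hn hm
    have hs := side_pos (nS := nS) (n := n) (a := a) hij hi hj hMj hm
    have hk' : pos i j a n (min m (Mj - 1)) ∈ rect a b :=
      pos_mem_rect hij hi hj hn (by omega)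
    have h1 := S308.edge_sub_squ (v := v) hs (left_mem_edge v _)
    have h2 := S308.edge_sub_squ (v := v) hs (right_mem_edge v _)
    rw [segP_pos hij] at h1 h2
    have h3 := H.app _ hk' _ h1
    have h4 := H.app _ hk' _ h2
    have h5 := norm_le_pi_norm (g.toFun (pt v nS (pos i j a n m)) -
      h.toFun (pt v nS (pos i j a n m))) i
    have h6 := norm_le_pi_norm (g.toFun (pt v nS (pos i j a (n + 1) m)) -
      h.toFun (pt v nS (pos i j a (n + 1) m))) i
    rw [Real.norm_eq_abs, Pi.sub_apply] at h5 h6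
    exact ⟨h5.trans h3, h6.trans h4⟩
  -- one row
  have hrow : ∀ m ∈ range (Mj + 1), r * ((1 / 2 ^ nS : ℝ) ^ 2 *
      (((range Mi).filter (fun n => GoodE c v nS mt h.toFun G i (pos i j a n m) ∧
        NotMon r v nS g.toFun i (pos i j a n m))).card : ℝ)) ≤
      5 * ∑ n ∈ range Mi, (1 / 2 ^ nS) * (X ((nS, pos i j a n m), i)).toReal +
      (1 / 2 ^ nS) * (2 * (D / 2 ^ mt) + 2 * (c + ε)) +
      ∑ n ∈ (range Mi).filter (fun n => ¬ (pos i j a n (min m (Mj - 1)) ∈ G ∧
        Free c v nS mt h.toFun (pos i j a n (min m (Mj - 1))))),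
          (1 / 2 ^ nS) * (D * (Qr ε nS ℓ (pos i j a n (min m (Mj - 1)))).toReal) := by
    intro m hm
    have hm' : m ≤ Mj := Nat.lt_succ_iff.1 (Finset.mem_range.1 hm)
    have hmin : min m (Mj - 1) < Mj := by omega
    set A := (range Mi).filter (fun n => GoodE c v nS mt h.toFun G i (pos i j a n m)) with hAd
    have h1 := row_abs (M := Mi) (σ := 1 / 2 ^ nS) (c := c) (ε := ε) (r := r) (κ := D / 2 ^ mt)
      (x := fun n => h.toFun (pt v nS (pos i j a n m)) i)
      (y := fun n => g.toFun (pt v nS (pos i j a n m)) i)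
      (δ := fun n => (X ((nS, pos i j a n m), i)).toReal)
      (t := fun n => (tv g.toFun (segP v ((nS, pos i j a n m), i)) Finset.univ).toReal)
      (u := fun n => D * (Qr ε nS ℓ (pos i j a n (min m (Mj - 1)))).toReal)
      (A := A) (B := (range Mi).filter (fun n => GoodE c v nS mt h.toFun G i (pos i j a n m) ∧
        NotMon r v nS g.toFun i (pos i j a n m))) hσ hc hc1 hε (filter_subset _ _)
      (by
        intro n hn
        rw [Finset.mem_filter] at hn
        rw [hAd, Finset.mem_filter]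
        exact ⟨hn.1, hn.2.1⟩)
      (fun _ _ => ENNReal.toReal_nonneg)
      (fun n hn => net_h H hij hi hj hX hn hm') (by
        have h2 := abs_le.1 (hvert 0 m hMi hm').1
        have h3 := (hvert (Mi - 1) m (by omega) hm').2
        have e : Mi - 1 + 1 = Mi := by omega
        rw [e] at h3
        have h4 := abs_le.1 h3
        linarith [h2.1, h2.2, h4.1, h4.2]) (by
        intro n hn
        rw [hAd, Finset.mem_filter] at hn
        have hk := pos_mem_redge (a := a) (b := b) hij hi hj hab (Finset.mem_range.1 hn.1) hm'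
        have h2 := disp_le_tv g.toFun (segP v ((nS, pos i j a n m), i)) i
        rw [ENNReal.ofReal_le_iff_le_toReal (htvt _ hk hn.2).1] at h2
        have h3 := (le_abs_self _).trans h2
        rw [segP_pos hij] at h3 ⊢
        exact h3) (by
        intro n hn
        rw [hAd, Finset.mem_filter] at hn
        have hk := pos_mem_redge (a := a) (b := b) hij hi hj hab (Finset.mem_range.1 hn.1) hm'
        exact (htvt _ hk hn.2).2) (by
        intro n hn
        have hn' := Finset.mem_range.1 (Finset.mem_sdiff.1 hn).1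
        have hs := side_pos (nS := nS) (n := n) (a := a) hij hi hj hMj hm'
        have hk' : pos i j a n (min m (Mj - 1)) ∈ rect a b := pos_mem_rect hij hi hj hn' hmin
        have h2 := H.disp _ hk' _ hs
        have h3 : ENNReal.ofReal ‖g.toFun (segP v ((nS, pos i j a n m), i)).2 -
            g.toFun (segP v ((nS, pos i j a n m), i)).1‖ ≤
            ENNReal.ofReal (D * (Qr ε nS ℓ (pos i j a n (min m (Mj - 1)))).toReal) := by
          rw [ENNReal.ofReal_mul hD, ENNReal.ofReal_toReal (hQ _ hk')]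
          exact h2
        have h4 := (ENNReal.ofReal_le_ofReal_iff (by positivity)).1 h3
        rw [segP_pos hij] at h4
        have h5 := norm_le_pi_norm (g.toFun (pt v nS (pos i j a (n + 1) m)) -
          g.toFun (pt v nS (pos i j a n m))) i
        rw [Real.norm_eq_abs, Pi.sub_apply] at h5
        exact h5.trans h4) (by
        intro n hn
        rw [Finset.mem_filter] at hn
        have hk := pos_mem_redge (a := a) (b := b) hij hi hj hab (Finset.mem_range.1 hn.1) hm'
        rcases hn.2.2 with h2 | h2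
        · left
          rw [segP_pos hij] at h2
          rw [mul_one_div]
          exact h2
        · right
          rw [mul_one_div]
          exact ofReal_lt_toReal (htvt _ hk hn.2.1).1 h2)
    have h2 := size_le H hi
    have h3 : 2 * (c + ε) * ((Mi : ℝ) * (1 / 2 ^ nS)) ≤ 2 * (c + ε) * 1 := by gcongr
    have h4 : ∑ n ∈ range Mi \ A, D * (Qr ε nS ℓ (pos i j a n (min m (Mj - 1)))).toReal ≤
        ∑ n ∈ (range Mi).filter (fun n => ¬ (pos i j a n (min m (Mj - 1)) ∈ G ∧
          Free c v nS mt h.toFun (pos i j a n (min m (Mj - 1))))),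
          D * (Qr ε nS ℓ (pos i j a n (min m (Mj - 1)))).toReal := by
      refine sum_le_sum_of_subset_of_nonneg ?_ fun _ _ _ => by positivity
      intro n hn
      rw [Finset.mem_sdiff, hAd, Finset.mem_filter] at hn
      rw [Finset.mem_filter]
      refine ⟨hn.1, fun hcon => hn.2 ⟨hn.1, _, hcon.1, hcon.2, ?_⟩⟩
      exact side_pos (nS := nS) (n := n) (a := a) hij hi hj hMj hm'
    have h5 := mul_le_mul_of_nonneg_left (h1.trans (add_le_add (add_le_add_right h4 _) h3)) hσ.le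
    rw [← mul_sum, ← mul_sum]
    refine le_trans (le_of_eq ?_) (h5.trans (le_of_eq ?_))
    · ring
    · ring
  have e1 : (((redge a b i).filter (fun k =>
      GoodE c v nS mt h.toFun G i k ∧ NotMon r v nS g.toFun i k)).card : ℝ) =
      ∑ m ∈ range (Mj + 1), (((range Mi).filter (fun n =>
        GoodE c v nS mt h.toFun G i (pos i j a n m) ∧
        NotMon r v nS g.toFun i (pos i j a n m))).card : ℝ) := by
    simp only [card_filter]
    push_cast
    rw [sum_redge hij hi hj hab]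
  have hS : ∀ m, 0 ≤ ∑ n ∈ (range Mi).filter (fun n => ¬ (pos i j a n m ∈ G ∧
      Free c v nS mt h.toFun (pos i j a n m))),
        (1 / 2 ^ nS : ℝ) * (D * (Qr ε nS ℓ (pos i j a n m)).toReal) :=
    fun m => sum_nonneg fun _ _ => by positivity
  have e2 : ∑ k ∈ (rect a b).filter (fun k => ¬ (k ∈ G ∧ Free c v nS mt h.toFun k)),
      (1 / 2 ^ nS : ℝ) * (D * (Qr ε nS ℓ k).toReal) = ∑ m ∈ range Mj,
        ∑ n ∈ (range Mi).filter (fun n => ¬ (pos i j a n m ∈ G ∧
          Free c v nS mt h.toFun (pos i j a n m))),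
          (1 / 2 ^ nS : ℝ) * (D * (Qr ε nS ℓ (pos i j a n m)).toReal) := by
    simp only [sum_filter]
    rw [sum_rect hij hi hj]
  have h6 := sum_min_le hMj hS
  have h7 := rows_le H hj
  have h8 : ((Mj + 1 : ℕ) : ℝ) * (1 / 2 ^ nS * (2 * (D / 2 ^ mt) + 2 * (c + ε))) ≤
      2 * (2 * (D / 2 ^ mt) + 2 * (c + ε)) := by
    rw [← mul_assoc]
    gcongr
  rw [e1, mul_sum, mul_sum, e2, sum_redge hij hi hj hab]
  refine (sum_le_sum hrow).trans ?_
  rw [sum_add_distrib, sum_add_distrib, sum_const, card_range, nsmul_eq_mul, ← mul_sum]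
  linarith

end Vale.Agent.P073.H716
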